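import Vale.Agent.P271.H.Calc

/-! P271 H/Mol: mollification on the coordinate space. -/

open MeasureTheory Set Filter Topology
open scoped ContDiff ENNReal ComplexConjugate

noncomputable section

namespace Vale.Agent.P271

variable {n : ℕ}

theorem mol_scheffe {F : ℕ → E n → ℂ} {f : E n → ℂ} (hF : ∀ m, MemLp (F m) 2 volume) (hf : MemLp f 2 volume)
    (hle : ∀ m, ∫ X, ‖F m X‖ ^ 2 ≤ ∫ X, ‖f X‖ ^ 2)
    (hae : ∀ᵐ X, Tendsto (fun m => F m X) atTop (𝓝 (f X))) :
    Tendsto (fun m => ∫ X, ‖F m X - f X‖ ^ 2) atTop (𝓝 0) := by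
  have i0 : Integrable fun X => ‖f X‖ ^ 2 := hf.norm.integrable_sq
  have i1 : ∀ m, Integrable fun X => ‖F m X‖ ^ 2 := fun m => (hF m).norm.integrable_sq
  have i2 : ∀ m, Integrable fun X => ‖F m X - f X‖ ^ 2 := fun m =>
    ((hF m).sub hf).norm.integrable_sq
  have i3 : ∀ m, Integrable fun X => 2 * ‖F m X‖ ^ 2 + 2 * ‖f X‖ ^ 2 := fun m =>
    ((i1 m).const_mul 2).add (i0.const_mul 2)
  have i4 : ∀ m, Integrable fun X => 2 * ‖F m X‖ ^ 2 + 2 * ‖f X‖ ^ 2 - ‖F m X - f X‖ ^ 2 :=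
    fun m => (i3 m).sub (i2 m)
  have i5 : ∀ m, Integrable fun X =>
      min (2 * ‖F m X‖ ^ 2 + 2 * ‖f X‖ ^ 2 - ‖F m X - f X‖ ^ 2) (4 * ‖f X‖ ^ 2) :=
    fun m => (i4 m).inf (i0.const_mul 4)
  have h1 : Tendsto (fun m => ∫ X,
      min (2 * ‖F m X‖ ^ 2 + 2 * ‖f X‖ ^ 2 - ‖F m X - f X‖ ^ 2) (4 * ‖f X‖ ^ 2)) atTop
      (𝓝 (∫ X, 4 * ‖f X‖ ^ 2)) := by
    refine tendsto_integral_of_dominated_convergence (fun X => 4 * ‖f X‖ ^ 2)
      (fun m => (i5 m).aestronglyMeasurable) (i0.const_mul 4)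
      (fun m => Eventually.of_forall fun X => ?_) ?_
    · have h2 : ‖F m X - f X‖ ^ 2 ≤ (‖F m X‖ + ‖f X‖) ^ 2 :=
        pow_le_pow_left₀ (norm_nonneg _) (norm_sub_le _ _) 2
      rw [Real.norm_of_nonneg (le_min (by nlinarith [sq_nonneg (‖F m X‖ - ‖f X‖)]) (by positivity))]
      exact min_le_right _ _
    · filter_upwards [hae] with X hX
      have h2 := ((((hX.norm.pow 2).const_mul 2).add_const (2 * ‖f X‖ ^ 2)).sub
        ((hX.sub_const (f X)).norm.pow 2)).min (tendsto_const_nhds (x := 4 * ‖f X‖ ^ 2))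
      have h3 : 2 * ‖f X‖ ^ 2 + 2 * ‖f X‖ ^ 2 - ‖f X - f X‖ ^ 2 = 4 * ‖f X‖ ^ 2 := by
        rw [sub_self, norm_zero]
        ring
      rwa [h3, min_self] at h2
  have h2 := h1.const_sub (∫ X, 4 * ‖f X‖ ^ 2)
  rw [sub_self] at h2
  refine squeeze_zero (fun m => integral_nonneg fun X => by positivity) (fun m => ?_) h2
  have h3 := integral_mono (i5 m) (i4 m) fun X => min_le_left _ _
  rw [integral_sub (i3 m) (i2 m), integral_add ((i1 m).const_mul 2) (i0.const_mul 2),
    integral_const_mul, integral_const_mul] at h3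
  rw [integral_const_mul]
  linarith [hle m]

open scoped Convolution

/-- the bump functions used for the mollification -/
def molBump (n m : ℕ) : ContDiffBump (0 : E n) :=
  ⟨1 / ((m : ℝ) + 1), 2 * (1 / ((m : ℝ) + 1)), by positivity, by
    have : (0 : ℝ) < 1 / ((m : ℝ) + 1) := by positivity
    linarith⟩

theorem mol_conv_ae {f : E n → ℂ} (hf : MemLp f 2 volume) : ∀ᵐ X, Tendsto (fun m =>
    ((molBump n m).normed volume ⋆[ContinuousLinearMap.lsmul ℝ ℝ, volume] f) X) atTop (𝓝 (f X)) := by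
  refine ContDiffBump.ae_convolution_tendsto_right_of_locallyIntegrable (K := 2) ?_
    (Eventually.of_forall fun m => le_rfl) (hf.locallyIntegrable one_le_two)
  simpa [molBump] using tendsto_one_div_add_atTop_nhds_zero_nat.const_mul (2 : ℝ)

theorem mol_neg_inv (n : ℕ) : (volume : Measure (E n)).IsNegInvariant :=
  Measure.pi.isNegInvariant _

theorem mol_conv_sq {f : E n → ℂ} (hf : MemLp f 2 volume) (φ : ContDiffBump (0 : E n))
    (X : E n) : ‖(φ.normed volume ⋆[ContinuousLinearMap.lsmul ℝ ℝ, volume] f) X‖ ^ 2 ≤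
      (φ.normed volume ⋆[ContinuousLinearMap.lsmul ℝ ℝ, volume] fun Y => ‖f Y‖ ^ 2) X := by
  have := mol_neg_inv n
  have i1 : Integrable fun t => φ.normed volume t * ‖f (X - t)‖ :=
    (φ.hasCompactSupport_normed.convolutionExists_left (ContinuousLinearMap.lsmul ℝ ℝ)
      φ.continuous_normed (hf.norm.locallyIntegrable one_le_two) X).integrable
  have i2 : Integrable fun t => φ.normed volume t * ‖f (X - t)‖ ^ 2 :=
    (φ.hasCompactSupport_normed.convolutionExists_left (ContinuousLinearMap.lsmul ℝ ℝ)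
      φ.continuous_normed hf.norm.integrable_sq.locallyIntegrable X).integrable
  have h1 : ‖(φ.normed volume ⋆[ContinuousLinearMap.lsmul ℝ ℝ, volume] f) X‖ ≤
      ∫ t, φ.normed volume t * ‖f (X - t)‖ := by
    simp only [convolution_lsmul]
    refine (norm_integral_le_integral_norm _).trans_eq (integral_congr_ae
      (Eventually.of_forall fun t => ?_))
    simp only [norm_smul, Real.norm_of_nonneg (φ.nonneg_normed t)]
  refine (pow_le_pow_left₀ (norm_nonneg _) h1 2).trans ?_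
  obtain ⟨A, hA⟩ : ∃ A, A = ∫ t, φ.normed volume t * ‖f (X - t)‖ := ⟨_, rfl⟩
  have i3 : Integrable fun t => A ^ 2 * φ.normed volume t := φ.integrable_normed.const_mul _
  have h2 := integral_mono ((i1.const_mul (2 * A)).sub i3) i2 fun t => by
    have := mul_nonneg (φ.nonneg_normed (μ := volume) t) (sq_nonneg (‖f (X - t)‖ - A))
    simp only [Pi.sub_apply]
    nlinarith
  simp only [Pi.sub_apply] at h2
  rw [integral_sub (i1.const_mul (2 * A)) i3, integral_const_mul, integral_const_mul,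
    φ.integral_normed, ← hA] at h2
  simp only [convolution_lsmul, smul_eq_mul]
  rw [← hA]
  linarith

theorem mol_conv_L2 {f : E n → ℂ} (hf : MemLp f 2 volume) (φ : ContDiffBump (0 : E n)) :
    MemLp (φ.normed volume ⋆[ContinuousLinearMap.lsmul ℝ ℝ, volume] f) 2 volume ∧
      ∫ X, ‖(φ.normed volume ⋆[ContinuousLinearMap.lsmul ℝ ℝ, volume] f) X‖ ^ 2 ≤
        ∫ X, ‖f X‖ ^ 2 := by
  have := mol_neg_inv n
  have i0 : Integrable fun X => ‖f X‖ ^ 2 := hf.norm.integrable_sq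
  have i1 := φ.integrable_normed.integrable_convolution
    (ContinuousLinearMap.lsmul ℝ ℝ : ℝ →L[ℝ] ℝ →L[ℝ] ℝ) i0
  have hc : Continuous (φ.normed volume ⋆[ContinuousLinearMap.lsmul ℝ ℝ, volume] f) :=
    φ.hasCompactSupport_normed.continuous_convolution_left _ φ.continuous_normed
      (hf.locallyIntegrable one_le_two)
  have i2 : Integrable fun X =>
      ‖(φ.normed volume ⋆[ContinuousLinearMap.lsmul ℝ ℝ, volume] f) X‖ ^ 2 :=
    i1.mono' (hc.norm.pow 2).aestronglyMeasurable (Eventually.of_forall fun X => by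
      rw [Real.norm_of_nonneg (by positivity)]
      exact mol_conv_sq hf φ X)
  refine ⟨(memLp_two_iff_integrable_sq_norm hc.aestronglyMeasurable).2 i2, ?_⟩
  have h1 := integral_convolution (ContinuousLinearMap.lsmul ℝ ℝ : ℝ →L[ℝ] ℝ →L[ℝ] ℝ)
    (φ.integrable_normed (μ := volume)) i0
  rw [φ.integral_normed, ContinuousLinearMap.lsmul_apply, one_smul] at h1
  rw [← h1]
  exact integral_mono i2 i1 fun X => mol_conv_sq hf φ X

theorem mol_conv_tendsto {f : E n → ℂ} (hf : MemLp f 2 volume) : Tendsto (fun m => ∫ X,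
    ‖((molBump n m).normed volume ⋆[ContinuousLinearMap.lsmul ℝ ℝ, volume] f) X - f X‖ ^ 2)
      atTop (𝓝 0) :=
  mol_scheffe (fun _ => (mol_conv_L2 hf _).1) hf (fun _ => (mol_conv_L2 hf _).2) (mol_conv_ae hf)

/-- Convolution of `u` with the kernel `ρ`. -/
def mol (ρ u : E n → ℂ) (y : E n) : ℂ := ∫ w, u w * ρ (y - w)

theorem mol_eq (ρ u : E n → ℂ) : mol ρ u = u ⋆[ContinuousLinearMap.mul ℝ ℂ, volume] ρ := rfl

variable {ρ u : E n → ℂ}

theorem mol_smooth (hρ : ContDiff ℝ ∞ ρ) (hc : HasCompactSupport ρ) (hu : LocallyIntegrable u) :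
    ContDiff ℝ ∞ (mol ρ u) :=
  hc.contDiff_convolution_right (n := ⊤) (ContinuousLinearMap.mul ℝ ℂ) hu hρ

theorem mol_int (hρ : Continuous ρ) (hc : HasCompactSupport ρ) (hu : LocallyIntegrable u)
    (y : E n) : Integrable fun w => u w * ρ (y - w) :=
  hc.convolutionExists_right (ContinuousLinearMap.mul ℝ ℂ) hu hρ y

theorem mol_fderiv (hρ : ContDiff ℝ ∞ ρ) (hc : HasCompactSupport ρ) (hu : LocallyIntegrable u)
    (y v : E n) : fderiv ℝ (mol ρ u) y v = ∫ w, u w * fderiv ℝ ρ (y - w) v := by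
  have h1 : ContDiff ℝ 1 ρ := hρ.of_le (by exact_mod_cast le_top)
  rw [mol_eq, (hc.hasFDerivAt_convolution_right _ hu h1 y).fderiv,
    convolution_precompR_apply _ hu (hc.fderiv ℝ) (h1.continuous_fderiv one_ne_zero)]
  rfl

theorem mol_refl (hρ : ContDiff ℝ ∞ ρ) (y w v : E n) :
    fderiv ℝ (fun w => ρ (y - w)) w v = -fderiv ℝ ρ (y - w) v := by
  have h5 := ((hρ.differentiable (by simp) (y - w)).hasFDerivAt.comp w
    ((hasFDerivAt_id w).const_sub y)).fderiv
  have h6 := congrArg (fun L : E n →L[ℝ] ℂ => L v) h5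
  simpa [Function.comp_def] using h6

theorem mol_int_fd (hρ : ContDiff ℝ ∞ ρ) (hc : HasCompactSupport ρ) (hu : LocallyIntegrable u)
    (y v : E n) : Integrable fun w => u w * fderiv ℝ ρ (y - w) v :=
  mol_int (ρ := fun w => fderiv ℝ ρ w v)
    ((hρ.continuous_fderiv (by simp)).clm_apply continuous_const) (hc.fderiv_apply ℝ v) hu y

theorem mol_dz (hρ : ContDiff ℝ ∞ ρ) (hc : HasCompactSupport ρ) (hu : LocallyIntegrable u)
    (j : Fin n) (y : E n) : dz j (mol ρ u) y = -∫ w, u w * dz j (fun w => ρ (y - w)) w := by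
  simp only [dz, mol_fderiv hρ hc hu, mol_refl hρ]
  rw [← integral_const_mul, ← integral_sub (mol_int_fd hρ hc hu y _)
    ((mol_int_fd hρ hc hu y _).const_mul _), ← integral_div, ← integral_neg]
  refine integral_congr_ae (Eventually.of_forall fun w => ?_)
  ring

theorem mol_dzb (hρ : ContDiff ℝ ∞ ρ) (hc : HasCompactSupport ρ) (hu : LocallyIntegrable u)
    (j : Fin n) (y : E n) : dzb j (mol ρ u) y = -∫ w, u w * dzb j (fun w => ρ (y - w)) w := by
  simp only [dzb, mol_fderiv hρ hc hu, mol_refl hρ]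
  rw [← integral_const_mul, ← integral_add (mol_int_fd hρ hc hu y _)
    ((mol_int_fd hρ hc hu y _).const_mul _), ← integral_div, ← integral_neg]
  refine integral_congr_ae (Eventually.of_forall fun w => ?_)
  ring

/-- The reflected and translated kernel is a test function. -/
theorem mol_test (hρ : ContDiff ℝ ∞ ρ) (hc : HasCompactSupport ρ) (y : E n) :
    ContDiff ℝ ∞ (fun w => ρ (y - w)) ∧ HasCompactSupport fun w => ρ (y - w) :=
  ⟨hρ.comp (contDiff_const.sub contDiff_id), hc.comp_homeomorph (Homeomorph.subLeft y)⟩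

theorem mol_supp {ε : ℝ} (hρ : ∀ w, ε ≤ ‖w‖ → ρ w = 0) {K : Set (E n)} (hu : ∀ w ∉ K, u w = 0)
    {y : E n} (hy : y ∉ Metric.cthickening ε K) : mol ρ u y = 0 := by
  refine integral_eq_zero_of_ae (Eventually.of_forall fun w => ?_)
  by_cases hw : w ∈ K
  · have : ε ≤ ‖y - w‖ := by
      by_contra h
      exact hy (Metric.mem_cthickening_of_dist_le y w ε K hw (by rw [dist_eq_norm]; linarith))
    simp [hρ _ this]
  · simp [hu w hw]

theorem exists_mol (n : ℕ) : ∃ ρ : ℕ → E n → ℂ,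
    (∀ k, ContDiff ℝ ∞ (ρ k) ∧ HasCompactSupport (ρ k) ∧
      ∀ w, 2 * (1 / ((k : ℝ) + 1)) ≤ ‖w‖ → ρ k w = 0) ∧
    ∀ u : E n → ℂ, MemLp u 2 → (∀ k, MemLp (mol (ρ k) u) 2) ∧
      Tendsto (fun k => ∫ y, ‖mol (ρ k) u y - u y‖ ^ 2) atTop (𝓝 0) ∧
      ∀ᵐ y, Tendsto (fun k => mol (ρ k) u y) atTop (𝓝 (u y)) := by
  have := mol_neg_inv n
  refine ⟨fun k w => ((molBump n k).normed volume w : ℝ), fun k => ⟨?_, ?_, fun w hw => ?_⟩,
    fun u hu => ?_⟩
  · exact Complex.ofRealCLM.contDiff.comp ((molBump n k).contDiff_normed (n := ⊤))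
  · exact (molBump n k).hasCompactSupport_normed.comp_left (g := Complex.ofReal) rfl
  · have : w ∉ Function.support ((molBump n k).normed volume) := by
      rw [ContDiffBump.support_normed_eq, mem_ball_zero_iff, not_lt]
      exact hw
    simpa using this
  · have e : ∀ k, mol (fun w => ((molBump n k).normed volume w : ℝ)) u =
        (molBump n k).normed volume ⋆[ContinuousLinearMap.lsmul ℝ ℝ, volume] u := fun k => by
      funext y
      rw [convolution_lsmul_swap]
      simp only [mol, Complex.real_smul, mul_comm]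
    simp only [e]
    exact ⟨fun k => (mol_conv_L2 hu _).1, mol_conv_tendsto hu, mol_conv_ae hu⟩

end Vale.Agent.P271
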