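import Vale.Agent.P271.H.Op
import Vale.Agent.P271.H.Mol

/-! P271 H/Moll: mollification on the coordinate space.

Plan. Port `Vale/Agent/P349/HMoll.lean` (`scheffe2`, `conv_ae_H`, `conv_sq_le`, `conv_L2`,
`conv_tendsto_H`, `conv_fderiv_H`) from `Cfg n` to `E n`. `MemLp.locallyIntegrable`,
`HasCompactSupport.contDiff_convolution_left`, `HasCompactSupport.hasFDerivAt_convolution_left`,
`ContDiffBump.ae_convolution_tendsto_right_of_locallyIntegrable`. `moll_weak`: test with
`x ↦ (ρ (y - x) : ℂ)`, `ρ = (bump n m).normed volume`, whose derivative is `- fderiv ρ (y - x)`;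
`convolution_lsmul_swap`, `ℓ.integral_comp_comm`. On `triv n`, `fd v y = fderiv ℝ v y` by `rfl`.
Auxiliary names start with `moll_`. -/

open MeasureTheory Set Filter Topology
open scoped ContDiff ENNReal ComplexConjugate Convolution

noncomputable section

namespace Vale.Agent.P271

variable {n : ℕ} {u : E n → ℂ}

/-- The kernel with complex values. -/
def mollK (n m : ℕ) (w : E n) : ℂ := ((bump n m).normed volume w : ℝ)

theorem moll_K_sm (m : ℕ) : ContDiff ℝ ∞ (mollK n m) :=
  Complex.ofRealCLM.contDiff.comp ((bump n m).contDiff_normed (n := ⊤))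

theorem moll_K_cs (m : ℕ) : HasCompactSupport (mollK n m) :=
  (bump n m).hasCompactSupport_normed.comp_left (g := Complex.ofReal) rfl

theorem moll_eq (m : ℕ) (u : E n → ℂ) : moll m u = mol (mollK n m) u := by
  have := mol_neg_inv n
  funext y
  rw [moll, convolution_lsmul_swap]
  simp only [mol, mollK, Complex.real_smul, mul_comm]

theorem moll_op {ρ : E n → ℂ} (hρ : ContDiff ℝ ∞ ρ) (hc : HasCompactSupport ρ)
    (hu : LocallyIntegrable u) (ℓ : Op n) (y : E n) :
    (Integrable fun w => u w * ℓ (fderiv ℝ ρ (y - w))) ∧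
      ℓ (fderiv ℝ (mol ρ u) y) = ∫ w, u w * ℓ (fderiv ℝ ρ (y - w)) := by
  have h1 : ContDiff ℝ 1 ρ := hρ.of_le (by exact_mod_cast le_top)
  have h2 := (hc.fderiv ℝ).convolutionExists_right ((ContinuousLinearMap.mul ℝ ℂ).precompR (E n))
    hu (h1.continuous_fderiv one_ne_zero) y
  have e : ∀ w, ℓ ((ContinuousLinearMap.mul ℝ ℂ).precompR (E n) (u w) (fderiv ℝ ρ (y - w))) =
      u w * ℓ (fderiv ℝ ρ (y - w)) := fun w => by
    rw [← smul_eq_mul, ← map_smul]
    rfl
  refine ⟨by simpa only [e] using ℓ.integrable_comp h2, ?_⟩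
  rw [mol_eq, (hc.hasFDerivAt_convolution_right _ hu h1 y).fderiv, convolution_def,
    ← ℓ.integral_comp_comm h2]
  simp only [e]

theorem moll_smooth (hu : MemLp u 2 volume) (m : ℕ) : ContDiff ℝ ∞ (moll m u) := by
  rw [moll_eq]
  exact mol_smooth (moll_K_sm m) (moll_K_cs m) (hu.locallyIntegrable one_le_two)

theorem moll_zero {m : ℕ} {y : E n} (h : ∀ x ∈ Metric.ball y (1 / ((m : ℝ) + 1)), u x = 0) :
    moll m u y = 0 := by
  rw [moll_eq]
  refine integral_eq_zero_of_ae (Eventually.of_forall fun w => ?_)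
  by_cases hw : w ∈ Metric.ball y (1 / ((m : ℝ) + 1))
  · simp [h w hw]
  · have : y - w ∉ Function.support ((bump n m).normed volume) := by
      rw [ContDiffBump.support_normed_eq, mem_ball_zero_iff, ← dist_eq_norm, dist_comm]
      exact hw
    simp [mollK, Function.notMem_support.1 this]

theorem moll_ae (hu : MemLp u 2 volume) :
    ∀ᵐ y, Tendsto (fun m => moll m u y) atTop (𝓝 (u y)) := by
  refine ContDiffBump.ae_convolution_tendsto_right_of_locallyIntegrable (K := 2) ?_
    (Eventually.of_forall fun m => le_of_eq ?_) (hu.locallyIntegrable one_le_two)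
  · exact tendsto_one_div_add_atTop_nhds_zero_nat
  · simp only [bump]
    ring

theorem moll_lim (hu : MemLp u 2 volume) : L2lim volume (fun m => moll m u) u := by
  have h1 : ∀ m, MemLp (moll m u) 2 volume := fun m => (mol_conv_L2 hu _).1
  refine ⟨h1, hu, ?_⟩
  have h2 := mol_scheffe h1 hu (fun m => (mol_conv_L2 hu _).2) (moll_ae hu)
  have h3 := ENNReal.tendsto_ofReal h2.sqrt
  rw [Real.sqrt_zero, ENNReal.ofReal_zero] at h3
  refine h3.congr fun m => ?_
  rw [((h1 m).sub hu).eLpNorm_eq_integral_rpow_norm two_ne_zero ENNReal.ofNat_ne_top,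
    Real.sqrt_eq_rpow]
  simp

theorem moll_weak {ι : Type} [Fintype ι] {ℓ : ι → Op n} {β : ι → E n → ℂ} {w : E n → ℂ}
    (hβ : ∀ i, MemLp (β i) 2 volume) (hw : MemLp w 2 volume) (h : (EtDom.triv n).Weak ℓ β w)
    (m : ℕ) (y : E n) : ∑ i, ℓ i (fderiv ℝ (moll m (β i)) y) = moll m w y := by
  have hl : ∀ i, LocallyIntegrable (β i) := fun i => (hβ i).locallyIntegrable one_le_two
  have h1 := fun i => moll_op (moll_K_sm m) (moll_K_cs m) (hl i) (ℓ i) y
  have h2 := mol_int (moll_K_sm m).continuous (moll_K_cs m) (hw.locallyIntegrable one_le_two) y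
  obtain ⟨t1, t2⟩ := mol_test (moll_K_sm (n := n) m) (moll_K_cs m) y
  have h3 := h (fun x => mollK n m (y - x)) ⟨fun z => t1.contDiffAt, t2⟩
  have e : ∀ x, (EtDom.triv n).fd (fun x => mollK n m (y - x)) x = -fderiv ℝ (mollK n m) (y - x) :=
    fun x => ContinuousLinearMap.ext fun v => mol_refl (moll_K_sm m) y x v
  simp only [e, map_neg, mul_neg, Finset.sum_neg_distrib] at h3
  have h4 := integrable_finsetSum Finset.univ fun i _ => (h1 i).1
  change ∫ x, (-∑ i, β i x * ℓ i (fderiv ℝ (mollK n m) (y - x)) + w x * mollK n m (y - x)) = 0 at h3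
  simp only [neg_add_eq_sub] at h3
  rw [integral_sub h2 h4, integral_finsetSum _ fun i _ => (h1 i).1] at h3
  simp only [moll_eq, (h1 _).2]
  exact (sub_eq_zero.1 h3).symm

end Vale.Agent.P271
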