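import Vale.Agent.P271.H.IBP
import Vale.Agent.P271.H.Moll

/-! P271 H/Appr: test fields are dense in the graph norms.

Plan. `appr_sheet`: `π '' K` is compact in the open target, `IsCompact.exists_cthickening_subset_open`
gives `δ`, `K₁ = cthickening δ (π '' K)` (`IsCompact.cthickening`), `1 / (m₀ + 1) ≤ δ`;
`b m i = pull z (moll (m + m₀) (push z (β i)))`, `K' = symm '' K₁`; `moll_zero`, `push_zero`,
`test_pull`, `fd_zero'`, `l2lim_pull`, `pull_push`, `Weak.push`, `moll_weak`, `L2lim.shift`.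
`appr`: `exists_pou` with `N = univ`; apply `appr_sheet` to `χ c * β` on `K ∩ tsupport (χ c)`, sum over
`c` (`Test.sum`, `fd_sum`, `L2lim.sum`); `Weak.mul`; `∑ c, ℓ (fd (χ c) z) = ℓ (fd 1 z) = 0` on `K`
(`fd_sum`, `fd_congr`, `fd_const`); `fd_zero` for the support of `ℓ (fd (χ c))`.
Auxiliary names start with `appr_`. -/

open MeasureTheory Set Filter Topology
open scoped ContDiff ENNReal ComplexConjugate Convolution

noncomputable section

namespace Vale.Agent.P271

namespace EtDom

variable {n : ℕ} {Ω : Type} [TopologicalSpace Ω] [T2Space Ω] [SecondCountableTopology Ω]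
  [MeasurableSpace Ω] [BorelSpace Ω] {D : EtDom n Ω}

variable {ι : Type} [Fintype ι] {β : ι → Ω → ℂ} {K : Set Ω}

theorem appr_sheet (z : Ω) (hK : IsCompact K) (hKs : K ⊆ (D.ch z).source)
    (h2 : ∀ i, MemLp (β i) 2 D.ν) (h0 : ∀ i x, x ∉ K → β i x = 0) :
    ∃ K' b, IsCompact K' ∧ D.Appr β K K' b := by
  have hP : IsCompact (D.π '' K) := hK.image continuous_π
  obtain ⟨δ, hδ, hδt⟩ := hP.exists_cthickening_subset_open (D.ch z).open_target (by
    rintro _ ⟨w, hw, rfl⟩
    exact sheet_mem z (hKs hw))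
  obtain ⟨k, hk⟩ := exists_nat_one_div_lt hδ
  have hK1 : IsCompact (Metric.cthickening δ (D.π '' K)) := hP.cthickening
  have hK' : IsCompact ((D.ch z).symm '' Metric.cthickening δ (D.π '' K)) :=
    hK1.image_of_continuousOn ((D.ch z).continuousOn_symm.mono hδt)
  have T := fun m i => test_pull z (moll_smooth (memLp_push z (h2 i)) (m + k)) hK1 hδt
    fun y hy => moll_zero fun x hx => push_zero z (h0 i) fun hxK => hy (by
      have h1 : 1 / (((m + k : ℕ) : ℝ) + 1) ≤ 1 / ((k : ℝ) + 1) :=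
        Nat.one_div_le_one_div (Nat.le_add_left k m)
      refine Metric.mem_cthickening_of_dist_le y x δ _ hxK ?_
      rw [dist_comm]
      linarith [Metric.mem_ball.1 hx])
  have L : ∀ u : Ω → ℂ, MemLp u 2 D.ν → (∀ x, x ∉ K → u x = 0) →
      L2lim D.ν (fun m => D.pull z (moll (m + k) (D.push z u))) u := fun u hu hu0 => by
    have := l2lim_pull (D := D) z ((moll_lim (memLp_push z hu)).shift k)
    rwa [pull_push z fun w hw => hu0 w fun h => hw (hKs h)] at this
  refine ⟨_, fun m i => D.pull z (moll (m + k) (D.push z (β i))), hK', fun m i => (T m i).1,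
    fun m i => (T m i).2.1, fun m i x hx => fd_zero' hK' (T m i).2.1 hx,
    fun i => L _ (h2 i) (h0 i), fun ℓ w hw hw0 hW => ?_⟩
  have e : ∀ m, (fun x => ∑ i, ℓ i (D.fd (D.pull z (moll (m + k) (D.push z (β i)))) x)) =
      D.pull z (moll (m + k) (D.push z w)) := fun m => funext fun x => by
    simp only [(T m _).2.2]
    by_cases hx : x ∈ (D.ch z).source
    · simp only [pull, indicator_of_mem hx]
      exact moll_weak (fun i => memLp_push z (h2 i)) (memLp_push z hw) (hW.push z hK hKs h0 hw0) _ _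
    · simp [pull, hx]
  exact (funext e).symm ▸ L w hw hw0

theorem appr (hK : IsCompact K) (h2 : ∀ i, MemLp (β i) 2 D.ν) (h0 : ∀ i x, x ∉ K → β i x = 0) :
    ∃ K' b, IsCompact K' ∧ K ⊆ K' ∧ D.Appr β K K' b := by
  obtain ⟨k, c, χ, h1, h3⟩ := exists_pou (D := D) hK isOpen_univ (subset_univ _)
  have z1 : ∀ a (u : Ω → ℂ), (∀ x, x ∉ K → u x = 0) →
      ∀ x, x ∉ K ∩ tsupport (χ a) → χ a x * u x = 0 := fun a u hu x hx => by
    by_cases hxK : x ∈ K
    · rw [image_eq_zero_of_notMem_tsupport fun h => hx ⟨hxK, h⟩, zero_mul]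
    · rw [hu x hxK, mul_zero]
  have s1 : ∀ u : Ω → ℂ, (∀ x, x ∉ K → u x = 0) → ∀ x, ∑ a, χ a x * u x = u x := fun u hu x => by
    by_cases hxK : x ∈ K
    · rw [← Finset.sum_mul, (h3 x hxK).self_of_nhds, one_mul]
    · simp [hu x hxK]
  choose K' b hK' hb using fun a => appr_sheet (D := D) (β := fun i x => χ a x * β i x) (c a)
    (hK.inter_right (isClosed_tsupport (χ a)))
    (inter_subset_right.trans ((h1 a).2.trans inter_subset_right))
    (fun i => (h1 a).1.mul_memLp (h2 i)) fun i => z1 a _ (h0 i)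
  have nm : ∀ x, x ∉ K ∪ ⋃ a, K' a → ∀ a, x ∉ K' a := fun x hx a h =>
    hx (Or.inr (mem_iUnion.2 ⟨a, h⟩))
  have fs : ∀ m i x, D.fd (fun x => ∑ a, b a m i x) x = ∑ a, D.fd (b a m i) x := fun m i x =>
    fd_sum fun a _ => ((hb a).test m i).1 x
  refine ⟨K ∪ ⋃ a, K' a, fun m i x => ∑ a, b a m i x, hK.union (isCompact_iUnion hK'),
    subset_union_left, fun m i => Test.sum fun a _ => (hb a).test m i,
    fun m i x hx => Finset.sum_eq_zero fun a _ => (hb a).zero m i x (nm x hx a),
    fun m i x hx => (fs m i x).trans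
      (Finset.sum_eq_zero fun a _ => (hb a).zero' m i x (nm x hx a)),
    fun i => ?_, fun ℓ w hw hw0 hW => ?_⟩
  · simpa only [s1 _ (h0 i)] using L2lim.sum Finset.univ fun a _ => (hb a).lim i
  · have h4 := L2lim.sum Finset.univ fun a _ => (hb a).op ℓ _
      (((h1 a).1.mul_memLp hw).add
        (memLp_finsetSum Finset.univ fun i _ => ((h1 a).1.op (ℓ i)).mul_memLp (h2 i)))
      (fun x hx => by
        rw [Pi.add_apply, z1 a w hw0 x hx, zero_add]
        refine Finset.sum_eq_zero fun i _ => ?_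
        by_cases hxK : x ∈ K
        · rw [fd_zero fun h => hx ⟨hxK, h⟩, map_zero, zero_mul]
        · rw [h0 i x hxK, mul_zero]) (hW.mul (h1 a).1.1)
    have e : ∀ x, ∑ a, ∑ i, ℓ i (D.fd (χ a) x) * β i x = 0 := fun x => by
      rw [Finset.sum_comm]
      refine Finset.sum_eq_zero fun i _ => ?_
      by_cases hxK : x ∈ K
      · rw [← Finset.sum_mul, ← map_sum, ← fd_sum fun a _ => (h1 a).1.1 x, fd_congr (h3 x hxK),
          fd_const, map_zero, zero_mul]
      · simp [h0 i x hxK]
    simp only [Pi.add_apply, Finset.sum_add_distrib, s1 w hw0, e, add_zero] at h4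
    simp only [fs, map_sum]
    simpa only [Finset.sum_comm (s := (Finset.univ : Finset ι))] using h4

end EtDom

end Vale.Agent.P271
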