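import Vale.Agent.P271.H.IBP

/-! P271 H/Basic: the basic inequality for test fields.

Plan. Let `e = exp (-φ)` (complex valued, `d j e = - d j φ * e` by `d_comp`, same for `db`),
`δ j u = d j u - d j φ * u`, so `δ j u * e = d j (u * e)` and `conj (δ k v) * e = db k (conj v * e)`
(`db_conj`, `db_ofReal`). By `ibp_db`, `ibp_d`: `∫ u * conj (δ k v) * e = - ∫ db k u * conj v * e`,
`∫ δ j u * conj v * e = - ∫ u * conj (db j v) * e`; `db k (δ j u) = δ j (db k u) - d j (db k φ) * u`
(`d_db_comm`). So for each `j k` (one lemma): `∫ δ j (β j) * conj (δ k (β k)) * e =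
∫ d j (db k φ) * β j * conj (β k) * e + ∫ db k (β j) * conj (db j (β k)) * e`. Sum, take real parts
(`integral_re`-type lemmas, all integrands are test functions: `Test.integrable`) and use
`- re (∑ a j k * conj (a k j)) ≤ 1 / 2 * ∑ ‖a j k - a k j‖ ^ 2`. Auxiliary names start with
`basic_`. -/

open MeasureTheory Set Filter Topology
open scoped ContDiff ENNReal ComplexConjugate Convolution

noncomputable section

namespace Vale.Agent.P271

namespace EtDom

variable {n : ℕ} {Ω : Type} [TopologicalSpace Ω] [T2Space Ω] [SecondCountableTopology Ω]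
  [MeasurableSpace Ω] [BorelSpace Ω] {D : EtDom n Ω}

theorem basic_alg (a : Fin n → Fin n → ℂ) {e : ℝ} (he : 0 ≤ e) :
    -(∑ j, ∑ k, a j k * conj (a k j) * (e : ℂ)).re ≤
      1 / 2 * ∑ j, ∑ k, ‖a j k - a k j‖ ^ 2 * e := by
  simp only [Complex.re_sum, Finset.mul_sum, ← Finset.sum_neg_distrib]
  refine Finset.sum_le_sum fun j _ => Finset.sum_le_sum fun k _ => ?_
  rw [Complex.re_mul_ofReal, ← neg_mul, ← mul_assoc]
  refine mul_le_mul_of_nonneg_right ?_ he
  rw [Complex.sq_norm, Complex.normSq_sub]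
  linarith [Complex.normSq_nonneg (a j k), Complex.normSq_nonneg (a k j)]

omit [T2Space Ω] [SecondCountableTopology Ω] [BorelSpace Ω] in
theorem basic_re {X : Fin n → Fin n → Ω → ℂ} (hX : ∀ j k, Integrable (X j k) D.ν) :
    Integrable (fun z => (∑ j, ∑ k, X j k z).re) D.ν ∧
      ∫ z, (∑ j, ∑ k, X j k z).re ∂D.ν = (∑ j, ∑ k, ∫ z, X j k z ∂D.ν).re := by
  have h : Integrable (fun z => ∑ j, ∑ k, X j k z) D.ν :=
    integrable_finsetSum _ fun j _ => integrable_finsetSum _ fun k _ => hX j k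
  refine ⟨h.re, (integral_re h).trans ?_⟩
  rw [integral_finsetSum _ fun j _ => integrable_finsetSum _ fun k _ => hX j k,
    Finset.sum_congr rfl fun j _ => integral_finsetSum _ fun k _ => hX j k]
  rfl

theorem basic_delta {φ : Ω → ℝ} (hφ : ∀ z, D.SmAt φ z) {u : Ω → ℂ} (hu : D.Test u) (j : Fin n) :
    D.Test fun z => D.d j u z - D.d j (fun w => (φ w : ℂ)) z * u z :=
  (hu.d j).sub (hu.mul_left fun z => (hφ z).ofReal.d j)

theorem basic_pair {φ : Ω → ℝ} (hφ : ∀ z, D.SmAt φ z) {u v : Ω → ℂ} (hu : D.Test u)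
    (hv : D.Test v) (j k : Fin n) :
    ∫ z, (D.d j u z - D.d j (fun w => (φ w : ℂ)) z * u z) *
        conj (D.d k v z - D.d k (fun w => (φ w : ℂ)) z * v z) * (Real.exp (-φ z) : ℂ) ∂D.ν =
      ∫ z, D.d j (D.db k fun w => (φ w : ℂ)) z * u z * conj (v z) * (Real.exp (-φ z) : ℂ) ∂D.ν +
      ∫ z, D.db k u z * conj (D.db j v z) * (Real.exp (-φ z) : ℂ) ∂D.ν := by
  have se : ∀ z, D.SmAt (fun w => (Real.exp (-φ w) : ℂ)) z := fun z => (hφ z).rneg.rexp.ofReal
  have he : ∀ z, HasDerivAt (fun t => Real.exp (-t)) (Real.exp (-φ z) * -1) (φ z) := fun z =>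
    (hasDerivAt_neg (φ z)).exp
  have h1 := ibp_db k (basic_delta hφ hu j).1 (hv.conj.mul_right se)
  have h2 := ibp_d j hv.conj.1 ((hu.db k).mul_right se)
  have i1 := (((hu.mul_left fun z => ((hφ z).ofReal.db k).d j).mul_right hv.conj.1).mul_right
    se).integrable
  have i2 := ((((hu.db k).mul_right se).d j).mul_left hv.conj.1).integrable
  have e1 : ∀ z, (D.d j u z - D.d j (fun w => (φ w : ℂ)) z * u z) *
      conj (D.d k v z - D.d k (fun w => (φ w : ℂ)) z * v z) * (Real.exp (-φ z) : ℂ) =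
      (D.d j u z - D.d j (fun w => (φ w : ℂ)) z * u z) *
        D.db k (fun w => conj (v w) * (Real.exp (-φ w) : ℂ)) z := fun z => by
    rw [db_mul k (hv.1 z).conj (se z), db_conj k (hv.1 z), db_comp k (hφ z) (he z),
      db_ofReal k (hφ z), map_sub, map_mul]
    push_cast
    ring
  have e2 : ∀ z, D.db k (fun z => D.d j u z - D.d j (fun w => (φ w : ℂ)) z * u z) z *
      (conj (v z) * (Real.exp (-φ z) : ℂ)) =
      conj (v z) * D.d j (fun w => D.db k u w * (Real.exp (-φ w) : ℂ)) z -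
      D.d j (D.db k fun w => (φ w : ℂ)) z * u z * conj (v z) * (Real.exp (-φ z) : ℂ) := fun z => by
    rw [db_sub k ((hu.1 z).d j) (((hφ z).ofReal.d j).mul (hu.1 z)),
      db_mul k ((hφ z).ofReal.d j) (hu.1 z), d_mul j ((hu.1 z).db k) (se z),
      d_comp j (hφ z) (he z), d_db_comm j k (hu.1 z), d_db_comm j k (hφ z).ofReal]
    push_cast
    ring
  have e3 : ∀ z, D.d j (fun w => conj (v w)) z * (D.db k u z * (Real.exp (-φ z) : ℂ)) =
      D.db k u z * conj (D.db j v z) * (Real.exp (-φ z) : ℂ) := fun z => by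
    rw [d_conj j (hv.1 z)]; ring
  simp only [e1]
  simp only [e2] at h1
  simp only [e3] at h2
  rw [h1, integral_sub i2 i1, h2]
  ring

theorem basic_test {β : Fin n → Ω → ℂ} (hβ : ∀ j, D.Test (β j)) {φ : Ω → ℝ}
    (hφ : ∀ z, D.SmAt φ z) :
    ∫ z, D.levi φ z (fun j => β j z) * Real.exp (-φ z) ∂D.ν ≤
      ∫ z, ‖∑ j, D.d j (β j) z - D.dv φ z (fun j => β j z)‖ ^ 2 * Real.exp (-φ z) ∂D.ν +
      1 / 2 * ∑ j, ∑ k,
        ∫ z, ‖D.db k (β j) z - D.db j (β k) z‖ ^ 2 * Real.exp (-φ z) ∂D.ν :=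
by
  have se : ∀ z, D.SmAt (fun w => (Real.exp (-φ w) : ℂ)) z := fun z => (hφ z).rneg.rexp.ofReal
  have tδ := fun j => basic_delta hφ (hβ j) j
  have iX := fun j k => (((tδ j).mul_right (tδ k).conj.1).mul_right se).integrable
  have iY := fun j k => ((((hβ j).mul_left fun z => ((hφ z).ofReal.db k).d j).mul_right
    (hβ k).conj.1).mul_right se).integrable
  have iZ := fun j k => ((((hβ j).db k).mul_right ((hβ k).db j).conj.1).mul_right se).integrable
  have iC : ∀ j k, Integrable (fun z => ‖D.db k (β j) z - D.db j (β k) z‖ ^ 2 * Real.exp (-φ z))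
      D.ν := fun j k => by
    have t := ((hβ j).db k).sub ((hβ k).db j)
    refine ((t.mul_right t.conj.1).mul_right se).integrable.re.congr
      (Eventually.of_forall fun z => ?_)
    simp only [RCLike.re_to_complex, Complex.mul_conj', Complex.re_mul_ofReal]
    rw [← Complex.ofReal_pow, Complex.ofReal_re]
  have key := Finset.sum_congr rfl fun j (_ : j ∈ Finset.univ) => Finset.sum_congr rfl
    fun k (_ : k ∈ Finset.univ) => basic_pair hφ (hβ j) (hβ k) j k
  simp only [Finset.sum_add_distrib] at key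
  have k1 := basic_re iX
  have k2 := basic_re iY
  have k3 := basic_re iZ
  have k4 := congrArg Complex.re key
  rw [Complex.add_re, ← k1.2, ← k2.2, ← k3.2] at k4
  have k5 := integral_mono k3.1.neg ((integrable_finsetSum Finset.univ fun j _ =>
    integrable_finsetSum Finset.univ fun k _ => iC j k).const_mul (1 / 2))
    fun z => basic_alg (fun j k => D.db k (β j) z) (Real.exp_pos (-φ z)).le
  rw [integral_neg', integral_const_mul,
    integral_finsetSum _ fun j _ => integrable_finsetSum Finset.univ fun k _ => iC j k,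
    Finset.sum_congr rfl fun j _ => integral_finsetSum _ fun k _ => iC j k] at k5
  have e1 : ∀ z, (∑ j, ∑ k, D.d j (D.db k fun w => (φ w : ℂ)) z * β j z * conj (β k z) *
      (Real.exp (-φ z) : ℂ)).re = D.levi φ z (fun j => β j z) * Real.exp (-φ z) := fun z => by
    simp only [← Finset.sum_mul, Complex.re_mul_ofReal, levi]
  have e2 : ∀ z, (∑ j, ∑ k, (D.d j (β j) z - D.d j (fun w => (φ w : ℂ)) z * β j z) *
      conj (D.d k (β k) z - D.d k (fun w => (φ w : ℂ)) z * β k z) * (Real.exp (-φ z) : ℂ)).re =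
      ‖∑ j, D.d j (β j) z - D.dv φ z (fun j => β j z)‖ ^ 2 * Real.exp (-φ z) := fun z => by
    simp only [← Finset.sum_mul, Complex.re_mul_ofReal, ← Finset.mul_sum, ← map_sum,
      Complex.mul_conj', dv, Finset.sum_sub_distrib]
    rw [← Complex.ofReal_pow, Complex.ofReal_re]
  simp only [e1, e2] at k4
  linarith only [k4, k5]

end EtDom

end Vale.Agent.P271
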