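import Vale.Agent.P271.H.Op

/-! P271 H/Quad: quadratic expressions in compactly supported `L ^ 2` fields.

Plan. `memLp_cont_mul`, `L2lim.cont_mul` with the continuous coefficients `d j u`,
`d j (db k u) * a` (`cont_of_sm`, `SmAt.d`, `SmAt.db`, `SmAt.ofReal`), `int_mul`, `L2lim.pair`,
`memLp_conj`; `‖f‖ ^ 2 * a = re ((a * f) * conj f)`; `Integrable.re`, `integral_re`-type lemmas
(`integral_re`, `RCLike.re_to_complex`), `Complex.continuous_re`. Auxiliary names start with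
`quad_`. -/

open MeasureTheory Set Filter Topology
open scoped ContDiff ENNReal ComplexConjugate Convolution

noncomputable section

namespace Vale.Agent.P271

namespace EtDom

variable {n : ℕ} {Ω : Type} [TopologicalSpace Ω] [T2Space Ω] [SecondCountableTopology Ω]
  [MeasurableSpace Ω] [BorelSpace Ω] {D : EtDom n Ω}

variable {K : Set Ω} {u a : Ω → ℝ} {β : Fin n → Ω → ℂ} {b : ℕ → Fin n → Ω → ℂ} {f : ℕ → Ω → ℂ}
  {g : Ω → ℂ}

theorem levi_cmul (u : Ω → ℝ) (z : Ω) (c : ℝ) (v : E n) :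
    D.levi u z (fun j => (c : ℂ) * v j) = c ^ 2 * D.levi u z v :=
by
  rw [levi, levi, ← Complex.re_ofReal_mul, Finset.mul_sum]
  refine congrArg Complex.re (Finset.sum_congr rfl fun j _ => ?_)
  rw [Finset.mul_sum]
  refine Finset.sum_congr rfl fun k _ => ?_
  rw [map_mul, Complex.conj_ofReal, Complex.ofReal_pow]
  ring

theorem dv_cmul (u : Ω → ℝ) (z : Ω) (c : ℂ) (v : E n) :
    D.dv u z (fun j => c * v j) = c * D.dv u z v :=
by
  simp only [dv, Finset.mul_sum, mul_left_comm]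

theorem dv_sq_le (u : Ω → ℝ) (z : Ω) (v : E n) :
    ‖D.dv u z v‖ ^ 2 ≤ D.gr u z * ∑ j, ‖v j‖ ^ 2 :=
by
  refine (pow_le_pow_left₀ (norm_nonneg _) (norm_sum_le _ _) 2).trans ?_
  simp only [norm_mul]
  exact Finset.sum_mul_sq_le_sq_mul_sq _ _ _

theorem gr_cont (hu : ∀ z, D.SmAt u z) : Continuous (D.gr u) :=
  continuous_finsetSum _ fun j _ => (cont_of_sm fun z => (hu z).ofReal.d j).norm.pow 2

theorem memLp_dv (hK : IsCompact K) (hu : ∀ z, D.SmAt u z) (h2 : ∀ j, MemLp (β j) 2 D.ν)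
    (h0 : ∀ j z, z ∉ K → β j z = 0) : MemLp (fun z => D.dv u z fun j => β j z) 2 D.ν :=
  memLp_finsetSum _ fun j _ => memLp_cont_mul hK (h2 j) (h0 j)
    (cont_of_sm fun z => (hu z).ofReal.d j)

theorem quad_levi (u a : Ω → ℝ) (z : Ω) (v : E n) : D.levi u z v * a z =
    (∑ j, ∑ k, D.d j (D.db k fun w => (u w : ℂ)) z * (a z : ℂ) * v j * conj (v k)).re := by
  rw [levi, ← Complex.re_mul_ofReal, Finset.sum_mul]
  refine congrArg Complex.re (Finset.sum_congr rfl fun j _ => ?_)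
  rw [Finset.sum_mul]
  exact Finset.sum_congr rfl fun k _ => by ring

theorem quad_cont (hu : ∀ z, D.SmAt u z) (ha : Continuous a) (j k : Fin n) :
    Continuous fun z => D.d j (D.db k fun w => (u w : ℂ)) z * (a z : ℂ) :=
  (cont_of_sm fun z => ((hu z).ofReal.db k).d j).mul (Complex.continuous_ofReal.comp ha)

theorem quad_sq (x : ℂ) (a : ℝ) : ‖x‖ ^ 2 * a = ((a : ℂ) * x * conj x).re := by
  rw [mul_assoc, Complex.mul_conj', Complex.re_ofReal_mul, ← Complex.ofReal_pow, Complex.ofReal_re,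
    mul_comm]

theorem int_levi (hK : IsCompact K) (hu : ∀ z, D.SmAt u z) (ha : Continuous a)
    (h2 : ∀ j, MemLp (β j) 2 D.ν) (h0 : ∀ j z, z ∉ K → β j z = 0) :
    Integrable (fun z => D.levi u z (fun j => β j z) * a z) D.ν :=
by
  simp only [quad_levi]
  exact (integrable_finsetSum _ fun j _ => integrable_finsetSum _ fun k _ =>
    int_mul (memLp_cont_mul hK (h2 j) (h0 j) (quad_cont hu ha j k)) (memLp_conj (h2 k))).re

theorem int_sq_mul (hK : IsCompact K) (ha : Continuous a) (h2 : MemLp g 2 D.ν)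
    (h0 : ∀ z, z ∉ K → g z = 0) : Integrable (fun z => ‖g z‖ ^ 2 * a z) D.ν :=
by
  simp only [quad_sq]
  exact (int_mul (memLp_cont_mul hK h2 h0 (Complex.continuous_ofReal.comp ha)) (memLp_conj h2)).re

theorem lim_dv (hK : IsCompact K) (hu : ∀ z, D.SmAt u z)
    (h : ∀ j, L2lim D.ν (fun m => b m j) (β j)) (hb : ∀ m j z, z ∉ K → b m j z = 0)
    (h0 : ∀ j z, z ∉ K → β j z = 0) :
    L2lim D.ν (fun m z => D.dv u z fun j => b m j z) (fun z => D.dv u z fun j => β j z) :=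
  L2lim.sum Finset.univ (f := fun j m z => D.d j (fun w => (u w : ℂ)) z * b m j z) fun j _ =>
    (h j).cont_mul hK (fun m => hb m j) (h0 j) (cont_of_sm fun z => (hu z).ofReal.d j)

theorem lim_levi (hK : IsCompact K) (hu : ∀ z, D.SmAt u z) (ha : Continuous a)
    (h : ∀ j, L2lim D.ν (fun m => b m j) (β j)) (hb : ∀ m j z, z ∉ K → b m j z = 0)
    (h0 : ∀ j z, z ∉ K → β j z = 0) :
    Tendsto (fun m => ∫ z, D.levi u z (fun j => b m j z) * a z ∂D.ν) atTop
      (𝓝 (∫ z, D.levi u z (fun j => β j z) * a z ∂D.ν)) :=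
by
  have e : ∀ γ : Fin n → Ω → ℂ, (∀ j, MemLp (γ j) 2 D.ν) → (∀ j z, z ∉ K → γ j z = 0) →
      ∫ z, D.levi u z (fun j => γ j z) * a z ∂D.ν = (∑ j, ∑ k, ∫ z,
        D.d j (D.db k fun w => (u w : ℂ)) z * (a z : ℂ) * γ j z * conj (γ k z) ∂D.ν).re :=
    fun γ h2 h0 => by
      have i := fun j k =>
        int_mul (memLp_cont_mul hK (h2 j) (h0 j) (quad_cont hu ha j k)) (memLp_conj (h2 k))
      simp only [quad_levi]
      refine (integral_re (integrable_finsetSum _ fun j _ => integrable_finsetSum _ fun k _ =>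
        i j k)).trans ?_
      rw [integral_finsetSum _ fun j _ => integrable_finsetSum _ fun k _ => i j k,
        Finset.sum_congr rfl fun j _ => integral_finsetSum _ fun k _ => i j k]
      rfl
  rw [e β (fun j => (h j).2.1) h0, funext fun m => e (b m) (fun j => (h j).1 m) (hb m)]
  exact (Complex.continuous_re.tendsto _).comp (tendsto_finsetSum _ fun j _ =>
    tendsto_finsetSum _ fun k _ => ((h j).cont_mul hK (fun m => hb m j) (h0 j)
      (quad_cont hu ha j k)).pair (h k).conj)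

theorem lim_sq_mul (hK : IsCompact K) (ha : Continuous a) (h : L2lim D.ν f g)
    (hf : ∀ m z, z ∉ K → f m z = 0) (h0 : ∀ z, z ∉ K → g z = 0) :
    Tendsto (fun m => ∫ z, ‖f m z‖ ^ 2 * a z ∂D.ν) atTop (𝓝 (∫ z, ‖g z‖ ^ 2 * a z ∂D.ν)) :=
by
  have ca := Complex.continuous_ofReal.comp ha
  have e : ∀ γ : Ω → ℂ, MemLp γ 2 D.ν → (∀ z, z ∉ K → γ z = 0) →
      ∫ z, ‖γ z‖ ^ 2 * a z ∂D.ν = (∫ z, (a z : ℂ) * γ z * conj (γ z) ∂D.ν).re := fun γ h2 h0 => by
    simp only [quad_sq]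
    exact integral_re (int_mul (memLp_cont_mul hK h2 h0 ca) (memLp_conj h2))
  rw [e g h.2.1 h0, funext fun m => e (f m) (h.1 m) (hf m)]
  exact (Complex.continuous_re.tendsto _).comp ((h.cont_mul hK hf h0 ca).pair h.conj)

end EtDom

end Vale.Agent.P271
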