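import Vale.Agent.P271.H.Appr
import Vale.Agent.P271.H.Basic
import Vale.Agent.P271.H.Quad

/-! P271 H/BasicW: the basic inequality for weakly differentiable fields.

Plan. `appr`, `basic_test` for `b m`, `d_eq`, `db_eq`, `sum_opC` (with `a = 1`), `Appr.op`,
`L2lim.sub`, `lim_dv`, `lim_levi`, `lim_sq_mul` (supports in `K'`: `Appr.zero`, `Appr.zero'`),
`tendsto_finset_sum`, `le_of_tendsto_of_tendsto'`. Auxiliary names start with `basicw_`. -/

open MeasureTheory Set Filter Topology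
open scoped ContDiff ENNReal ComplexConjugate Convolution

noncomputable section

namespace Vale.Agent.P271

namespace EtDom

variable {n : ℕ} {Ω : Type} [TopologicalSpace Ω] [T2Space Ω] [SecondCountableTopology Ω]
  [MeasurableSpace Ω] [BorelSpace Ω] {D : EtDom n Ω}

theorem basic_weak {K : Set Ω} (hK : IsCompact K) {β : Fin n → Ω → ℂ} {w : Ω → ℂ}
    {c : Fin n → Fin n → Ω → ℂ} (hβ : ∀ j, MemLp (β j) 2 D.ν) (hβ0 : ∀ j z, z ∉ K → β j z = 0)
    (hw : MemLp w 2 D.ν) (hw0 : ∀ z, z ∉ K → w z = 0) (hc : ∀ j k, MemLp (c j k) 2 D.ν)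
    (hc0 : ∀ j k z, z ∉ K → c j k z = 0) (h1 : D.Weak opD β w)
    (h2 : ∀ j k, D.Weak (opC j k) β (c j k)) {φ : Ω → ℝ} (hφ : ∀ z, D.SmAt φ z) :
    ∫ z, D.levi φ z (fun j => β j z) * Real.exp (-φ z) ∂D.ν ≤
      ∫ z, ‖w z - D.dv φ z (fun j => β j z)‖ ^ 2 * Real.exp (-φ z) ∂D.ν +
      1 / 2 * ∑ j, ∑ k, ∫ z, ‖c j k z‖ ^ 2 * Real.exp (-φ z) ∂D.ν :=
by
  obtain ⟨K', b, hK', hKK, hb⟩ := appr hK hβ hβ0
  have ce : Continuous fun z => Real.exp (-φ z) := cont_of_sm fun z => (hφ z).rneg.rexp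
  have z0 : ∀ j z, z ∉ K' → β j z = 0 := fun j z hz => hβ0 j z fun h => hz (hKK h)
  have l1 := lim_levi hK' hφ ce hb.lim hb.zero z0
  have l2 := lim_sq_mul hK' ce ((hb.op opD w hw hw0 h1).sub (lim_dv hK' hφ hb.lim hb.zero z0))
    (fun m z hz => by simp [dv, hb.zero m _ z hz, hb.zero' m _ z hz])
    fun z hz => by simp [dv, z0 _ z hz, hw0 z fun h => hz (hKK h)]
  have l3 := fun j k => lim_sq_mul hK' ce (hb.op (opC j k) (c j k) (hc j k) (hc0 j k) (h2 j k))
    (fun m z hz => by simp [hb.zero' m _ z hz]) fun z hz => hc0 j k z fun h => hz (hKK h)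
  refine le_of_tendsto_of_tendsto' l1 (l2.add ((tendsto_finsetSum Finset.univ fun j _ =>
    tendsto_finsetSum Finset.univ fun k _ => l3 j k).const_mul (1 / 2))) fun m => ?_
  have e : ∀ j k z, ∑ i, opC j k i (D.fd (b m i) z) = D.db k (b m j) z - D.db j (b m k) z :=
    fun j k z => by
      simpa only [one_mul, db_eq] using sum_opC j k (fun _ => 1) fun i => D.fd (b m i) z
  simpa only [e, d_eq] using basic_test (hb.test m) hφ

end EtDom

end Vale.Agent.P271
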