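import Vale.Agent.P271.H.Meas

/-! P271 H/CV: holomorphic maps between etale domains and the change of variables inequality.

Plan. Near `z`, `ι = (ch (ι z)).symm ∘ Φ ∘ π` with `Φ = loc (π' ∘ ι) z` analytic. `lint_cv`: cut `W`
into countably many disjoint Borel pieces `B i`, each inside a source of `D` and mapped by `ι` into a
source of `D'`; on each piece use `lint_sheet` twice and
`lintegral_image_eq_lintegral_abs_det_fderiv_mul` for `Φ`; the real determinant of a complex linear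
map is `|det| ^ 2` (`LinearMap.det_restrictScalars`, `Algebra.norm_complex_eq`); the images
`ι '' B i` are disjoint Borel sets. Auxiliary names start with `cv_`. -/

open MeasureTheory Set Filter Topology
open scoped ContDiff ENNReal ComplexConjugate

noncomputable section

namespace Vale.Agent.P271

namespace EtDom

variable {n : ℕ} {Ω : Type} [TopologicalSpace Ω] [T2Space Ω] [SecondCountableTopology Ω]
  [MeasurableSpace Ω] [BorelSpace Ω] {D : EtDom n Ω}

variable {Ω' : Type} [TopologicalSpace Ω'] [T2Space Ω'] [SecondCountableTopology Ω']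
  [MeasurableSpace Ω'] [BorelSpace Ω'] {D' : EtDom n Ω'}

omit [T2Space Ω] [SecondCountableTopology Ω] [BorelSpace Ω] [T2Space Ω']
  [SecondCountableTopology Ω'] [BorelSpace Ω'] in
theorem cv_an {ι : Ω → Ω'} {z : Ω} (hι : ∀ i, D.HolAt (fun w => D'.π (ι w) i) z) :
    AnalyticAt ℂ (D.loc (fun w => D'.π (ι w)) z) (D.π z) :=
  analyticAt_pi_iff.2 hι

theorem HolAt.comp_map {ι : Ω → Ω'} {z : Ω} (hc : ∀ᶠ w in 𝓝 z, ContinuousAt ι w)
    (hι : ∀ i, D.HolAt (fun w => D'.π (ι w) i) z) {f : Ω' → ℂ} (hf : D'.HolAt f (ι z)) :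
    D.HolAt (fun w => f (ι w)) z := by
  have h1 : ∀ᶠ w in 𝓝 z, ι w ∈ (D'.ch (ι z)).source :=
    hc.self_of_nhds.eventually ((D'.ch (ι z)).open_source.mem_nhds (D'.mem _))
  have h2 : (fun w => f (ι w)) =ᶠ[𝓝 z] fun w => D'.loc f (ι z) (D'.π (ι w)) := by
    filter_upwards [h1] with w hw
    have := (D'.ch (ι z)).left_inv hw
    rw [D'.coe] at this
    simp only [loc, Function.comp, this]
  have h3 : AnalyticAt ℂ (D'.loc f (ι z) ∘ D.loc (fun w => D'.π (ι w)) z) (D.π z) :=
    AnalyticAt.comp_of_eq hf (cv_an hι) (loc_self _ _)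
  exact h3.congr (loc_congr h2).symm

theorem cv_dz {F : E n → ℂ} {y : E n} (hF : DifferentiableAt ℂ F y) (j : Fin n) :
    dz j F y = fderiv ℂ F y (Pi.single j 1) := by
  have h : fderiv ℝ F y = (fderiv ℂ F y).restrictScalars ℝ :=
    (hF.hasFDerivAt.restrictScalars ℝ).fderiv
  have e : (Pi.single j Complex.I : E n) = Complex.I • (Pi.single j 1 : E n) := by
    ext k
    by_cases hk : k = j
    · subst hk; simp
    · simp [hk]
  simp only [dz, h, ContinuousLinearMap.coe_restrictScalars', e, map_smul, smul_eq_mul]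
  rw [← mul_assoc, Complex.I_mul_I]
  ring

theorem cv_det (L : E n →L[ℂ] E n) :
    |(L.restrictScalars ℝ).det| = ‖Matrix.det (Matrix.of fun i j => L (Pi.single j 1) i)‖ ^ 2 := by
  have h1 : Matrix.det (Matrix.of fun i j => L (Pi.single j 1) i) =
      LinearMap.det (L : E n →ₗ[ℂ] E n) := by
    rw [← LinearMap.det_toMatrix']
    congr 1
  have h2 : (L.restrictScalars ℝ).det =
      Algebra.norm ℝ (LinearMap.det (L : E n →ₗ[ℂ] E n)) := by
    rw [← LinearMap.det_restrictScalars]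
    rfl
  rw [h1, h2, Algebra.norm_complex_apply, abs_of_nonneg (Complex.normSq_nonneg _),
    Complex.normSq_eq_norm_sq]

theorem cv_piece {W : Set Ω} (hW : IsOpen W) {ι : Ω → Ω'} (hc : ContinuousOn ι W)
    (hi : InjOn ι W) (hι : ∀ z ∈ W, ∀ i, D.HolAt (fun w => D'.π (ι w) i) z) {G : Ω' → ℝ≥0∞}
    (hG : Measurable G) {B : Set Ω} (hB : MeasurableSet B) (hBW : B ⊆ W) {z : Ω} {z' : Ω'}
    (h₁ : B ⊆ (D.ch z).source) (h₂ : MapsTo ι B (D'.ch z').source) :
    MeasurableSet (ι '' B) ∧ ∫⁻ z in B, G (ι z) * ENNReal.ofReal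
      (‖Matrix.det (Matrix.of fun i j => D.d j (fun w => D'.π (ι w) i) z)‖ ^ 2) ∂D.ν =
      ∫⁻ z in ι '' B, G z ∂D'.ν := by
  have hl : ∀ w ∈ B, (D.ch z).symm (D.π w) = w := fun w hw => by
    have := (D.ch z).left_inv (h₁ hw)
    rwa [D.coe] at this
  have hl' : ∀ w ∈ B, (D'.ch z').symm (D'.π (ι w)) = ι w := fun w hw => by
    have := (D'.ch z').left_inv (h₂ hw)
    rwa [D'.coe] at this
  have hA : MeasurableSet (D.π '' B) := by
    have h := (D.ch z).isOpenEmbedding_restrict.measurableEmbedding.measurableSet_image.2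
      (measurable_subtype_coe hB)
    have e : (D.ch z).source.domRestrict (D.ch z) '' (Subtype.val ⁻¹' B) = D.π '' B := by
      ext y
      constructor
      · rintro ⟨w, hw, rfl⟩
        exact ⟨w, hw, by simp [D.coe]⟩
      · rintro ⟨w, hw, rfl⟩
        exact ⟨⟨w, h₁ hw⟩, hw, by simp [D.coe]⟩
    rwa [e] at h
  have hmem : ∀ w ∈ B, D.π w ∈ (D.ch z).target := fun w hw => by
    have := (D.ch z).map_source (h₁ hw)
    rwa [D.coe] at this
  have hm : MeasurableSet (ι '' B) := by
    have e : ι '' B = (ι ∘ (D.ch z).symm) '' (D.π '' B) := by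
      rw [image_image]
      exact image_congr fun w hw => by simp [hl w hw]
    rw [e]
    refine hA.image_of_continuousOn_injOn ?_ ?_
    · refine hc.comp ((D.ch z).continuousOn_symm.mono ?_) ?_
      · rintro _ ⟨w, hw, rfl⟩
        exact hmem w hw
      · rintro _ ⟨w, hw, rfl⟩
        rw [hl w hw]
        exact hBW hw
    · rintro _ ⟨w, hw, rfl⟩ _ ⟨w', hw', rfl⟩ h
      simp only [Function.comp, hl w hw, hl w' hw'] at h
      rw [hi (hBW hw) (hBW hw') h]
  refine ⟨hm, ?_⟩
  have hJ : ContinuousOn (fun z => ENNReal.ofReal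
      (‖Matrix.det (Matrix.of fun i j => D.d j (fun w => D'.π (ι w) i) z)‖ ^ 2)) B := by
    refine ENNReal.continuous_ofReal.comp_continuousOn (ContinuousOn.pow (ContinuousOn.norm ?_) 2)
    refine (continuous_id.matrix_det).comp_continuousOn ?_
    refine continuousOn_pi.2 fun i => continuousOn_pi.2 fun j w hw => ?_
    exact ((hι w (hBW hw) i).d j).smAt.continuousAt.continuousWithinAt
  rw [lint_sheet z hB h₁ ((hG.comp_aemeasurable' ((hc.mono hBW).aemeasurable hB)).fun_mul
      (hJ.aemeasurable hB)),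
    lint_sheet z' hm (by rintro _ ⟨w, hw, rfl⟩; exact h₂ hw) hG.aemeasurable]
  set Φ := D.loc (fun w => D'.π (ι w)) z with hΦ
  have hΦw : ∀ w ∈ B, Φ (D.π w) = D'.π (ι w) := fun w hw => by
    simp only [hΦ, loc, Function.comp, hl w hw]
  have hd : ∀ w ∈ B, DifferentiableAt ℂ Φ (D.π w) := fun w hw =>
    (cv_an (hι w (hBW hw))).differentiableAt.congr_of_eventuallyEq (loc_ev _ (h₁ hw))
  have e : D'.π '' (ι '' B) = Φ '' (D.π '' B) := by
    rw [image_image, image_image]
    exact image_congr fun w hw => (hΦw w hw).symm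
  rw [e, lintegral_image_eq_lintegral_abs_det_fderiv_mul volume hA
    (f' := fun y => (fderiv ℂ Φ y).restrictScalars ℝ)]
  · refine setLIntegral_congr_fun hA ?_
    rintro _ ⟨w, hw, rfl⟩
    simp only [loc, Function.comp, hl w hw, hΦw w hw, hl' w hw, cv_det]
    rw [mul_comm]
    congr 5
    ext i j
    have h1 : D.loc (fun w => D'.π (ι w) i) w =ᶠ[𝓝 (D.π w)] fun y => Φ y i :=
      (loc_ev _ (h₁ hw)).symm
    simp only [Matrix.of_apply, d]
    rw [cv_dz (hι w (hBW hw) i).differentiableAt, h1.fderiv_eq,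
      fderiv_apply (hd w hw) i]
    rfl
  · rintro _ ⟨w, hw, rfl⟩
    exact ((hd w hw).hasFDerivAt.restrictScalars ℝ).hasFDerivWithinAt
  · rintro _ ⟨w, hw, rfl⟩ _ ⟨w', hw', rfl⟩ h
    rw [hΦw w hw, hΦw w' hw'] at h
    have : ι w = ι w' := by rw [← hl' w hw, h, hl' w' hw']
    rw [hi (hBW hw) (hBW hw') this]

theorem lint_cv {W : Set Ω} (hW : IsOpen W) {ι : Ω → Ω'} (hc : ContinuousOn ι W) (hi : InjOn ι W)
    (hι : ∀ z ∈ W, ∀ i, D.HolAt (fun w => D'.π (ι w) i) z) {G : Ω' → ℝ≥0∞} (hG : Measurable G) :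
    ∫⁻ z in W, G (ι z) * ENNReal.ofReal
      (‖Matrix.det (Matrix.of fun i j => D.d j (fun w => D'.π (ι w) i) z)‖ ^ 2) ∂D.ν ≤
      ∫⁻ z, G z ∂D'.ν := by
  let N : Ω → Set Ω := fun z => (D.ch z).source ∩ (W ∩ ι ⁻¹' (D'.ch (ι z)).source)
  have hN : ∀ z, IsOpen (N z) := fun z =>
    (D.ch z).open_source.inter (hc.isOpen_inter_preimage hW (D'.ch _).open_source)
  obtain ⟨t, -, htc, hcov⟩ := TopologicalSpace.countable_cover_nhdsWithin (s := W) (f := N)
    fun z hz => mem_nhdsWithin_of_mem_nhds ((hN z).mem_nhds ⟨D.mem z, hz, D'.mem _⟩)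
  rcases t.eq_empty_or_nonempty with rfl | hne
  · have : W = ∅ := by simpa using hcov
    simp [this]
  obtain ⟨u, rfl⟩ := htc.exists_eq_range hne
  let B := disjointed fun k => N (u k)
  have hBm : ∀ k, MeasurableSet (B k) :=
    MeasurableSet.disjointed fun k => (hN (u k)).measurableSet
  have hBN : ∀ k, B k ⊆ N (u k) := disjointed_subset _
  have hBW : ∀ k, B k ⊆ W := fun k w hw => (hBN k hw).2.1
  have hU : W = ⋃ k, B k := by
    refine Subset.antisymm ?_ (iUnion_subset hBW)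
    rw [iUnion_disjointed]
    simpa using hcov
  have hp := fun k => cv_piece hW hc hi hι hG (hBm k) (hBW k) (z := u k) (z' := ι (u k))
    (fun w hw => (hBN k hw).1) (fun w hw => (hBN k hw).2.2)
  have hdis : Pairwise (Function.onFun Disjoint fun k => ι '' B k) := fun k l hkl =>
    (disjoint_disjointed _ hkl).image hi (hBW k) (hBW l)
  conv_lhs => rw [hU]
  rw [lintegral_iUnion hBm (disjoint_disjointed _), tsum_congr fun k => (hp k).2,
    ← lintegral_iUnion (fun k => (hp k).1) hdis]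
  exact setLIntegral_le_lintegral _ _

end EtDom

end Vale.Agent.P271
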