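import Vale.Agent.P271.Defs
import Vale.Agent.P278.Osg2

/-! P271 H/Calc: calculus in the sheets of an etale domain.

Plan. `loc_ev`: near `π z'` the point `w = (ch z').symm y` lies in both sources and `π w = y`, so
`(ch z).symm y = w` (`left_inv`, `coe`). `loc_congr`: `(ch z).symm` tends to `z` at `π z`.
All the closure rules are the Mathlib rules for `ContDiffAt`, `AnalyticAt`, `fderiv`, since
`loc (f * g) z = loc f z * loc g z` by `rfl`. `loc_d`: by `loc_ev`, for `y` near `π z`, with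
`w = (ch z).symm y`, `loc f w =ᶠ[𝓝 y] loc f z` (`EventuallyEq.fderiv_eq`). `holAt_of_db`: a real linear
map `L` with `L (single j I) = I * L (single j 1)` is complex linear; then `P278.osgood_at`.
`d_db_comm`: `ContDiffAt.isSymmSndFDerivAt`. Auxiliary names start with `calc_`. -/

open MeasureTheory Set Filter Topology
open scoped ContDiff ENNReal ComplexConjugate

noncomputable section

namespace Vale.Agent.P271

namespace EtDom

variable {n : ℕ} {Ω : Type} [TopologicalSpace Ω] [MeasurableSpace Ω] {D : EtDom n Ω}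

theorem loc_self {F : Type} (f : Ω → F) (z : Ω) : D.loc f z (D.π z) = f z := by
  have := (D.ch z).left_inv (D.mem z)
  rw [D.coe] at this
  simp only [loc, Function.comp, this]

theorem continuous_π : Continuous D.π := continuous_iff_continuousAt.2 fun z => by
  have := (D.ch z).continuousAt (D.mem z)
  rwa [D.coe] at this

theorem tendsto_symm (z : Ω) : Tendsto (D.ch z).symm (𝓝 (D.π z)) (𝓝 z) := by
  have := (D.ch z).tendsto_symm (D.mem z)
  rwa [D.coe] at this

theorem map_π_nhds (z : Ω) : map D.π (𝓝 z) = 𝓝 (D.π z) := by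
  have := (D.ch z).map_nhds_eq (D.mem z)
  rwa [D.coe] at this

theorem loc_ev {F : Type} (f : Ω → F) {z z' : Ω} (h : z' ∈ (D.ch z).source) :
    D.loc f z =ᶠ[𝓝 (D.π z')] D.loc f z' := by
  have h1 : ∀ᶠ y in 𝓝 (D.π z'), y ∈ (D.ch z').target := by
    have := (D.ch z').open_target.mem_nhds ((D.ch z').map_source (D.mem z'))
    rwa [D.coe] at this
  filter_upwards [h1, (tendsto_symm z').eventually ((D.ch z).open_source.mem_nhds h)] with y hy hw
  have e1 := (D.ch z').right_inv hy
  have e2 := (D.ch z).left_inv hw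
  rw [D.coe] at e1 e2
  rw [e1] at e2
  simp only [loc, Function.comp, e2]

theorem loc_congr {F : Type} {f g : Ω → F} {z : Ω} (h : f =ᶠ[𝓝 z] g) :
    D.loc f z =ᶠ[𝓝 (D.π z)] D.loc g z := (tendsto_symm z).eventually h

theorem calc_near {F : Type} (f : Ω → F) (z : Ω) : ∀ᶠ y in 𝓝 (D.π z),
    D.π ((D.ch z).symm y) = y ∧ D.loc f ((D.ch z).symm y) =ᶠ[𝓝 y] D.loc f z := by
  have h1 : ∀ᶠ y in 𝓝 (D.π z), y ∈ (D.ch z).target := by
    have := (D.ch z).open_target.mem_nhds ((D.ch z).map_source (D.mem z))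
    rwa [D.coe] at this
  filter_upwards [h1] with y hy
  have e1 := (D.ch z).right_inv hy
  rw [D.coe] at e1
  refine ⟨e1, ?_⟩
  have := (loc_ev f ((D.ch z).map_target hy)).symm
  rwa [e1] at this

theorem loc_d (j : Fin n) (f : Ω → ℂ) (z : Ω) :
    D.loc (D.d j f) z =ᶠ[𝓝 (D.π z)] dz j (D.loc f z) := by
  filter_upwards [calc_near (D := D) f z] with y hy
  simp only [loc, Function.comp, d, hy.1, dz]
  rw [show fderiv ℝ (f ∘ (D.ch ((D.ch z).symm y)).symm) y = _ from hy.2.fderiv_eq]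
  rfl

theorem loc_db (j : Fin n) (f : Ω → ℂ) (z : Ω) :
    D.loc (D.db j f) z =ᶠ[𝓝 (D.π z)] dzb j (D.loc f z) := by
  filter_upwards [calc_near (D := D) f z] with y hy
  simp only [loc, Function.comp, db, hy.1, dzb]
  rw [show fderiv ℝ (f ∘ (D.ch ((D.ch z).symm y)).symm) y = _ from hy.2.fderiv_eq]
  rfl

section sm

variable {F G : Type} [NormedAddCommGroup F] [NormedSpace ℝ F] [NormedAddCommGroup G]
  [NormedSpace ℝ G] {z : Ω}

theorem SmAt.congr {f g : Ω → F} (hf : D.SmAt f z) (h : f =ᶠ[𝓝 z] g) : D.SmAt g z :=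
  ContDiffAt.congr_of_eventuallyEq hf (loc_congr h).symm

theorem SmAt.continuousAt {f : Ω → F} (hf : D.SmAt f z) : ContinuousAt f z := by
  have h1 : ContinuousAt (D.loc f z ∘ D.π) z :=
    (ContDiffAt.continuousAt hf).comp continuous_π.continuousAt
  refine h1.congr ?_
  filter_upwards [(D.ch z).open_source.mem_nhds (D.mem z)] with w hw
  have := (D.ch z).left_inv hw
  rw [D.coe] at this
  simp only [loc, Function.comp, this]

theorem smAt_const (c : F) : D.SmAt (fun _ => c) z := contDiffAt_const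

theorem smAt_π : D.SmAt D.π z := by
  refine contDiffAt_id.congr_of_eventuallyEq ?_
  filter_upwards [calc_near (D := D) D.π z] with y hy
  exact hy.1

theorem SmAt.comp {f : Ω → F} (hf : D.SmAt f z) {χ : F → G} (hχ : ContDiffAt ℝ ∞ χ (f z)) :
    D.SmAt (fun w => χ (f w)) z :=
  ContDiffAt.comp (g := χ) (f := D.loc f z) _ (by rwa [loc_self]) hf

theorem SmAt.add {f g : Ω → F} (hf : D.SmAt f z) (hg : D.SmAt g z) :
    D.SmAt (fun w => f w + g w) z := ContDiffAt.add hf hg

theorem SmAt.sub {f g : Ω → F} (hf : D.SmAt f z) (hg : D.SmAt g z) :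
    D.SmAt (fun w => f w - g w) z := ContDiffAt.sub hf hg

theorem SmAt.sum {ι : Type} {s : Finset ι} {f : ι → Ω → F} (hf : ∀ i ∈ s, D.SmAt (f i) z) :
    D.SmAt (fun w => ∑ i ∈ s, f i w) z := ContDiffAt.sum (f := fun i => D.loc (f i) z) hf

theorem SmAt.mul {f g : Ω → ℂ} (hf : D.SmAt f z) (hg : D.SmAt g z) :
    D.SmAt (fun w => f w * g w) z := ContDiffAt.mul hf hg

theorem SmAt.rmul {f g : Ω → ℝ} (hf : D.SmAt f z) (hg : D.SmAt g z) :
    D.SmAt (fun w => f w * g w) z := ContDiffAt.mul hf hg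

theorem SmAt.ofReal {u : Ω → ℝ} (hu : D.SmAt u z) : D.SmAt (fun w => (u w : ℂ)) z :=
  hu.comp Complex.ofRealCLM.contDiff.contDiffAt

theorem SmAt.conj {f : Ω → ℂ} (hf : D.SmAt f z) : D.SmAt (fun w => conj (f w)) z :=
  hf.comp Complex.conjCLE.contDiff.contDiffAt

theorem SmAt.normSq {f : Ω → ℂ} (hf : D.SmAt f z) : D.SmAt (fun w => ‖f w‖ ^ 2) z :=
  ContDiffAt.norm_sq ℂ hf

theorem calc_fd {g : E n → ℂ} {y : E n} (hg : ContDiffAt ℝ ∞ g y) (v : E n) :
    ContDiffAt ℝ ∞ (fun y => fderiv ℝ g y v) y :=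
  (hg.fderiv_right (m := ∞) (by simp)).clm_apply contDiffAt_const

theorem SmAt.d {f : Ω → ℂ} (hf : D.SmAt f z) (j : Fin n) : D.SmAt (D.d j f) z :=
  ContDiffAt.congr_of_eventuallyEq
    (((calc_fd hf _).sub (contDiffAt_const.mul (calc_fd hf _))).div_const 2) (loc_d j f z)

theorem SmAt.db {f : Ω → ℂ} (hf : D.SmAt f z) (j : Fin n) : D.SmAt (D.db j f) z :=
  ContDiffAt.congr_of_eventuallyEq
    (((calc_fd hf _).add (contDiffAt_const.mul (calc_fd hf _))).div_const 2) (loc_db j f z)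

end sm

section hol

variable {z : Ω} {f g : Ω → ℂ}

theorem HolAt.smAt (hf : D.HolAt f z) : D.SmAt f z :=
  (AnalyticAt.contDiffAt (n := ∞) hf).restrict_scalars ℝ

theorem HolAt.congr (hf : D.HolAt f z) (h : f =ᶠ[𝓝 z] g) : D.HolAt g z :=
  AnalyticAt.congr hf (loc_congr h)

theorem HolAt.eventually (hf : D.HolAt f z) : ∀ᶠ w in 𝓝 z, D.HolAt f w := by
  have h1 := continuous_π.continuousAt.eventually (AnalyticAt.eventually_analyticAt hf)
  filter_upwards [h1, (D.ch z).open_source.mem_nhds (D.mem z)] with w hw hs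
  exact hw.congr (loc_ev f hs)

theorem holAt_const (c : ℂ) : D.HolAt (fun _ => c) z := analyticAt_const

theorem holAt_π (j : Fin n) : D.HolAt (fun w => D.π w j) z := by
  refine ((ContinuousLinearMap.proj (R := ℂ) (φ := fun _ : Fin n => ℂ) j).analyticAt _).congr ?_
  filter_upwards [calc_near (D := D) D.π z] with y hy
  simp only [loc, Function.comp, hy.1]
  rfl

theorem HolAt.add (hf : D.HolAt f z) (hg : D.HolAt g z) : D.HolAt (fun w => f w + g w) z :=
  AnalyticAt.add hf hg

theorem HolAt.sub (hf : D.HolAt f z) (hg : D.HolAt g z) : D.HolAt (fun w => f w - g w) z :=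
  AnalyticAt.sub hf hg

theorem HolAt.mul (hf : D.HolAt f z) (hg : D.HolAt g z) : D.HolAt (fun w => f w * g w) z :=
  AnalyticAt.mul hf hg

theorem HolAt.pow (hf : D.HolAt f z) (k : ℕ) : D.HolAt (fun w => f w ^ k) z :=
  AnalyticAt.pow hf k

theorem HolAt.inv (hf : D.HolAt f z) (h0 : f z ≠ 0) : D.HolAt (fun w => (f w)⁻¹) z :=
  AnalyticAt.inv (f := D.loc f z) hf (by rwa [loc_self])

theorem HolAt.sum {ι : Type} {s : Finset ι} {f : ι → Ω → ℂ} (hf : ∀ i ∈ s, D.HolAt (f i) z) :
    D.HolAt (fun w => ∑ i ∈ s, f i w) z :=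
  Finset.analyticAt_fun_sum (f := fun i => D.loc (f i) z) s hf

theorem calc_sI (j : Fin n) :
    (Pi.single j Complex.I : E n) = Complex.I • (Pi.single j 1 : E n) := by
  ext k
  by_cases hk : k = j
  · subst hk; simp
  · simp [hk]

theorem calc_dz {F : E n → ℂ} {y : E n} (hF : DifferentiableAt ℂ F y) (j : Fin n) :
    dz j F y = fderiv ℂ F y (Pi.single j 1) ∧ dzb j F y = 0 := by
  have h : fderiv ℝ F y = (fderiv ℂ F y).restrictScalars ℝ :=
    (hF.hasFDerivAt.restrictScalars ℝ).fderiv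
  simp only [dz, dzb, h, ContinuousLinearMap.coe_restrictScalars', calc_sI, map_smul, smul_eq_mul]
  rw [← mul_assoc, Complex.I_mul_I]
  constructor <;> ring

theorem HolAt.d (hf : D.HolAt f z) (j : Fin n) : D.HolAt (D.d j f) z := by
  have h1 : AnalyticAt ℂ (fun y => fderiv ℂ (D.loc f z) y (Pi.single j 1)) (D.π z) :=
    ((ContinuousLinearMap.apply ℂ ℂ (Pi.single j 1 : E n)).analyticAt _).comp
      (AnalyticAt.fderiv hf)
  refine h1.congr ?_
  filter_upwards [loc_d (D := D) j f z, AnalyticAt.eventually_analyticAt hf] with y hy hy'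
  rw [hy, (calc_dz hy'.differentiableAt j).1]

theorem HolAt.db_eq (hf : D.HolAt f z) (j : Fin n) : D.db j f z = 0 :=
  (calc_dz (AnalyticAt.differentiableAt hf) j).2

theorem calc_cr {F : E n → ℂ} {y : E n} (hF : DifferentiableAt ℝ F y) (h : ∀ j, dzb j F y = 0) :
    DifferentiableAt ℂ F y := by
  set L := fderiv ℝ F y with hL
  have h1 : ∀ j, L (Pi.single j Complex.I) = Complex.I * L (Pi.single j 1) := fun j => by
    have := h j
    simp only [dzb, ← hL] at this
    linear_combination (-2 * Complex.I) * this +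
      L (Pi.single j Complex.I) * Complex.I_mul_I
  let M : E n →L[ℂ] ℂ := ∑ j, (ContinuousLinearMap.proj j : E n →L[ℂ] ℂ).smulRight
    (L (Pi.single j 1))
  refine (hasFDerivAt_of_restrictScalars ℝ hF.hasFDerivAt (f' := M) ?_).differentiableAt
  ext1 v
  have e : v = ∑ j, ((v j).re • (Pi.single j 1 : E n) +
      (v j).im • (Pi.single j Complex.I : E n)) := by
    ext k
    simp [Finset.sum_apply, Pi.single_apply, Finset.sum_add_distrib]
  conv_rhs => rw [e]
  simp only [M, ContinuousLinearMap.coe_restrictScalars', map_sum, map_add, map_smul, ← hL, h1,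
    ContinuousLinearMap.coe_sum', Finset.sum_apply, ContinuousLinearMap.smulRight_apply,
    ContinuousLinearMap.proj_apply, smul_eq_mul, Complex.real_smul]
  refine Finset.sum_congr rfl fun j _ => ?_
  conv_lhs => rw [← Complex.re_add_im (v j)]
  ring

theorem holAt_of_db (hf : ∀ᶠ w in 𝓝 z, D.SmAt f w ∧ ∀ j, D.db j f w = 0) : D.HolAt f z := by
  refine P278.osgood_at ?_
  filter_upwards [(tendsto_symm z).eventually hf, calc_near (D := D) f z] with y hy hn
  have h1 : DifferentiableAt ℝ (D.loc f ((D.ch z).symm y)) y := by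
    have := ContDiffAt.differentiableAt hy.1 (by simp)
    rwa [hn.1] at this
  refine (calc_cr h1 fun j => ?_).congr_of_eventuallyEq hn.2.symm
  have := hy.2 j
  rwa [db, hn.1] at this

end hol

section der

variable {z : Ω} {f g : Ω → ℂ} (j : Fin n)

theorem d_congr (h : f =ᶠ[𝓝 z] g) : D.d j f z = D.d j g z := by
  simp only [d, dz, (loc_congr (D := D) h).fderiv_eq]

theorem db_congr (h : f =ᶠ[𝓝 z] g) : D.db j f z = D.db j g z := by
  simp only [db, dzb, (loc_congr (D := D) h).fderiv_eq]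

theorem d_const (c : ℂ) : D.d j (fun _ => c) z = 0 := by
  simp [d, dz, show D.loc (fun _ => c) z = fun _ => c from rfl]

theorem db_const (c : ℂ) : D.db j (fun _ => c) z = 0 := by
  simp [db, dzb, show D.loc (fun _ => c) z = fun _ => c from rfl]

theorem SmAt.calc_diff (hf : D.SmAt f z) : DifferentiableAt ℝ (D.loc f z) (D.π z) :=
  ContDiffAt.differentiableAt hf (by simp)

theorem d_add (hf : D.SmAt f z) (hg : D.SmAt g z) :
    D.d j (fun w => f w + g w) z = D.d j f z + D.d j g z := by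
  have h : fderiv ℝ (D.loc (fun w => f w + g w) z) (D.π z) = _ :=
    (hf.calc_diff.hasFDerivAt.add hg.calc_diff.hasFDerivAt).fderiv
  simp only [d, dz, h, ContinuousLinearMap.add_apply]
  ring

theorem db_add (hf : D.SmAt f z) (hg : D.SmAt g z) :
    D.db j (fun w => f w + g w) z = D.db j f z + D.db j g z := by
  have h : fderiv ℝ (D.loc (fun w => f w + g w) z) (D.π z) = _ :=
    (hf.calc_diff.hasFDerivAt.add hg.calc_diff.hasFDerivAt).fderiv
  simp only [db, dzb, h, ContinuousLinearMap.add_apply]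
  ring

theorem d_sub (hf : D.SmAt f z) (hg : D.SmAt g z) :
    D.d j (fun w => f w - g w) z = D.d j f z - D.d j g z := by
  have h : fderiv ℝ (D.loc (fun w => f w - g w) z) (D.π z) = _ :=
    (hf.calc_diff.hasFDerivAt.sub hg.calc_diff.hasFDerivAt).fderiv
  simp only [d, dz, h, ContinuousLinearMap.sub_apply]
  ring

theorem db_sub (hf : D.SmAt f z) (hg : D.SmAt g z) :
    D.db j (fun w => f w - g w) z = D.db j f z - D.db j g z := by
  have h : fderiv ℝ (D.loc (fun w => f w - g w) z) (D.π z) = _ :=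
    (hf.calc_diff.hasFDerivAt.sub hg.calc_diff.hasFDerivAt).fderiv
  simp only [db, dzb, h, ContinuousLinearMap.sub_apply]
  ring

theorem d_sum {ι : Type} {s : Finset ι} {f : ι → Ω → ℂ} (hf : ∀ i ∈ s, D.SmAt (f i) z) :
    D.d j (fun w => ∑ i ∈ s, f i w) z = ∑ i ∈ s, D.d j (f i) z := by
  have h : fderiv ℝ (D.loc (fun w => ∑ i ∈ s, f i w) z) (D.π z) = _ :=
    fderiv_fun_sum (A := fun i => D.loc (f i) z) fun i hi => (hf i hi).calc_diff
  simp only [d, dz, h, ContinuousLinearMap.coe_sum', Finset.sum_apply, ← Finset.sum_div,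
    Finset.sum_sub_distrib, Finset.mul_sum]

theorem db_sum {ι : Type} {s : Finset ι} {f : ι → Ω → ℂ} (hf : ∀ i ∈ s, D.SmAt (f i) z) :
    D.db j (fun w => ∑ i ∈ s, f i w) z = ∑ i ∈ s, D.db j (f i) z := by
  have h : fderiv ℝ (D.loc (fun w => ∑ i ∈ s, f i w) z) (D.π z) = _ :=
    fderiv_fun_sum (A := fun i => D.loc (f i) z) fun i hi => (hf i hi).calc_diff
  simp only [db, dzb, h, ContinuousLinearMap.coe_sum', Finset.sum_apply, ← Finset.sum_div,
    Finset.sum_add_distrib, Finset.mul_sum]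

theorem d_mul (hf : D.SmAt f z) (hg : D.SmAt g z) :
    D.d j (fun w => f w * g w) z = D.d j f z * g z + f z * D.d j g z := by
  have h : fderiv ℝ (D.loc (fun w => f w * g w) z) (D.π z) = _ :=
    (hf.calc_diff.hasFDerivAt.mul hg.calc_diff.hasFDerivAt).fderiv
  simp only [d, dz, h, ContinuousLinearMap.add_apply, ContinuousLinearMap.smul_apply,
    loc_self, smul_eq_mul]
  ring

theorem db_mul (hf : D.SmAt f z) (hg : D.SmAt g z) :
    D.db j (fun w => f w * g w) z = D.db j f z * g z + f z * D.db j g z := by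
  have h : fderiv ℝ (D.loc (fun w => f w * g w) z) (D.π z) = _ :=
    (hf.calc_diff.hasFDerivAt.mul hg.calc_diff.hasFDerivAt).fderiv
  simp only [db, dzb, h, ContinuousLinearMap.add_apply, ContinuousLinearMap.smul_apply,
    loc_self, smul_eq_mul]
  ring

theorem calc_conj (hf : D.SmAt f z) (v : E n) :
    fderiv ℝ (D.loc (fun w => conj (f w)) z) (D.π z) v = conj (fderiv ℝ (D.loc f z) (D.π z) v) := by
  have h : HasFDerivAt (D.loc (fun w => conj (f w)) z) _ (D.π z) :=
    (Complex.conjCLE : ℂ →L[ℝ] ℂ).hasFDerivAt.comp _ hf.calc_diff.hasFDerivAt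
  rw [h.fderiv]
  rfl

theorem d_conj (hf : D.SmAt f z) : D.d j (fun w => conj (f w)) z = conj (D.db j f z) := by
  simp only [d, db, dz, dzb, calc_conj hf, map_div₀, map_add, map_mul, Complex.conj_I, map_ofNat]
  ring

theorem db_conj (hf : D.SmAt f z) : D.db j (fun w => conj (f w)) z = conj (D.d j f z) := by
  simp only [d, db, dz, dzb, calc_conj hf, map_div₀, map_sub, map_mul, Complex.conj_I, map_ofNat]
  ring

theorem db_ofReal {u : Ω → ℝ} (hu : D.SmAt u z) :
    D.db j (fun w => (u w : ℂ)) z = conj (D.d j (fun w => (u w : ℂ)) z) := by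
  rw [← db_conj j hu.ofReal]
  simp only [Complex.conj_ofReal]

theorem calc_comp {u : Ω → ℝ} (hu : D.SmAt u z) {χ : ℝ → ℝ} {χ' : ℝ}
    (hχ : HasDerivAt χ χ' (u z)) (v : E n) :
    fderiv ℝ (D.loc (fun w => (χ (u w) : ℂ)) z) (D.π z) v =
      χ' * fderiv ℝ (D.loc (fun w => (u w : ℂ)) z) (D.π z) v := by
  have h0 := (ContDiffAt.differentiableAt hu (by simp)).hasFDerivAt
  have h1 : HasFDerivAt (D.loc (fun w => (u w : ℂ)) z) _ (D.π z) :=
    Complex.ofRealCLM.hasFDerivAt.comp _ h0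
  have h2 : HasFDerivAt (D.loc (fun w => (χ (u w) : ℂ)) z) _ (D.π z) :=
    Complex.ofRealCLM.hasFDerivAt.comp _
      (HasDerivAt.comp_hasFDerivAt_of_eq _ hχ h0 (loc_self u z).symm)
  rw [h1.fderiv, h2.fderiv]
  simp

theorem d_comp {u : Ω → ℝ} (hu : D.SmAt u z) {χ : ℝ → ℝ} {χ' : ℝ} (hχ : HasDerivAt χ χ' (u z)) :
    D.d j (fun w => (χ (u w) : ℂ)) z = χ' * D.d j (fun w => (u w : ℂ)) z := by
  simp only [d, dz, calc_comp hu hχ]
  ring

theorem db_comp {u : Ω → ℝ} (hu : D.SmAt u z) {χ : ℝ → ℝ} {χ' : ℝ} (hχ : HasDerivAt χ χ' (u z)) :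
    D.db j (fun w => (χ (u w) : ℂ)) z = χ' * D.db j (fun w => (u w : ℂ)) z := by
  simp only [db, dzb, calc_comp hu hχ]
  ring

theorem d_π (k : Fin n) : D.d j (fun w => D.π w k) z = if j = k then 1 else 0 := by
  have h1 : D.loc (fun w => D.π w k) z =ᶠ[𝓝 (D.π z)]
      (ContinuousLinearMap.proj k : E n →L[ℂ] ℂ) := by
    filter_upwards [calc_near (D := D) D.π z] with y hy
    simp only [loc, Function.comp, hy.1]
    rfl
  rw [d, (calc_dz (AnalyticAt.differentiableAt (holAt_π k)) j).1, h1.fderiv_eq,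
    ContinuousLinearMap.fderiv]
  simp [Pi.single_apply, eq_comm]

theorem d_db_comm (k : Fin n) (hf : D.SmAt f z) :
    D.d j (D.db k f) z = D.db k (D.d j f) z := by
  have hs : ∀ a b : E n, fderiv ℝ (fun y => fderiv ℝ (D.loc f z) y a) (D.π z) b =
      fderiv ℝ (fderiv ℝ (D.loc f z)) (D.π z) b a := fun a b => by
    rw [fderiv_clm_apply (((ContDiffAt.fderiv_right hf (m := ∞) (by simp))).differentiableAt
      (by simp)) (differentiableAt_const _)]
    simp
  have hsym := ContDiffAt.isSymmSndFDerivAt hf (by simp; norm_cast)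
  have hd : ∀ a : E n, HasFDerivAt (fun y => fderiv ℝ (D.loc f z) y a)
      (fderiv ℝ (fun y => fderiv ℝ (D.loc f z) y a) (D.π z)) (D.π z) := fun a =>
    ((calc_fd hf a).differentiableAt (by simp)).hasFDerivAt
  have e1 : HasFDerivAt (dzb k (D.loc f z)) _ (D.π z) :=
    ((hd _).add ((hd _).const_mul Complex.I)).mul_const (2 : ℂ)⁻¹
  have e2 : HasFDerivAt (dz j (D.loc f z)) _ (D.π z) :=
    ((hd _).sub ((hd _).const_mul Complex.I)).mul_const (2 : ℂ)⁻¹
  rw [d, db, dz, dzb, (loc_db k f z).fderiv_eq, (loc_d j f z).fderiv_eq, e1.fderiv, e2.fderiv]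
  simp only [ContinuousLinearMap.smul_apply, ContinuousLinearMap.add_apply,
    ContinuousLinearMap.sub_apply, smul_eq_mul, hs]
  rw [hsym.eq (Pi.single j 1) (Pi.single k 1), hsym.eq (Pi.single j 1) (Pi.single k Complex.I),
    hsym.eq (Pi.single j Complex.I) (Pi.single k 1),
    hsym.eq (Pi.single j Complex.I) (Pi.single k Complex.I)]
  ring

end der

end EtDom

end Vale.Agent.P271
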