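import Vale.Agent.P271.H.Quad

/-! P271 H/EstP: pointwise inequalities for the main estimate.

Plan. `wt φ ψ = 2 * sg φ ψ + ψ`. `levi_wt`: `levi_add`, `levi_comp` with `χ t = exp (2 t) - 1`,
`χ' = 2 exp (2 t)`, `χ'' = 4 exp (2 t) ≥ 3`. `div_eq`: `d_mul`, `d_comp` (for `exp (2 σ)`), and
`d j (wt) = 2 * d j σ + d j ψ` (`d_add`, casts by `push_cast` and `funext`). `curl_le`: `sum_opC`,
`db_eq`, `db_ofReal` (so `‖db j η‖ = ‖d j η‖`), `‖x - y‖ ^ 2 ≤ 2 ‖x‖ ^ 2 + 2 ‖y‖ ^ 2`,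
`Finset.sum_mul_sum`. `pair_le`: `dbar_cut` with `b = id`, `hM`, `dv_sq_le`, `2 x y ≤ τ x ^ 2 + y ^ 2 / τ`,
`exp (-2 σ + ψ) ≤ exp (-φ)` since `2 ψ + 1 ≤ exp (2 ψ)`. Auxiliary names start with `estp_`. -/

open MeasureTheory Set Filter Topology
open scoped ContDiff ENNReal ComplexConjugate Convolution

noncomputable section

namespace Vale.Agent.P271

namespace EtDom

variable {n : ℕ} {Ω : Type} [TopologicalSpace Ω] [T2Space Ω] [SecondCountableTopology Ω]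
  [MeasurableSpace Ω] [BorelSpace Ω] {D : EtDom n Ω}

variable {φ ψ η : Ω → ℝ} {z : Ω}

theorem smAt_wt (hφ : D.SmAt φ z) (hψ : D.SmAt ψ z) : D.SmAt (wt φ ψ) z :=
  hφ.add (((smAt_const 2).rmul hψ).rexp.sub (smAt_const 1))

theorem smAt_sg (hφ : D.SmAt φ z) (hψ : D.SmAt ψ z) : D.SmAt (sg φ ψ) z :=
  ((smAt_wt hφ hψ).sub hψ).comp (χ := fun t => t / 2) (contDiffAt_id.div_const 2)

theorem levi_wt (hφ : D.SmAt φ z) (hψ : D.Psh ψ z) (h0 : 0 ≤ ψ z) (v : E n) :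
    D.levi φ z v + 3 * ‖D.dv ψ z v‖ ^ 2 ≤ D.levi (wt φ ψ) z v :=
by
  have d1 : ∀ t : ℝ, HasDerivAt (fun t : ℝ => Real.exp (2 * t)) (Real.exp (2 * t) * 2) t :=
    fun t => by simpa using ((hasDerivAt_id t).const_mul 2).exp
  have e1 : deriv (fun t : ℝ => Real.exp (2 * t) - 1) = fun t => Real.exp (2 * t) * 2 :=
    funext fun t => ((d1 t).sub_const 1).deriv
  have e2 : deriv (fun t : ℝ => Real.exp (2 * t) * 2) (ψ z) = Real.exp (2 * ψ z) * 2 * 2 :=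
    ((d1 _).mul_const 2).deriv
  have h1 := levi_comp v hψ.1 (χ := fun t => Real.exp (2 * t) - 1) (by fun_prop)
  have h2 := levi_add v hφ (((smAt_const 2).rmul hψ.1).rexp.sub (smAt_const 1))
  rw [e1, e2] at h1
  have h3 : 1 ≤ Real.exp (2 * ψ z) := Real.one_le_exp (by linarith)
  have h4 := mul_nonneg (by linarith : 0 ≤ Real.exp (2 * ψ z) * 2) (hψ.2 v)
  have h5 := mul_le_mul_of_nonneg_right (by linarith : 3 ≤ Real.exp (2 * ψ z) * 2 * 2)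
    (sq_nonneg ‖D.dv ψ z v‖)
  refine le_trans ?_ h2.ge
  rw [h1]
  linarith

theorem div_eq (hφ : D.SmAt φ z) (hψ : D.SmAt ψ z) (hη : D.SmAt η z) (v : E n) :
    ∑ j, opD j (D.fd (fun w => (η w : ℂ) * (Real.exp (2 * sg φ ψ w) : ℂ)) z) *
        ((Real.exp (-sg φ ψ z) : ℂ) * v j) -
      D.dv (wt φ ψ) z (fun j => ((η z * Real.exp (sg φ ψ z) : ℝ) : ℂ) * v j) =
      (Real.exp (sg φ ψ z) : ℂ) * (D.dv η z v - η z * D.dv ψ z v) :=
by
  have sσ := smAt_sg hφ hψ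
  have d1 : HasDerivAt (fun t : ℝ => Real.exp (2 * t)) (Real.exp (2 * sg φ ψ z) * 2) (sg φ ψ z) := by
    simpa using ((hasDerivAt_id (sg φ ψ z)).const_mul 2).exp
  have e1 : (fun w => (wt φ ψ w : ℂ)) = fun w => 2 * (sg φ ψ w : ℂ) + (ψ w : ℂ) :=
    funext fun w => by rw [sg]; push_cast; ring
  have e2 : ((Real.exp (2 * sg φ ψ z) : ℝ) : ℂ) * (Real.exp (-sg φ ψ z) : ℂ) =
      (Real.exp (sg φ ψ z) : ℂ) := by
    rw [← Complex.ofReal_mul, ← Real.exp_add]; congr 2; ring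
  simp only [dv, Finset.mul_sum, ← Finset.sum_sub_distrib]
  refine Finset.sum_congr rfl fun j _ => ?_
  rw [← d_eq, d_mul j hη.ofReal ((smAt_const 2).rmul sσ).rexp.ofReal, d_comp j sσ d1, e1,
    d_add j ((smAt_const 2).mul sσ.ofReal) hψ.ofReal, d_mul j (smAt_const 2) sσ.ofReal, d_const,
    Complex.ofReal_mul, Complex.ofReal_mul, ← e2, Complex.ofReal_ofNat]
  ring

theorem curl_le (hη : D.SmAt η z) (v : E n) :
    ∑ j, ∑ k, ‖∑ i, opC j k i (D.fd (fun w => (η w : ℂ)) z) * v i‖ ^ 2 ≤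
      4 * (D.gr η z * ∑ j, ‖v j‖ ^ 2) :=
by
  have e1 : ∀ j, ‖opB j (D.fd (fun w => (η w : ℂ)) z)‖ = ‖D.d j (fun w => (η w : ℂ)) z‖ :=
    fun j => by rw [← db_eq, db_ofReal j hη, Complex.norm_conj]
  calc _ ≤ ∑ j, ∑ k, (2 * (‖D.d k (fun w => (η w : ℂ)) z‖ ^ 2 * ‖v j‖ ^ 2) +
        2 * (‖D.d j (fun w => (η w : ℂ)) z‖ ^ 2 * ‖v k‖ ^ 2)) := by
        refine Finset.sum_le_sum fun j _ => Finset.sum_le_sum fun k _ => ?_
        rw [Finset.sum_congr rfl fun i _ => mul_comm _ (v i),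
          sum_opC j k v fun _ => D.fd (fun w => (η w : ℂ)) z]
        refine (pow_le_pow_left₀ (norm_nonneg _) (norm_sub_le _ _) 2).trans ?_
        rw [norm_mul, norm_mul, e1, e1]
        nlinarith [sq_nonneg (‖v j‖ * ‖D.d k (fun w => (η w : ℂ)) z‖ -
          ‖v k‖ * ‖D.d j (fun w => (η w : ℂ)) z‖)]
    _ = _ := by
      simp only [Finset.sum_add_distrib, ← Finset.mul_sum, ← Finset.sum_mul, gr]
      ring

theorem estp_amgm {x p q τ : ℝ} (hx : 0 ≤ x) (hp : 0 ≤ p) (hq : 0 ≤ q) (hτ : 0 < τ)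
    (h : x ^ 2 ≤ p * q) : x ≤ τ / 2 * p + 1 / (2 * τ) * q := by
  refine (sq_le_sq₀ hx (by positivity)).1 (h.trans ?_)
  have e : τ / 2 * p * (1 / (2 * τ) * q) = p * q / 4 := by field_simp; ring
  nlinarith [sq_nonneg (τ / 2 * p - 1 / (2 * τ) * q)]

theorem pair_le (hφ : D.Psh φ z) (h0 : 0 ≤ ψ z) (hη : D.SmAt η z) (η0 : 0 ≤ η z) {g : Ω → ℂ}
    (hg : D.SmAt g z) {M : ℝ} (hM0 : 0 ≤ M)
    (hM : ∀ v, ‖∑ j, D.db j g z * conj (v j)‖ ^ 2 ≤ M * D.levi φ z v) (v : E n) {τ ε : ℝ}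
    (hτ : 0 < τ) (hε : 0 < ε) :
    ‖∑ j, (Real.exp (-sg φ ψ z) : ℂ) * D.db j (fun w => (η w : ℂ) * g w) z * conj (v j)‖ ≤
      τ / 2 * (M * Real.exp (-φ z)) +
        (1 / (2 * τ) * (η z ^ 2 * D.levi φ z v * Real.exp (-ψ z)) +
          ε / 2 * (‖g z‖ ^ 2 * Real.exp (-φ z)) +
          1 / (2 * ε) * (D.gr η z * Real.exp (-ψ z) * ∑ j, ‖v j‖ ^ 2)) :=
by
  have h1 := dbar_cut v hη (b := fun t => t) contDiffAt_id hg
  rw [deriv_id'', Complex.ofReal_one, one_mul] at h1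
  have ex : Real.exp (-sg φ ψ z) ^ 2 ≤ Real.exp (-φ z) * Real.exp (-ψ z) := by
    rw [← Real.exp_nat_mul, ← Real.exp_add, sg, wt]
    have := Real.add_one_le_exp (2 * ψ z)
    exact Real.exp_le_exp.2 (by push_cast; linarith)
  have L0 := hφ.2 v
  have g0 : 0 ≤ D.gr η z := Finset.sum_nonneg fun _ _ => sq_nonneg _
  have v0 : 0 ≤ ∑ j, ‖v j‖ ^ 2 := Finset.sum_nonneg fun _ _ => sq_nonneg _
  have k1 : Real.exp (-sg φ ψ z) * (η z * ‖∑ j, D.db j g z * conj (v j)‖) ≤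
      τ / 2 * (M * Real.exp (-φ z)) + 1 / (2 * τ) * (η z ^ 2 * D.levi φ z v * Real.exp (-ψ z)) := by
    refine estp_amgm (by positivity) (by positivity) (by positivity) hτ ?_
    rw [mul_pow, mul_pow]
    calc _ ≤ Real.exp (-φ z) * Real.exp (-ψ z) * (η z ^ 2 * (M * D.levi φ z v)) := by
          have := hM v
          gcongr
      _ = _ := by ring
  have k2 : Real.exp (-sg φ ψ z) * (‖g z‖ * ‖D.dv η z v‖) ≤ ε / 2 * (‖g z‖ ^ 2 * Real.exp (-φ z)) +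
      1 / (2 * ε) * (D.gr η z * Real.exp (-ψ z) * ∑ j, ‖v j‖ ^ 2) := by
    refine estp_amgm (by positivity) (by positivity) (by positivity) hε ?_
    rw [mul_pow, mul_pow]
    calc _ ≤ Real.exp (-φ z) * Real.exp (-ψ z) * (‖g z‖ ^ 2 * (D.gr η z * ∑ j, ‖v j‖ ^ 2)) := by
          have := dv_sq_le (D := D) η z v
          gcongr
      _ = _ := by ring
  simp only [mul_assoc ((Real.exp (-sg φ ψ z) : ℝ) : ℂ), ← Finset.mul_sum]
  rw [h1, norm_mul, Complex.norm_real, Real.norm_of_nonneg (Real.exp_pos _).le]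
  refine (mul_le_mul_of_nonneg_left (norm_add_le _ _) (Real.exp_pos _).le).trans ?_
  rw [norm_mul, norm_mul, Complex.norm_conj, Complex.norm_real, Real.norm_of_nonneg η0, mul_add]
  linarith only [k1, k2]

end EtDom

end Vale.Agent.P271
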