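import Vale.Agent.P271.H.BasicW
import Vale.Agent.P271.H.EstP

/-! P271 H/Est: the main estimate for one cutoff.

Plan. `σ = sg φ ψ`, `K' = tsupport η` (complex valued `η`), `γ j = (η * exp σ) * b j`. By `Weak.mul`
(multipliers `η * exp (2 σ)` and `η`; rewrite the fields by `funext`) and `basic_weak` for the weight
`wt φ ψ`; `L ^ 2` bounds by `Test.mul_memLp`, `Test.op`, supports by `fd_zero`. With
`exp (2 σ) * exp (- wt) = exp (- ψ)`: the left integrand is `≥ η ^ 2 (levi φ b + 3 ‖dv ψ b‖ ^ 2) exp (-ψ)`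
(`levi_cmul`, `levi_wt`); by `div_eq` the divergence term is
`‖η exp (2 σ) conj h + exp σ (dv η b - η dv ψ b)‖ ^ 2 exp (- wt) ≤ 3 ‖h‖ ^ 2 exp φ +
3 gr η exp (-ψ) ∑ ‖b j‖ ^ 2 + 3 η ^ 2 ‖dv ψ b‖ ^ 2 exp (-ψ)` (on `K`: `ψ = 0`, `wt = φ`, `2 σ = φ`; off `K`:
`h = 0`; `dv_sq_le`), the curl term by `curl_le`. Integrability: `int_levi`, `int_sq_mul`, `memLp_dv`
for the field `η * b` (`levi_cmul`, `dv_cmul`), `int_gr` from `Cut.grad`. State the pointwise bounds as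
separate lemmas about real and complex numbers. Auxiliary names start with `est_`. -/

open MeasureTheory Set Filter Topology
open scoped ContDiff ENNReal ComplexConjugate Convolution

noncomputable section

namespace Vale.Agent.P271

namespace EtDom

variable {n : ℕ} {Ω : Type} [TopologicalSpace Ω] [T2Space Ω] [SecondCountableTopology Ω]
  [MeasurableSpace Ω] [BorelSpace Ω] {D : EtDom n Ω}

variable {φ ψ η : Ω → ℝ} {K : Set Ω} {b : Fin n → Ω → ℂ}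

omit [T2Space Ω] [SecondCountableTopology Ω] [BorelSpace Ω] in
theorem est_zero (_hη : D.Cut ψ η K) {z : Ω} (hz : z ∉ tsupport fun z => (η z : ℂ)) :
    (η z : ℂ) = 0 := image_eq_zero_of_notMem_tsupport (f := fun z => (η z : ℂ)) hz

theorem est_tri (x y w : ℂ) : ‖x + (y - w)‖ ^ 2 ≤ 3 * ‖x‖ ^ 2 + 3 * ‖y‖ ^ 2 + 3 * ‖w‖ ^ 2 := by
  have h : ‖x + (y - w)‖ ≤ ‖x‖ + (‖y‖ + ‖w‖) :=
    (norm_add_le _ _).trans (add_le_add le_rfl (norm_sub_le _ _))
  refine (pow_le_pow_left₀ (norm_nonneg _) h 2).trans ?_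
  nlinarith [sq_nonneg (‖x‖ - ‖y‖), sq_nonneg (‖x‖ - ‖w‖), sq_nonneg (‖y‖ - ‖w‖)]

omit [TopologicalSpace Ω] [T2Space Ω] [SecondCountableTopology Ω] [MeasurableSpace Ω]
  [BorelSpace Ω] in
theorem est_exp (φ ψ : Ω → ℝ) (z : Ω) :
    Real.exp (sg φ ψ z) ^ 2 * Real.exp (-wt φ ψ z) = Real.exp (-ψ z) := by
  rw [← Real.exp_nat_mul, ← Real.exp_add, sg]
  congr 1
  push_cast
  ring

omit [TopologicalSpace Ω] [T2Space Ω] [SecondCountableTopology Ω] [MeasurableSpace Ω]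
  [BorelSpace Ω] in
theorem est_head {z : Ω} {e : ℝ} {h : ℂ} (e0 : 0 ≤ e) (e1 : e ≤ 1) (hz : ψ z = 0 ∨ h = 0) :
    ‖(e : ℂ) * (Real.exp (2 * sg φ ψ z) : ℂ) * conj h‖ ^ 2 * Real.exp (-wt φ ψ z) ≤
      ‖h‖ ^ 2 * Real.exp (φ z) := by
  rcases hz with hz | hz
  · have k1 : 2 * sg φ ψ z = φ z := by simp only [sg, wt, hz, mul_zero, Real.exp_zero]; ring
    have k2 : wt φ ψ z = φ z := by simp only [wt, hz, mul_zero, Real.exp_zero]; ring
    have k3 : Real.exp (φ z) * Real.exp (-φ z) = 1 := by rw [← Real.exp_add]; simp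
    rw [k1, k2, norm_mul, norm_mul, Complex.norm_conj, Complex.norm_real, Complex.norm_real,
      Real.norm_of_nonneg e0, Real.norm_of_nonneg (Real.exp_pos _).le]
    calc _ = e ^ 2 * (‖h‖ ^ 2 * Real.exp (φ z)) * (Real.exp (φ z) * Real.exp (-φ z)) := by ring
      _ ≤ _ := by
        rw [k3, mul_one]
        exact mul_le_of_le_one_left (by positivity) (pow_le_one₀ e0 e1)
  · simp [hz]

theorem int_gr (hψ : ∀ z, D.SmAt ψ z) (hη : D.Cut ψ η K) (hb : ∀ j, MemLp (b j) 2 D.ν) :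
    Integrable (fun z => D.gr η z * Real.exp (-ψ z) * ∑ j, ‖b j z‖ ^ 2) D.ν :=
by
  have hs : Integrable (fun z => ∑ j, ‖b j z‖ ^ 2) D.ν :=
    integrable_finsetSum _ fun j _ => int_sq (hb j)
  refine hs.bdd_mul (c := 1) ((gr_cont hη.sm).mul
    (Real.continuous_exp.comp (cont_of_sm hψ).neg)).aestronglyMeasurable
    (Eventually.of_forall fun z => ?_)
  have h0 : 0 ≤ D.gr η z := Finset.sum_nonneg fun _ _ => sq_nonneg _
  rw [Real.norm_of_nonneg (by positivity), Real.exp_neg, ← div_eq_mul_inv,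
    div_le_one (Real.exp_pos _)]
  exact hη.grad z

theorem int_eta (hφ : ∀ z, D.SmAt φ z) (hψ : ∀ z, D.SmAt ψ z) (hη : D.Cut ψ η K)
    (hb : ∀ j, MemLp (b j) 2 D.ν) :
    Integrable (fun z => η z ^ 2 * D.levi φ z (fun j => b j z) * Real.exp (-ψ z)) D.ν :=
by
  refine (int_levi hη.test.2 hφ (Real.continuous_exp.comp (cont_of_sm hψ).neg)
    (β := fun j z => (η z : ℂ) * b j z) (fun j => hη.test.mul_memLp (hb j))
    fun j z hz => by rw [est_zero hη hz, zero_mul]).congr (Eventually.of_forall fun z => ?_)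
  simp only [levi_cmul, Function.comp, Pi.neg_apply]

theorem est_intP (hψ : ∀ z, D.SmAt ψ z) (hη : D.Cut ψ η K) (hb : ∀ j, MemLp (b j) 2 D.ν) :
    Integrable (fun z => η z ^ 2 * ‖D.dv ψ z fun j => b j z‖ ^ 2 * Real.exp (-ψ z)) D.ν := by
  have z0 : ∀ j z, z ∉ tsupport (fun z => (η z : ℂ)) → (η z : ℂ) * b j z = 0 := fun j z hz => by
    rw [est_zero hη hz, zero_mul]
  refine (int_sq_mul hη.test.2 (cont_of_sm fun z => (hψ z).rneg.rexp) (memLp_dv hη.test.2 hψ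
    (β := fun j z => (η z : ℂ) * b j z) (fun j => hη.test.mul_memLp (hb j)) z0)
    fun z hz => by rw [dv_cmul, est_zero hη hz, zero_mul]).congr
    (Eventually.of_forall fun z => ?_)
  simp only [dv_cmul, norm_mul, mul_pow, Complex.norm_real, Real.norm_eq_abs, sq_abs]

theorem est_p1 {z : Ω} (hφ : D.SmAt φ z) (hψ : D.Psh ψ z) (h0 : 0 ≤ ψ z) (v : E n) :
    η z ^ 2 * D.levi φ z v * Real.exp (-ψ z) +
      3 * (η z ^ 2 * ‖D.dv ψ z v‖ ^ 2 * Real.exp (-ψ z)) ≤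
      D.levi (wt φ ψ) z (fun j => ((η z * Real.exp (sg φ ψ z) : ℝ) : ℂ) * v j) *
        Real.exp (-wt φ ψ z) := by
  rw [levi_cmul]
  calc _ = η z ^ 2 * Real.exp (-ψ z) * (D.levi φ z v + 3 * ‖D.dv ψ z v‖ ^ 2) := by ring
    _ ≤ η z ^ 2 * Real.exp (-ψ z) * D.levi (wt φ ψ) z v :=
      mul_le_mul_of_nonneg_left (levi_wt hφ hψ h0 v) (by positivity)
    _ = _ := by rw [← est_exp φ ψ z]; ring

theorem est_p2 {z : Ω} (hφ : D.SmAt φ z) (hψ : D.SmAt ψ z) (hη : D.SmAt η z) (e0 : 0 ≤ η z)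
    (e1 : η z ≤ 1) {h : ℂ} (hz : ψ z = 0 ∨ h = 0) (v : E n) :
    ‖(η z : ℂ) * (Real.exp (2 * sg φ ψ z) : ℂ) * conj h +
        ∑ j, opD j (D.fd (fun w => (η w : ℂ) * (Real.exp (2 * sg φ ψ w) : ℂ)) z) *
          ((Real.exp (-sg φ ψ z) : ℂ) * v j) -
        D.dv (wt φ ψ) z (fun j => ((η z * Real.exp (sg φ ψ z) : ℝ) : ℂ) * v j)‖ ^ 2 *
        Real.exp (-wt φ ψ z) ≤
      3 * (‖h‖ ^ 2 * Real.exp (φ z)) + 3 * (D.gr η z * Real.exp (-ψ z) * ∑ j, ‖v j‖ ^ 2) +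
        3 * (η z ^ 2 * ‖D.dv ψ z v‖ ^ 2 * Real.exp (-ψ z)) := by
  rw [add_sub_assoc, div_eq hφ hψ hη, mul_sub]
  refine (mul_le_mul_of_nonneg_right (est_tri _ _ _) (Real.exp_pos _).le).trans ?_
  have k1 := est_head (φ := φ) e0 e1 hz
  have k2 := mul_le_mul_of_nonneg_right (dv_sq_le (D := D) η z v) (Real.exp_pos (-ψ z)).le
  have k3 : ‖(Real.exp (sg φ ψ z) : ℂ) * D.dv η z v‖ ^ 2 * Real.exp (-wt φ ψ z) =
      ‖D.dv η z v‖ ^ 2 * Real.exp (-ψ z) := by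
    rw [norm_mul, mul_pow, Complex.norm_real, Real.norm_eq_abs, sq_abs, ← est_exp φ ψ z]; ring
  have k4 : ‖(Real.exp (sg φ ψ z) : ℂ) * (η z * D.dv ψ z v)‖ ^ 2 * Real.exp (-wt φ ψ z) =
      η z ^ 2 * ‖D.dv ψ z v‖ ^ 2 * Real.exp (-ψ z) := by
    rw [norm_mul, norm_mul, mul_pow, mul_pow, Complex.norm_real, Complex.norm_real,
      Real.norm_eq_abs, Real.norm_eq_abs, sq_abs, sq_abs, ← est_exp φ ψ z]; ring
  linarith only [k1, k2, k3, k4]

theorem est_p3 (φ ψ : Ω → ℝ) {z : Ω} (hη : D.SmAt η z) (v : E n) :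
    ∑ j, ∑ k, ‖∑ i, opC j k i (D.fd (fun w => (η w : ℂ)) z) *
        ((Real.exp (sg φ ψ z) : ℂ) * v i)‖ ^ 2 * Real.exp (-wt φ ψ z) ≤
      4 * (D.gr η z * Real.exp (-ψ z) * ∑ j, ‖v j‖ ^ 2) := by
  simp only [← Finset.sum_mul]
  refine (mul_le_mul_of_nonneg_right (curl_le hη fun i => (Real.exp (sg φ ψ z) : ℂ) * v i)
    (Real.exp_pos _).le).trans_eq ?_
  simp only [norm_mul, mul_pow, Complex.norm_real, Real.norm_eq_abs, sq_abs, ← Finset.mul_sum]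
  rw [← est_exp φ ψ z]; ring

theorem est_div (hφ : ∀ z, D.SmAt φ z) (hψ : ∀ z, D.SmAt ψ z) (hη : D.Cut ψ η K) {h : Ω → ℂ}
    (hh : D.Test h) (hb : ∀ j, MemLp (b j) 2 D.ν)
    (h1 : D.Weak opD (fun j z => (Real.exp (-sg φ ψ z) : ℂ) * b j z) fun z => conj (h z)) :
    MemLp (fun z => (η z : ℂ) * (Real.exp (2 * sg φ ψ z) : ℂ) * conj (h z) +
      ∑ j, opD j (D.fd (fun w => (η w : ℂ) * (Real.exp (2 * sg φ ψ w) : ℂ)) z) *
        ((Real.exp (-sg φ ψ z) : ℂ) * b j z)) 2 D.ν ∧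
    (∀ z, z ∉ tsupport (fun z => (η z : ℂ)) →
      (η z : ℂ) * (Real.exp (2 * sg φ ψ z) : ℂ) * conj (h z) +
      ∑ j, opD j (D.fd (fun w => (η w : ℂ) * (Real.exp (2 * sg φ ψ w) : ℂ)) z) *
        ((Real.exp (-sg φ ψ z) : ℂ) * b j z) = 0) ∧
    D.Weak opD (fun j z => ((η z * Real.exp (sg φ ψ z) : ℝ) : ℂ) * b j z)
      fun z => (η z : ℂ) * (Real.exp (2 * sg φ ψ z) : ℂ) * conj (h z) +
      ∑ j, opD j (D.fd (fun w => (η w : ℂ) * (Real.exp (2 * sg φ ψ w) : ℂ)) z) *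
        ((Real.exp (-sg φ ψ z) : ℂ) * b j z) := by
  have sσ := fun z => smAt_sg (hφ z) (hψ z)
  have ta : D.Test fun w => (η w : ℂ) * (Real.exp (2 * sg φ ψ w) : ℂ) :=
    hη.test.mul_right fun z => ((smAt_const 2).rmul (sσ z)).rexp.ofReal
  refine ⟨(ta.mul_memLp (memLp_conj hh.memLp)).add (memLp_finsetSum _ fun j _ => ?_),
    fun z hz => ?_, ?_⟩
  · simpa only [mul_assoc] using
      ((ta.op (opD j)).mul_right fun z => (sσ z).rneg.rexp.ofReal).mul_memLp (hb j)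
  · rw [fd_zero' hη.test.2 (fun w hw => by rw [est_zero hη hw, zero_mul]) hz, est_zero hη hz]
    simp
  · have e : (fun j z => ((η z * Real.exp (sg φ ψ z) : ℝ) : ℂ) * b j z) = fun j z =>
        (η z : ℂ) * (Real.exp (2 * sg φ ψ z) : ℂ) * ((Real.exp (-sg φ ψ z) : ℂ) * b j z) := by
      funext j z
      have k : Real.exp (sg φ ψ z) = Real.exp (2 * sg φ ψ z) * Real.exp (-sg φ ψ z) := by
        rw [← Real.exp_add]; congr 1; ring
      rw [k, Complex.ofReal_mul, Complex.ofReal_mul]; ring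
    rw [e]
    exact h1.mul ta.1

theorem est_curl (hφ : ∀ z, D.SmAt φ z) (hψ : ∀ z, D.SmAt ψ z) (hη : D.Cut ψ η K)
    (hb : ∀ j, MemLp (b j) 2 D.ν) {j k : Fin n}
    (h2 : D.Weak (opC j k) (fun i z => (Real.exp (sg φ ψ z) : ℂ) * b i z) fun _ => 0) :
    MemLp (fun z => ∑ i, opC j k i (D.fd (fun w => (η w : ℂ)) z) *
      ((Real.exp (sg φ ψ z) : ℂ) * b i z)) 2 D.ν ∧
    (∀ z, z ∉ tsupport (fun z => (η z : ℂ)) → ∑ i, opC j k i (D.fd (fun w => (η w : ℂ)) z) *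
      ((Real.exp (sg φ ψ z) : ℂ) * b i z) = 0) ∧
    D.Weak (opC j k) (fun j z => ((η z * Real.exp (sg φ ψ z) : ℝ) : ℂ) * b j z)
      fun z => ∑ i, opC j k i (D.fd (fun w => (η w : ℂ)) z) *
        ((Real.exp (sg φ ψ z) : ℂ) * b i z) := by
  refine ⟨memLp_finsetSum _ fun i _ => ?_, fun z hz => ?_, ?_⟩
  · simpa only [mul_assoc] using ((hη.test.op (opC j k i)).mul_right fun z =>
      (smAt_sg (hφ z) (hψ z)).rexp.ofReal).mul_memLp (hb i)
  · rw [fd_zero hz]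
    simp
  · simpa only [Complex.ofReal_mul, mul_assoc, mul_zero, zero_add] using h2.mul hη.test.1

theorem est_main (hφ : ∀ z, D.SmAt φ z) (hψ : ∀ z, D.Psh ψ z) (ψ0 : ∀ z, 0 ≤ ψ z)
    (ψK : ∀ z ∈ K, ψ z = 0) (hη : D.Cut ψ η K) {h : Ω → ℂ} (hh : D.Test h)
    (hK : ∀ z, z ∉ K → h z = 0) (hb : ∀ j, MemLp (b j) 2 D.ν)
    (h1 : D.Weak opD (fun j z => (Real.exp (-sg φ ψ z) : ℂ) * b j z) fun z => conj (h z))
    (h2 : ∀ j k, D.Weak (opC j k) (fun i z => (Real.exp (sg φ ψ z) : ℂ) * b i z) fun _ => 0) :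
    ∫ z, η z ^ 2 * D.levi φ z (fun j => b j z) * Real.exp (-ψ z) ∂D.ν ≤
      3 * ∫ z, ‖h z‖ ^ 2 * Real.exp (φ z) ∂D.ν +
        5 * ∫ z, D.gr η z * Real.exp (-ψ z) * ∑ j, ‖b j z‖ ^ 2 ∂D.ν :=
by
  have sψ : ∀ z, D.SmAt ψ z := fun z => (hψ z).1
  have hK' : IsCompact (tsupport fun z => (η z : ℂ)) := hη.test.2
  have cw : Continuous fun z => Real.exp (-wt φ ψ z) :=
    cont_of_sm fun z => (smAt_wt (hφ z) (sψ z)).rneg.rexp
  obtain ⟨m1, z1, w1⟩ := est_div hφ sψ hη hh hb h1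
  have hc := fun j k => est_curl hφ sψ hη hb (h2 j k)
  have mγ : ∀ j, MemLp (fun z => ((η z * Real.exp (sg φ ψ z) : ℝ) : ℂ) * b j z) 2 D.ν := fun j => by
    simpa only [Complex.ofReal_mul] using (hη.test.mul_right fun z =>
      (smAt_sg (hφ z) (sψ z)).rexp.ofReal).mul_memLp (hb j)
  have zγ : ∀ j z, z ∉ tsupport (fun z => (η z : ℂ)) →
      ((η z * Real.exp (sg φ ψ z) : ℝ) : ℂ) * b j z = 0 := fun j z hz => by
    rw [Complex.ofReal_mul, est_zero hη hz, zero_mul, zero_mul]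
  have key := basic_weak hK' mγ zγ m1 z1 (fun j k => (hc j k).1) (fun j k => (hc j k).2.1) w1
    (fun j k => (hc j k).2.2) fun z => smAt_wt (hφ z) (sψ z)
  have iL := int_eta hφ sψ hη hb
  have iT := int_gr sψ hη hb
  have iP := est_intP sψ hη hb
  have iH : Integrable (fun z => ‖h z‖ ^ 2 * Real.exp (φ z)) D.ν :=
    int_sq_mul hh.2 (cont_of_sm fun z => (hφ z).rexp) hh.memLp
      fun _ hz => image_eq_zero_of_notMem_tsupport hz
  have k1 := integral_mono (iL.add (iP.const_mul 3)) (int_levi hK'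
    (fun z => smAt_wt (hφ z) (sψ z)) cw mγ zγ) fun z => est_p1 (hφ z) (hψ z) (ψ0 z) fun j => b j z
  have k2 := integral_mono_of_nonneg (μ := D.ν) (Eventually.of_forall fun z => by positivity)
    (((iH.const_mul 3).add (iT.const_mul 3)).add (iP.const_mul 3)) (Eventually.of_forall fun z =>
      est_p2 (hφ z) (sψ z) (hη.sm z) (hη.nonneg z) (hη.le_one z)
        ((em (z ∈ K)).imp (ψK z) (hK z)) fun j => b j z)
  have ic := fun j k => int_sq_mul hK' cw (hc j k).1 (hc j k).2.1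
  have k3 := integral_mono (integrable_finsetSum Finset.univ fun j _ =>
    integrable_finsetSum Finset.univ fun k _ => ic j k) (iT.const_mul 4)
    fun z => est_p3 φ ψ (hη.sm z) fun j => b j z
  rw [integral_finsetSum _ fun j _ => integrable_finsetSum Finset.univ fun k _ => ic j k,
    Finset.sum_congr rfl fun j _ => integral_finsetSum _ fun k _ => ic j k, integral_const_mul]
    at k3
  rw [integral_add' iL (iP.const_mul 3), integral_const_mul] at k1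
  rw [integral_add' ((iH.const_mul 3).add (iT.const_mul 3)) (iP.const_mul 3),
    integral_add' (iH.const_mul 3) (iT.const_mul 3), integral_const_mul, integral_const_mul,
    integral_const_mul] at k2
  linarith only [key, k1, k2, k3]

end EtDom

end Vale.Agent.P271
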