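import Vale.Agent.P271.H.One
import Vale.Agent.P271.H.Quad

/-! P271 H/Grow: the auxiliary weight and the cutoff functions.

Plan. `ρ` the exhaustion, `K ⊆ {ρ ≤ t}`. `κ, C` from `exists_kappa`, `θ` from `exists_theta`.
`η m z = κ (t + 3 + m - ρ z)`: equal to `1` for `ρ ≤ t + 2 + m`, zero for `ρ ≥ t + 3 + m`
(`test_of_zero`), `gr (η m) ≤ C ^ 2 * gr ρ` (`d_comp`) and `gr (η m) z = 0` if `ρ z < t + 2 + m`.
`c k ≥ 0` a bound of the continuous function `C ^ 2 * gr ρ` on the compact set `{ρ ≤ t + k + 3}`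
(`gr_cont`). `ψ z = ∑' k, c k * θ (ρ z - t - k)`; near `z` we have `ρ < t + N`, so `ψ` is the sum over
`range N` (`tsum_eq_sum`), psh by `Psh.congr`, `Psh.add`, `Psh.smul`, `Psh.comp`. If `ρ z ≥ t + 2` take
`k = ⌊ρ z - t - 2⌋₊`: `ψ z ≥ c k` and `x ≤ exp x`. Auxiliary names start with `grow_`. -/

open MeasureTheory Set Filter Topology
open scoped ContDiff ENNReal ComplexConjugate Convolution

noncomputable section

namespace Vale.Agent.P271

namespace EtDom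

variable {n : ℕ} {Ω : Type} [TopologicalSpace Ω] [T2Space Ω] [SecondCountableTopology Ω]
  [MeasurableSpace Ω] [BorelSpace Ω] {D : EtDom n Ω}

theorem grow_sum {z : Ω} {u : ℕ → Ω → ℝ} (hu : ∀ k, D.Psh (u k) z) (N : ℕ) :
    D.Psh (fun w => ∑ k ∈ Finset.range N, u k w) z := by
  induction N with
  | zero => simpa using psh_const 0
  | succ N ih => simpa only [Finset.sum_range_succ] using ih.add (hu N)

theorem grow_psi {ρ : Ω → ℝ} (hρ : ∀ z, D.Psh ρ z) (t : ℝ) {c : ℕ → ℝ} (c0 : ∀ k, 0 ≤ c k) :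
    ∃ ψ : Ω → ℝ, (∀ z, D.Psh ψ z) ∧ (∀ z, 0 ≤ ψ z) ∧ (∀ z, ρ z ≤ t → ψ z = 0) ∧
      ∀ (k : ℕ) z, t + k + 2 ≤ ρ z → c k ≤ ψ z := by
  obtain ⟨θ, θs, θ0, θ1, θ2, θ3, θ4⟩ := exists_theta
  have z0 : ∀ (N : ℕ) w, ρ w < t + N → ∀ k, k ∉ Finset.range N → c k * θ (ρ w - (t + k)) = 0 :=
    fun N w hw k hk => by
      have : (N : ℝ) ≤ k := by exact_mod_cast not_lt.1 (Finset.mem_range.not.1 hk)
      rw [θ0 _ (by linarith), mul_zero]
  have hN : ∀ z, ∃ N : ℕ, ρ z < t + N := fun z =>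
    (exists_nat_gt (ρ z - t)).imp fun N h => by linarith
  refine ⟨fun w => ∑' k, c k * θ (ρ w - (t + k)), fun z => ?_,
    fun z => tsum_nonneg fun k => mul_nonneg (c0 k) (θ1 _), fun z hz => ?_, fun k z hz => ?_⟩
  · obtain ⟨N, h⟩ := hN z
    refine (grow_sum (u := fun k w => c k * θ (ρ w - (t + k))) (fun k => Psh.smul ?_ (c0 k))
      N).congr (((hρ z).1.continuousAt.eventually_lt_const h).mono fun w hw =>
        (tsum_eq_sum (z0 N w hw)).symm)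
    simpa only [sub_eq_add_neg] using
      ((hρ z).add (psh_const (-(t + k)))).comp θs.contDiffAt (θ2 _) (θ3 _)
  · have e : ∀ k : ℕ, c k * θ (ρ z - (t + k)) = 0 := fun k => by
      rw [θ0 _ (by linarith [k.cast_nonneg (α := ℝ)]), mul_zero]
    simp only [e, tsum_zero]
  · obtain ⟨N, h⟩ := hN z
    refine (le_mul_of_one_le_right (c0 k) (θ4 (ρ z - (t + k)) (by linarith))).trans ?_
    exact (summable_of_ne_finset_zero (z0 N z h)).le_tsum k fun i _ => mul_nonneg (c0 i) (θ1 _)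

theorem grow (hW : D.Stein univ) {K : Set Ω} (hK : IsCompact K) :
    ∃ (ψ : Ω → ℝ) (η : ℕ → Ω → ℝ), (∀ z, D.Psh ψ z) ∧ (∀ z, 0 ≤ ψ z) ∧ (∀ z ∈ K, ψ z = 0) ∧
      (∀ m, D.Cut ψ (η m) K) ∧ ∀ z, ∀ᶠ m in atTop, D.gr (η m) z = 0 :=
by
  obtain ⟨-, ρ, hρ, hc⟩ := hW
  have hρ : ∀ z, D.Psh ρ z := fun z => hρ z (mem_univ z)
  have sρ : ∀ z, D.SmAt ρ z := fun z => (hρ z).1
  have hc : ∀ τ : ℝ, IsCompact {z | ρ z ≤ τ} := fun τ => by simpa using hc τ
  obtain ⟨t, ht⟩ := hK.bddAbove_image (cont_of_sm sρ).continuousOn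
  have ht : ∀ z ∈ K, ρ z ≤ t := fun z hz => ht ⟨z, hz, rfl⟩
  obtain ⟨κ, C, κs, κ01, κ0, κ1, κC, κd⟩ := exists_kappa
  have bd : ∀ k : ℕ, ∃ c, 0 ≤ c ∧ ∀ z, ρ z ≤ t + k + 3 → C ^ 2 * D.gr ρ z ≤ c := fun k => by
    obtain ⟨c, h⟩ := (hc (t + k + 3)).bddAbove_image
      (continuous_const.mul (gr_cont sρ) : Continuous fun z => C ^ 2 * D.gr ρ z).continuousOn
    exact ⟨max c 0, le_max_right _ _, fun z hz => (h ⟨z, hz, rfl⟩).trans (le_max_left _ _)⟩
  choose c c0 hcc using bd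
  obtain ⟨ψ, p1, p2, p3, p4⟩ := grow_psi hρ t c0
  have sη : ∀ (m : ℕ) z, D.SmAt (fun w => κ (t + 3 + m - ρ w)) z := fun m z =>
    ((smAt_const _).sub (sρ z)).comp κs.contDiffAt
  have gη : ∀ (m : ℕ) z, D.gr (fun w => κ (t + 3 + m - ρ w)) z =
      deriv κ (t + 3 + m - ρ z) ^ 2 * D.gr ρ z := fun m z => by
    rw [gr, gr, Finset.mul_sum]
    refine Finset.sum_congr rfl fun j _ => ?_
    rw [d_comp j (sρ z) (χ := fun s => κ (t + 3 + m - s))
      ((κs.differentiable (by simp) _).hasDerivAt.comp_const_sub _ _), norm_mul, mul_pow,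
      Complex.norm_real, Real.norm_eq_abs, sq_abs, neg_sq]
  have g0 : ∀ (m : ℕ) z, ρ z < t + 2 + m → D.gr (fun w => κ (t + 3 + m - ρ w)) z = 0 :=
    fun m z h => by rw [gη, κd _ (Or.inr (by linarith)), zero_pow two_ne_zero, zero_mul]
  refine ⟨ψ, fun m w => κ (t + 3 + m - ρ w), p1, p2, fun z hz => p3 z (ht z hz), fun m =>
    ⟨sη m, test_of_zero (hc (t + 3 + m)) (fun z => (sη m z).ofReal) fun z hz => ?_,
      fun _ => (κ01 _).1, fun _ => (κ01 _).2, fun z hz => κ1 _ ?_, fun z => ?_⟩, fun z => ?_⟩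
  · have hz' : t + 3 + m < ρ z := not_le.1 hz
    exact Complex.ofReal_eq_zero.2 (κ0 _ (by linarith))
  · linarith [ht z hz, m.cast_nonneg (α := ℝ)]
  · rcases lt_or_ge (ρ z) (t + 2) with h | h
    · rw [g0 m z (by linarith [m.cast_nonneg (α := ℝ)])]
      exact (Real.exp_pos _).le
    · have k1 := Nat.floor_le (show 0 ≤ ρ z - t - 2 by linarith)
      have k2 := Nat.lt_floor_add_one (ρ z - t - 2)
      have k3 := hcc ⌊ρ z - t - 2⌋₊ z (by linarith)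
      have k4 := p4 ⌊ρ z - t - 2⌋₊ z (by linarith)
      have k5 := Real.add_one_le_exp (ψ z)
      have k6 : deriv κ (t + 3 + m - ρ z) ^ 2 * D.gr ρ z ≤ C ^ 2 * D.gr ρ z :=
        mul_le_mul_of_nonneg_right (sq_le_sq.2 ((κC _).trans (le_abs_self C)))
          (Finset.sum_nonneg fun _ _ => sq_nonneg _)
      rw [gη]
      linarith
  · filter_upwards [(tendsto_natCast_atTop_atTop (R := ℝ)).eventually_gt_atTop (ρ z - t - 2)]
      with m hm using g0 m z (by linarith)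

end EtDom

end Vale.Agent.P271
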