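import Vale.Agent.P271.H.Meas

/-! P271 H/Mean: point values of holomorphic functions are bounded by `L ^ 2` norms.

Plan. On `E n`: the maps `w ↦ exp (θ I) • w` preserve volume and the ball `B = ball 0 r`, and the
circle average of `c ↦ F (y + c • w)` is `F y` (`circleAverage_of_differentiable_on` or the Cauchy
formula), so by Fubini `∫ w in B, F (y + w) = volume B * F y`; then Cauchy-Schwarz. `mean_value`:
read everything in the sheet at `z` (`lint_sheet`, `loc_ev`). Auxiliary names start with `mean_`. -/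

open MeasureTheory Set Filter Topology
open scoped ContDiff ENNReal ComplexConjugate NNReal

noncomputable section

namespace Vale.Agent.P271

theorem mean_rot {n : ℕ} {c : ℂ} (hc : ‖c‖ = 1) :
    MeasurePreserving (fun w : E n => c • w) volume volume :=
  volume_preserving_pi (f := fun _ (x : ℂ) => c * x) fun _ =>
    (rotation ⟨c, mem_sphere_zero_iff_norm.2 hc⟩).measurePreserving

/-- The mean value property for a circle invariant kernel. -/
theorem mean_kernel {n : ℕ} {F ρ : E n → ℂ} {y : E n} {r : ℝ} {B : Set (E n)}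
    (hF : AnalyticOnNhd ℂ F (Metric.closedBall y r)) (hB : MeasurableSet B)
    (hBr : B ⊆ Metric.closedBall 0 r) (hBc : ∀ c : ℂ, ‖c‖ = 1 → (fun w => c • w) ⁻¹' B = B)
    (hρ : IntegrableOn ρ B) (hc : ∀ (c : ℂ) w, ‖c‖ = 1 → ρ (c • w) = ρ w) :
    ∫ w in B, F (y + w) * ρ w = F y * ∫ w in B, ρ w := by
  have hp : (0 : ℝ) ≤ 2 * Real.pi := by positivity
  have n1 : ∀ θ, ‖circleMap 0 1 θ‖ = 1 := fun θ => by simp
  have mem : ∀ c : ℂ, ‖c‖ ≤ 1 → ∀ w ∈ B, y + c • w ∈ Metric.closedBall y r := fun c h w hw => by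
    have := mem_closedBall_zero_iff.1 (hBr hw)
    rw [add_mem_closedBall_iff_norm, norm_smul]
    nlinarith [norm_nonneg w, norm_nonneg c]
  have hA : ∀ c : ℂ, ‖c‖ = 1 → ∫ w in B, F (y + c • w) * ρ w = ∫ w in B, F (y + w) * ρ w :=
    fun c h => by
    have h0 : c ≠ 0 := by rintro rfl; simp at h
    have := (mean_rot h).setIntegral_preimage_emb (measurableEmbedding_const_smul₀ h0)
      (fun w => F (y + w) * ρ w) B
    simpa only [hBc c h, hc c _ h] using this
  have hC : ∀ w ∈ B, ∫ θ in Ioc 0 (2 * Real.pi), F (y + circleMap 0 1 θ • w) * ρ w =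
      (2 * Real.pi : ℝ) * F y * ρ w := fun w hw => by
    have hd : DiffContOnCl ℂ (fun c : ℂ => F (y + c • w)) (Metric.ball 0 |1|) := by
      refine DifferentiableOn.diffContOnCl fun c hc => ?_
      have hc' : ‖c‖ ≤ 1 := by
        simpa using Metric.closure_ball_subset_closedBall hc
      exact ((hF _ (mem c hc' w hw)).differentiableAt.comp c (by fun_prop)).differentiableWithinAt
    have h1 := hd.circleAverage
    rw [Real.circleAverage_def, intervalIntegral.integral_of_le hp, zero_smul, add_zero] at h1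
    rw [integral_mul_const, ← h1, Complex.real_smul, ← mul_assoc ((2 * Real.pi : ℝ) : ℂ),
      ← Complex.ofReal_mul, mul_inv_cancel₀ (by positivity), Complex.ofReal_one, one_mul]
  obtain ⟨C, hCb⟩ := (isCompact_closedBall y r).exists_bound_of_continuousOn hF.continuousOn
  have hI : Integrable (Function.uncurry fun (θ : ℝ) w => F (y + circleMap 0 1 θ • w) * ρ w)
      ((volume.restrict (Ioc 0 (2 * Real.pi))).prod (volume.restrict B)) := by
    refine Integrable.bdd_mul (c := C) (hρ.comp_snd _) ?_ ?_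
    · rw [Measure.prod_restrict]
      refine ContinuousOn.aestronglyMeasurable ?_ (measurableSet_Ioc.prod hB)
      exact hF.continuousOn.comp (by fun_prop) fun p hp => mem _ (n1 _).le _ hp.2
    · rw [Measure.prod_restrict]
      filter_upwards [ae_restrict_mem (measurableSet_Ioc.prod hB)] with p hp
      exact hCb _ (mem _ (n1 _).le _ hp.2)
  have h2 := integral_integral_swap hI
  simp only [hA _ (n1 _)] at h2
  rw [setIntegral_congr_fun hB hC, integral_const_mul, setIntegral_const,
    Real.volume_real_Ioc_of_le hp, sub_zero, Complex.real_smul, mul_assoc] at h2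
  exact mul_left_cancel₀ (Complex.ofReal_ne_zero.2 (by positivity)) h2

theorem mean_ball {n : ℕ} {F : E n → ℂ} {y : E n} {r : ℝ} (hr : 0 < r)
    (hF : AnalyticOnNhd ℂ F (Metric.closedBall y r)) :
    ENNReal.ofReal (‖F y‖ ^ 2) * volume (Metric.ball (0 : E n) r) ≤
      ∫⁻ w in Metric.ball y r, ENNReal.ofReal (‖F w‖ ^ 2) := by
  have h1 := mean_kernel (ρ := fun _ => 1) (hF.pow 2) Metric.isOpen_ball.measurableSet
    Metric.ball_subset_closedBall (fun c hc => by ext w; simp [norm_smul, hc])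
    (integrableOn_const measure_ball_lt_top.ne) (fun _ _ _ => rfl)
  have h2 := (measurePreserving_add_left volume y).setLIntegral_comp_preimage_emb
    (measurableEmbedding_addLeft y) (fun w => ENNReal.ofReal (‖F w‖ ^ 2)) (Metric.ball y r)
  have h3 : (fun w => y + w) ⁻¹' Metric.ball y r = Metric.ball 0 r := by
    ext w
    simp
  rw [← h2, h3]
  have h4 := enorm_integral_le_lintegral_enorm (μ := volume.restrict (Metric.ball (0 : E n) r))
    fun w => (F ^ 2) (y + w) * 1
  rw [h1] at h4
  simp only [setIntegral_const, Complex.real_smul, mul_one, Pi.pow_apply, ← ofReal_norm, norm_mul,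
    norm_pow, Complex.norm_real, Real.norm_of_nonneg measureReal_nonneg] at h4
  rwa [ENNReal.ofReal_mul (by positivity), ofReal_measureReal measure_ball_lt_top.ne] at h4

namespace EtDom

variable {n : ℕ} {Ω : Type} [TopologicalSpace Ω] [T2Space Ω] [SecondCountableTopology Ω]
  [MeasurableSpace Ω] [BorelSpace Ω] {D : EtDom n Ω}

omit [T2Space Ω] [SecondCountableTopology Ω] [BorelSpace Ω] in
theorem mean_exists_ball {z : Ω} {N : Set Ω} (hN : N ∈ 𝓝 z) : ∃ r > 0,
    Metric.closedBall (D.π z) r ⊆ (D.ch z).target ∧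
      ∀ y ∈ Metric.closedBall (D.π z) r, (D.ch z).symm y ∈ N := by
  have h1 : (D.ch z).target ∈ 𝓝 (D.π z) := by
    have := (D.ch z).open_target.mem_nhds ((D.ch z).map_source (D.mem z))
    rwa [D.coe] at this
  obtain ⟨r, hr, h⟩ := Metric.nhds_basis_closedBall.mem_iff.1 (inter_mem h1 (tendsto_symm z hN))
  exact ⟨r, hr, fun y hy => (h hy).1, fun y hy => (h hy).2⟩

omit [T2Space Ω] [SecondCountableTopology Ω] [BorelSpace Ω] in
theorem mean_right {z : Ω} {y : E n} (hy : y ∈ (D.ch z).target) : D.π ((D.ch z).symm y) = y := by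
  have := (D.ch z).right_inv hy
  rwa [D.coe] at this

omit [T2Space Ω] [SecondCountableTopology Ω] [BorelSpace Ω] in
theorem mean_left {z w : Ω} (hw : w ∈ (D.ch z).source) : (D.ch z).symm (D.π w) = w := by
  have := (D.ch z).left_inv hw
  rwa [D.coe] at this

omit [T2Space Ω] [SecondCountableTopology Ω] [BorelSpace Ω] in
theorem mean_img {z : Ω} {T : Set (E n)} (hT : T ⊆ (D.ch z).target) :
    D.π '' ((D.ch z).source ∩ D.π ⁻¹' T) = T := by
  refine Subset.antisymm (by rintro _ ⟨w, hw, rfl⟩; exact hw.2) fun y hy => ?_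
  refine ⟨(D.ch z).symm y, ⟨(D.ch z).map_target (hT hy), ?_⟩, mean_right (hT hy)⟩
  rwa [mem_preimage, mean_right (hT hy)]

omit [T2Space Ω] [SecondCountableTopology Ω] [BorelSpace Ω] in
theorem mean_hol {z : Ω} {y : E n} (hy : y ∈ (D.ch z).target) {F : Ω → ℂ}
    (h : D.HolAt F ((D.ch z).symm y)) : AnalyticAt ℂ (D.loc F z) y := by
  have := AnalyticAt.congr h (loc_ev F ((D.ch z).map_target hy)).symm
  rwa [mean_right hy] at this

theorem mean_value {z : Ω} {N : Set Ω} (hN : N ∈ 𝓝 z) :
    ∃ C : ℝ≥0, ∃ N' ∈ 𝓝 z, ∀ F : Ω → ℂ, (∀ w ∈ N, D.HolAt F w) → ∀ z' ∈ N',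
      ENNReal.ofReal (‖F z'‖ ^ 2) ≤ C * ∫⁻ w in N, ENNReal.ofReal (‖F w‖ ^ 2) ∂D.ν := by
  obtain ⟨r, hr, h1, h2⟩ := mean_exists_ball (D := D) hN
  have op : ∀ s, IsOpen ((D.ch z).source ∩ D.π ⁻¹' Metric.ball (D.π z) s) := fun s =>
    (D.ch z).open_source.inter (Metric.isOpen_ball.preimage continuous_π)
  have v0 : volume (Metric.ball (0 : E n) (r / 2)) ≠ 0 :=
    (Metric.measure_ball_pos _ _ (half_pos hr)).ne'
  have v1 : volume (Metric.ball (0 : E n) (r / 2)) ≠ ⊤ := measure_ball_lt_top.ne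
  refine ⟨(volume (Metric.ball (0 : E n) (r / 2)))⁻¹.toNNReal, _,
    (op (r / 2)).mem_nhds ⟨D.mem z, Metric.mem_ball_self (half_pos hr)⟩, fun F hF z' hz' => ?_⟩
  have hs : Metric.closedBall (D.π z') (r / 2) ⊆ Metric.ball (D.π z) r :=
    Metric.closedBall_subset_ball' (by linarith [Metric.mem_ball.1 hz'.2])
  have hs' := hs.trans Metric.ball_subset_closedBall
  have h3 := mean_ball (F := D.loc F z) (half_pos hr)
    fun y hy => mean_hol (h1 (hs' hy)) (hF _ (h2 y (hs' hy)))
  have hSN : (D.ch z).source ∩ D.π ⁻¹' Metric.ball (D.π z) r ⊆ N := fun w hw => by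
    have := h2 _ (Metric.ball_subset_closedBall hw.2)
    rwa [mean_left hw.1] at this
  have h4 := lint_sheet (D := D) z (op r).measurableSet inter_subset_left
    (G := fun w => ENNReal.ofReal (‖F w‖ ^ 2)) (ContinuousOn.aemeasurable
      (ENNReal.continuous_ofReal.comp_continuousOn (f := fun w => ‖F w‖ ^ 2) fun w hw =>
        ((hF w (hSN hw)).smAt.continuousAt.norm.pow 2).continuousWithinAt) (op r).measurableSet)
  rw [mean_img (Metric.ball_subset_closedBall.trans h1)] at h4
  have h5 : D.loc F z (D.π z') = F z' := congrArg F (mean_left hz'.1)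
  rw [h5] at h3
  rw [ENNReal.coe_toNNReal (ENNReal.inv_ne_top.2 v0), mul_comm, ← div_eq_mul_inv,
    ENNReal.le_div_iff_mul_le (Or.inl v0) (Or.inl v1)]
  refine h3.trans (le_trans ?_ (lintegral_mono_set hSN))
  rw [h4]
  exact lintegral_mono_set (Metric.ball_subset_closedBall.trans hs)

end EtDom

end Vale.Agent.P271
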