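import Vale.Agent.P271.H.Nbhd
import Vale.Agent.P271.H.Mean

/-! P271 H/HDefs: definitions for the proofs of `hormander` and `removable`
(see `notes/P271H.md`). -/

open MeasureTheory Set Filter Topology
open scoped ContDiff ENNReal ComplexConjugate Convolution

noncomputable section

namespace Vale.Agent.P271

instance iDerN (n : ℕ) : NormedAddCommGroup (E n →L[ℝ] ℂ) := inferInstance
instance iDerC (n : ℕ) : NormedSpace ℂ (E n →L[ℝ] ℂ) := inferInstance
instance iHaar (n : ℕ) : (volume : Measure (E n)).IsAddHaarMeasure := inferInstance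

/-- First order operators with constant coefficients: functionals on real derivatives. -/
abbrev Op (n : ℕ) : Type := (E n →L[ℝ] ℂ) →L[ℂ] ℂ

variable {n : ℕ}

/-- The derivative in the direction `v`. -/
def opE (v : E n) : Op n :=
  LinearMap.mkContinuous
    { toFun := fun T => T v, map_add' := fun _ _ => rfl, map_smul' := fun _ _ => rfl } ‖v‖
    fun T => (T.le_opNorm v).trans_eq (mul_comm _ _)

@[simp] theorem opE_apply (v : E n) (T : E n →L[ℝ] ℂ) : opE v T = T v := rfl

def opD (j : Fin n) : Op n :=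
  (1 / 2 : ℂ) • (opE (Pi.single j 1) - Complex.I • opE (Pi.single j Complex.I))

def opB (j : Fin n) : Op n :=
  (1 / 2 : ℂ) • (opE (Pi.single j 1) + Complex.I • opE (Pi.single j Complex.I))

/-- The `(j, k)` component of the curl: `β ↦ db k (β j) - db j (β k)`. -/
def opC (j k i : Fin n) : Op n := (if i = j then opB k else 0) - (if i = k then opB j else 0)

theorem dz_eq (j : Fin n) (f : E n → ℂ) (y : E n) : dz j f y = opD j (fderiv ℝ f y) := by
  simp [dz, opD]; ring

theorem dzb_eq (j : Fin n) (f : E n → ℂ) (y : E n) : dzb j f y = opB j (fderiv ℝ f y) := by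
  simp [dzb, opB]; ring

theorem sum_opC (j k : Fin n) (a : Fin n → ℂ) (T : Fin n → E n →L[ℝ] ℂ) :
    ∑ i, a i * opC j k i (T i) = a j * opB k (T j) - a k * opB j (T k) := by
  simp only [opC, sub_apply, mul_sub, Finset.sum_sub_distrib]
  congr 1
  · rw [Finset.sum_eq_single j (fun i _ h => by simp [h]) (by simp), if_pos rfl]
  · rw [Finset.sum_eq_single k (fun i _ h => by simp [h]) (by simp), if_pos rfl]

/-- Convergence in `L ^ 2`. -/
def L2lim {X : Type} [MeasurableSpace X] (μ : Measure X) (f : ℕ → X → ℂ) (g : X → ℂ) : Prop :=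
  (∀ m, MemLp (f m) 2 μ) ∧ MemLp g 2 μ ∧ Tendsto (fun m => eLpNorm (f m - g) 2 μ) atTop (𝓝 0)

/-- The bump of outer radius `1 / (m + 1)`. -/
def bump (n m : ℕ) : ContDiffBump (0 : E n) where
  rIn := 1 / ((m : ℝ) + 1) / 2
  rOut := 1 / ((m : ℝ) + 1)
  rIn_pos := by positivity
  rIn_lt_rOut := half_lt_self (by positivity)

/-- Mollification. -/
def moll (m : ℕ) (u : E n → ℂ) : E n → ℂ :=
  (bump n m).normed volume ⋆[ContinuousLinearMap.lsmul ℝ ℝ, volume] u

namespace EtDom

variable {Ω : Type} [TopologicalSpace Ω] [MeasurableSpace Ω] (D : EtDom n Ω)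

theorem d_eq (j : Fin n) (f : Ω → ℂ) (z : Ω) : D.d j f z = opD j (D.fd f z) := dz_eq _ _ _

theorem db_eq (j : Fin n) (f : Ω → ℂ) (z : Ω) : D.db j f z = opB j (D.fd f z) := dzb_eq _ _ _

/-- `∑ i, ℓ i (β i) = w` in the weak sense. -/
def Weak {ι : Type} [Fintype ι] (ℓ : ι → Op n) (β : ι → Ω → ℂ) (w : Ω → ℂ) : Prop :=
  ∀ v, D.Test v → ∫ z, (∑ i, β i z * ℓ i (D.fd v z) + w z * v z) ∂D.ν = 0

/-- A function on the coordinate space read on the sheet at `z`, zero elsewhere. -/
def pull (z : Ω) (U : E n → ℂ) : Ω → ℂ := (D.ch z).source.indicator fun w => U (D.π w)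

/-- A function on the sheet at `z` read on the coordinate space, zero elsewhere. -/
def push (z : Ω) (u : Ω → ℂ) : E n → ℂ := (D.ch z).target.indicator (D.loc u z)

/-- `b m` approximates the field `β`, supported in `K`, in all graph norms, with supports in
`K'`. -/
structure Appr {ι : Type} [Fintype ι] (β : ι → Ω → ℂ) (K K' : Set Ω) (b : ℕ → ι → Ω → ℂ) :
    Prop where
  test : ∀ m i, D.Test (b m i)
  zero : ∀ m i z, z ∉ K' → b m i z = 0
  zero' : ∀ m i z, z ∉ K' → D.fd (b m i) z = 0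
  lim : ∀ i, L2lim D.ν (fun m => b m i) (β i)
  op : ∀ (ℓ : ι → Op n) (w : Ω → ℂ), MemLp w 2 D.ν → (∀ z, z ∉ K → w z = 0) → D.Weak ℓ β w →
    L2lim D.ν (fun m z => ∑ i, ℓ i (D.fd (b m i) z)) w

/-- `∑ j, db j (α j)`. -/
def dvb (α : Fin n → Ω → ℂ) (z : Ω) : ℂ := ∑ j, D.db j (α j) z

/-- The squared gradient of a real function. -/
def gr (η : Ω → ℝ) (z : Ω) : ℝ := ∑ j, ‖D.d j (fun w => (η w : ℂ)) z‖ ^ 2

/-- A cutoff function whose gradient is controlled by `ψ`. -/
structure Cut (ψ η : Ω → ℝ) (K : Set Ω) : Prop where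
  sm : ∀ z, D.SmAt η z
  test : D.Test fun z => (η z : ℂ)
  nonneg : ∀ z, 0 ≤ η z
  le_one : ∀ z, η z ≤ 1
  one : ∀ z ∈ K, η z = 1
  grad : ∀ z, D.gr η z ≤ Real.exp (ψ z)

/-- The restriction to an open set. -/
def restr {W : Set Ω} [BorelSpace Ω] (hW : IsOpen W) : EtDom n W where
  π z := D.π z.1
  ch z := (haveI : Nonempty W := ⟨z⟩
    hW.isOpenEmbedding_subtypeVal.toOpenPartialHomeomorph Subtype.val).trans (D.ch z.1)
  mem z := by simpa using D.mem z.1
  coe z := by ext w : 1; simp [D.coe]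
  ν := D.ν.comap Subtype.val
  ν_ch z S hS h := by
    have e := MeasurableEmbedding.subtype_coe hW.measurableSet
    rw [e.comap_apply, D.ν_ch z.1 _ (e.measurableSet_image.2 hS), image_image]
    rintro _ ⟨w, hw, rfl⟩
    simpa using h hw

end EtDom

/-- The modified weight. -/
def wt {Ω : Type} (φ ψ : Ω → ℝ) (z : Ω) : ℝ := φ z + (Real.exp (2 * ψ z) - 1)

/-- Half of the second weight. -/
def sg {Ω : Type} (φ ψ : Ω → ℝ) (z : Ω) : ℝ := (wt φ ψ z - ψ z) / 2

/-- The regularised and rescaled logarithm of `|Q| ^ 2`. -/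
def lq {Ω : Type} (Q : Ω → ℂ) (S : ℕ) (z : Ω) : ℝ :=
  Real.log (Real.exp (-3 * ((S : ℝ) + 1)) + ‖Q z‖ ^ 2) / ((S : ℝ) + 1)

end Vale.Agent.P271
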