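import Vale.Agent.P271.H.L2

/-! P271 H/Hilb: orthogonal projection and the Riesz theorem, read on functions.

Plan. `l2_proj`: `H = PiLp 2 fun _ : ι => Lp ℂ 2 μ`, `toH γ h = WithLp.toLp 2 fun i => (h i).toLp`,
`inner (toH a) (toH b) = ∫ ∑ i, b i * conj (a i)` (`PiLp.inner_apply`, `L2.inner_def`,
`integral_finset_sum`, `int_mul`). `N = (span (toH '' T))ᗮ` has an orthogonal projection, put
`b = β - starProjection N β ∈ Nᗮ`; `β - b ∈ N` gives the first claim, `conj γ ∈ N` the second.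
`l2_riesz`: `J : V →ₗ Lp ℂ 2 μ`, `J h = toLp (h * s)`; `ker J ≤ ker Λ`, so `Λ` factors through
`range J` (`Submodule.liftQ`, `LinearMap.quotKerEquivRange`) with norm `≤ √C`
(`LinearMap.mkContinuous`), `exists_extension_norm_eq`, `InnerProductSpace.toDual`; `r` is the
conjugate of the representing vector (see `hb_factor` in `P204/R2/Conv`).
Auxiliary names start with `hilb_`. -/

open MeasureTheory Set Filter Topology
open scoped ContDiff ENNReal ComplexConjugate Convolution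

noncomputable section

namespace Vale.Agent.P271

variable {X : Type} [MeasurableSpace X] {μ : Measure X}

theorem hilb_one {f g : X → ℂ} (hf : MemLp f 2 μ) (hg : MemLp g 2 μ) :
    inner ℂ (hf.toLp f) (hg.toLp g) = ∫ x, g x * conj (f x) ∂μ := by
  rw [L2.inner_def]
  refine integral_congr_ae ?_
  filter_upwards [hf.coeFn_toLp, hg.coeFn_toLp] with x h1 h2
  rw [h1, h2, RCLike.inner_apply]

/-- A field as a vector of the Hilbert sum. -/
def hilbTo {ι : Type} (β : ι → X → ℂ) (hβ : ∀ i, MemLp (β i) 2 μ) :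
    PiLp 2 fun _ : ι => Lp ℂ 2 μ := WithLp.toLp 2 fun i => (hβ i).toLp (β i)

theorem hilb_inner {ι : Type} [Fintype ι] (a : ι → X → ℂ) (ha : ∀ i, MemLp (a i) 2 μ)
    (b : ι → X → ℂ) (hb : ∀ i, MemLp (b i) 2 μ) :
    inner ℂ (hilbTo a ha) (hilbTo b hb) = ∫ x, ∑ i, b i x * conj (a i x) ∂μ := by
  rw [PiLp.inner_apply, integral_finsetSum _ fun i _ => int_mul (hb i) (memLp_conj (ha i))]
  exact Finset.sum_congr rfl fun i _ => hilb_one (ha i) (hb i)

theorem hilb_sq {f : X → ℂ} (hf : MemLp f 2 μ) : ‖hf.toLp f‖ ^ 2 = ∫ x, ‖f x‖ ^ 2 ∂μ := by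
  have h := hilb_one hf hf
  simp only [Complex.mul_conj', inner_self_eq_norm_sq_to_K, ← Complex.ofReal_pow] at h
  rw [integral_complex_ofReal] at h
  exact Complex.ofReal_injective (by rw [← h, Complex.ofReal_pow]; rfl)

theorem hilb_pr {H : Type} [NormedAddCommGroup H] [InnerProductSpace ℂ H] [CompleteSpace H]
    (S : Set H) (β : H) : ∃ c, (∀ a ∈ S, inner ℂ c a = inner ℂ β a) ∧
      ∀ y, (∀ a ∈ S, inner ℂ y a = 0) → inner ℂ y c = 0 := by
  refine ⟨β - (Submodule.span ℂ S)ᗮ.starProjection β, fun a ha => ?_, fun y hy => ?_⟩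
  · rw [inner_sub_left, Submodule.inner_left_of_mem_orthogonal (Submodule.subset_span ha)
      ((Submodule.span ℂ S)ᗮ.starProjection_apply_mem β), sub_zero]
  · refine Submodule.inner_right_of_mem_orthogonal ?_
      ((Submodule.span ℂ S)ᗮ.sub_starProjection_mem_orthogonal β)
    rw [Submodule.mem_orthogonal']
    intro u hu
    induction hu using Submodule.span_induction with
    | mem a ha => exact hy a ha
    | zero => exact inner_zero_right _
    | add a b _ _ ha hb => rw [inner_add_right, ha, hb, add_zero]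
    | smul r a _ ha => rw [inner_smul_right, ha, mul_zero]

theorem hilb_abs {V H : Type} [AddCommGroup V] [Module ℂ V] [NormedAddCommGroup H]
    [InnerProductSpace ℂ H] [CompleteSpace H] (J : V →ₗ[ℂ] H) (u : V →ₗ[ℂ] ℂ) {c : ℝ} (hc : 0 ≤ c)
    (h : ∀ s, ‖u s‖ ≤ c * ‖J s‖) : ∃ y : H, ‖y‖ ≤ c ∧ ∀ s, u s = inner ℂ y (J s) := by
  have hk : LinearMap.ker J ≤ LinearMap.ker u := fun s hs => by
    have k := h s
    rw [LinearMap.mem_ker.1 hs, norm_zero, mul_zero] at k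
    exact norm_le_zero_iff.1 k
  obtain ⟨L, hL⟩ : ∃ L : LinearMap.range J →ₗ[ℂ] ℂ, ∀ s, L ⟨J s, s, rfl⟩ = u s :=
    ⟨((LinearMap.ker J).liftQ u hk).comp J.quotKerEquivRange.symm.toLinearMap, fun s =>
      congrArg ((LinearMap.ker J).liftQ u hk)
        (J.quotKerEquivRange_symm_apply_image s ⟨s, rfl⟩)⟩
  have hb : ∀ a : LinearMap.range J, ‖L a‖ ≤ c * ‖a‖ := by
    rintro ⟨_, s, rfl⟩
    rw [hL]
    exact h s
  obtain ⟨U, h1, h2⟩ := exists_extension_norm_eq (LinearMap.range J) (L.mkContinuous c hb)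
  refine ⟨(InnerProductSpace.toDual ℂ H).symm U, ?_, fun s => ?_⟩
  · rw [LinearIsometryEquiv.norm_map, h2]
    exact L.mkContinuous_norm_le hc hb
  · rw [InnerProductSpace.toDual_symm_apply, ← hL s]
    exact (h1 ⟨J s, s, rfl⟩).symm

theorem l2_proj {ι : Type} [Fintype ι] (T : Set (ι → X → ℂ)) (hT : ∀ t ∈ T, ∀ i, MemLp (t i) 2 μ)
    {β : ι → X → ℂ} (hβ : ∀ i, MemLp (β i) 2 μ) : ∃ b : ι → X → ℂ, (∀ i, MemLp (b i) 2 μ) ∧
      (∀ t ∈ T, ∫ x, ∑ i, t i x * conj (b i x) ∂μ = ∫ x, ∑ i, t i x * conj (β i x) ∂μ) ∧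
      ∀ γ : ι → X → ℂ, (∀ i, MemLp (γ i) 2 μ) → (∀ t ∈ T, ∫ x, ∑ i, t i x * γ i x ∂μ = 0) →
        ∫ x, ∑ i, b i x * γ i x ∂μ = 0 :=
by
  obtain ⟨c, c1, c2⟩ := hilb_pr {a | ∃ t, ∃ ht : t ∈ T, a = hilbTo t (hT t ht)} (hilbTo β hβ)
  have c3 : hilbTo (fun i x => c i x) (fun i => Lp.memLp (c i)) = c := by
    ext i : 1
    exact Lp.toLp_coeFn _ (Lp.memLp (c i))
  refine ⟨fun i x => c i x, fun i => Lp.memLp (c i), fun t ht => ?_, fun γ hγ h => ?_⟩
  · rw [← hilb_inner _ (fun i => Lp.memLp (c i)) _ (hT t ht), ← hilb_inner _ hβ _ (hT t ht), c3]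
    exact c1 _ ⟨t, ht, rfl⟩
  · have k := c2 (hilbTo (fun i x => conj (γ i x)) fun i => memLp_conj (hγ i)) (by
      rintro _ ⟨t, ht, rfl⟩
      rw [hilb_inner]
      simpa only [Complex.conj_conj] using h t ht)
    rw [← c3, hilb_inner] at k
    simpa only [Complex.conj_conj] using k

theorem l2_riesz (V : Submodule ℂ (X → ℂ)) (s : X → ℂ)
    (hs : ∀ h ∈ V, MemLp (fun x => h x * s x) 2 μ) (Λ : V →ₗ[ℂ] ℂ) {C : ℝ} (hC : 0 ≤ C)
    (hb : ∀ h : V, ‖Λ h‖ ^ 2 ≤ C * ∫ x, ‖h.1 x * s x‖ ^ 2 ∂μ) :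
    ∃ r : X → ℂ, MemLp r 2 μ ∧ ∫ x, ‖r x‖ ^ 2 ∂μ ≤ C ∧
      ∀ h : V, Λ h = ∫ x, r x * (h.1 x * s x) ∂μ :=
by
  let J : V →ₗ[ℂ] Lp ℂ 2 μ :=
    { toFun := fun h => (hs h.1 h.2).toLp _
      map_add' := fun h h' => by
        rw [← MemLp.toLp_add]
        exact MemLp.toLp_congr _ _ (Eventually.of_forall fun x => add_mul _ _ _)
      map_smul' := fun c h => by
        rw [RingHom.id_apply, ← MemLp.toLp_const_smul]
        exact MemLp.toLp_congr _ _ (Eventually.of_forall fun x => mul_assoc _ _ _) }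
  obtain ⟨y, y1, y2⟩ := hilb_abs J Λ (Real.sqrt_nonneg C) fun h => by
    refine (sq_le_sq₀ (norm_nonneg _) (by positivity)).1 ?_
    rw [mul_pow, Real.sq_sqrt hC]
    exact (hb h).trans_eq (congrArg (C * ·) (hilb_sq (hs h.1 h.2)).symm)
  refine ⟨fun x => conj (y x), memLp_conj (Lp.memLp y), ?_, fun h => ?_⟩
  · simp only [Complex.norm_conj]
    rw [← hilb_sq (Lp.memLp y), Lp.toLp_coeFn, ← Real.sq_sqrt hC]
    exact pow_le_pow_left₀ (norm_nonneg _) y1 2
  · have k := hilb_one (Lp.memLp y) (hs h.1 h.2)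
    rw [Lp.toLp_coeFn] at k
    simp only [mul_comm (conj (y _))]
    exact (y2 h).trans k

end Vale.Agent.P271
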