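import Vale.Agent.P271.H.HDefs

/-! P271 H/Sub: restriction to an open subset.

Plan. `restr_loc`: for `y` near `π z`, `(D.ch z).symm y ∈ W` (`tendsto_symm`), and then the value of
`((D.restr hW).ch z).symm y` is `(D.ch z).symm y`
(`IsOpenEmbedding.toOpenPartialHomeomorph_right_inv`). The rest: `ContDiffAt.congr_of_eventuallyEq`,
`AnalyticAt.congr`, `EventuallyEq.fderiv_eq`, `funext`; `lintegral_subtype_comap`,
`Subtype.isCompact_iff`. `restr_setLint`: `lintegral_indicator`-free version: use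
`MeasurableEmbedding.setLIntegral_map`-type lemmas or `MeasurableEmbedding.restrict_comap`,
`MeasurableEmbedding.lintegral_map`. Auxiliary names start with `sub_`. -/

open MeasureTheory Set Filter Topology
open scoped ContDiff ENNReal ComplexConjugate Convolution

noncomputable section

namespace Vale.Agent.P271

namespace EtDom

variable {n : ℕ} {Ω : Type} [TopologicalSpace Ω] [T2Space Ω] [SecondCountableTopology Ω]
  [MeasurableSpace Ω] [BorelSpace Ω] {D : EtDom n Ω}

variable {W : Set Ω} (hW : IsOpen W) (z : W)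

theorem restr_loc {F : Type} (f : Ω → F) :
    (D.restr hW).loc (fun w : W => f w.1) z =ᶠ[𝓝 (D.π z.1)] D.loc f z.1 := by
  filter_upwards [(tendsto_symm (D := D) z.1).eventually (hW.mem_nhds z.2)] with y hy
  have : Nonempty W := ⟨z⟩
  exact congrArg f (hW.isOpenEmbedding_subtypeVal.toOpenPartialHomeomorph_right_inv _
    (by rwa [Subtype.range_coe]))

theorem restr_smAt {F : Type} [NormedAddCommGroup F] [NormedSpace ℝ F] (f : Ω → F) :
    (D.restr hW).SmAt (fun w : W => f w.1) z ↔ D.SmAt f z.1 :=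
  ⟨fun h => ContDiffAt.congr_of_eventuallyEq h (restr_loc hW z f).symm,
    fun h => ContDiffAt.congr_of_eventuallyEq h (restr_loc hW z f)⟩

theorem restr_holAt (f : Ω → ℂ) : (D.restr hW).HolAt (fun w : W => f w.1) z ↔ D.HolAt f z.1 :=
  analyticAt_congr (restr_loc hW z f)

theorem restr_d (j : Fin n) (f : Ω → ℂ) :
    (D.restr hW).d j (fun w : W => f w.1) z = D.d j f z.1 := by
  have := (restr_loc (D := D) hW z f).fderiv_eq (𝕜 := ℝ)
  unfold d dz
  rw [← this]
  rfl

theorem restr_db (j : Fin n) (f : Ω → ℂ) :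
    (D.restr hW).db j (fun w : W => f w.1) z = D.db j f z.1 := by
  have := (restr_loc (D := D) hW z f).fderiv_eq (𝕜 := ℝ)
  unfold db dzb
  rw [← this]
  rfl

theorem restr_levi (u : Ω → ℝ) (v : E n) :
    (D.restr hW).levi (fun w : W => u w.1) z v = D.levi u z.1 v := by
  have e : ∀ k, (D.restr hW).db k (fun w : W => (u w.1 : ℂ)) =
      fun w : W => D.db k (fun w => (u w : ℂ)) w.1 := fun k =>
    funext fun w => restr_db hW w k fun w => (u w : ℂ)
  simp only [levi, e, restr_d]

theorem restr_psh (u : Ω → ℝ) : (D.restr hW).Psh (fun w : W => u w.1) z ↔ D.Psh u z.1 := by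
  simp only [Psh, restr_smAt, restr_levi]

theorem restr_stein (h : D.Stein W) : (D.restr hW).Stein univ := by
  obtain ⟨-, ρ, h1, h2⟩ := h
  refine ⟨isOpen_univ, fun w => ρ w.1, fun w _ => (restr_psh hW w ρ).2 (h1 _ w.2), fun τ => ?_⟩
  rw [Subtype.isCompact_iff]
  refine (congrArg IsCompact ?_).mp (h2 τ)
  ext x
  simp [and_comm]

theorem restr_lint (G : Ω → ℝ≥0∞) :
    ∫⁻ w : W, G w.1 ∂(D.restr hW).ν = ∫⁻ w in W, G w ∂D.ν :=
  lintegral_subtype_comap hW.measurableSet G

theorem restr_setLint (S : Set Ω) (G : Ω → ℝ≥0∞) :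
    ∫⁻ w in (Subtype.val ⁻¹' S : Set W), G w.1 ∂(D.restr hW).ν ≤ ∫⁻ w in S, G w ∂D.ν := by
  have e := MeasurableEmbedding.subtype_coe hW.measurableSet
  change ∫⁻ w in (Subtype.val ⁻¹' S : Set W), G w.1 ∂(D.ν.comap Subtype.val) ≤ _
  rw [← e.lintegral_map, ← e.restrict_map, e.map_comap]
  exact lintegral_mono' (Measure.restrict_mono subset_rfl Measure.restrict_le_self) le_rfl

theorem restr_ext (F : W → ℂ) : ∃ G : Ω → ℂ, F = fun w : W => G w.1 := by
  classical
  exact ⟨fun w => if h : w ∈ W then F ⟨w, h⟩ else 0, funext fun w => by simp⟩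

end EtDom

end Vale.Agent.P271
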