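import Vale.Agent.P271.H.HormU
import Vale.Agent.P271.H.Sub

/-! P271 H/Horm: the Hormander estimate on a Stein open subset of an etale domain, for a decreasing
sequence of smooth plurisubharmonic weights. See `notes/P271.md`, part H. -/

open MeasureTheory Set Filter Topology
open scoped ContDiff ENNReal ComplexConjugate

noncomputable section

namespace Vale.Agent.P271

namespace EtDom

variable {n : ℕ} {Ω : Type} [TopologicalSpace Ω] [T2Space Ω] [SecondCountableTopology Ω]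
  [MeasurableSpace Ω] [BorelSpace Ω] {D : EtDom n Ω}

theorem hormander {W : Set Ω} (hW : D.Stein W) {g : Ω → ℂ} (hg : ∀ z ∈ W, D.SmAt g z)
    {φ M : ℕ → Ω → ℝ} (hφ : ∀ S, ∀ z ∈ W, D.Psh (φ S) z)
    (anti : ∀ z ∈ W, Antitone fun S => φ S z) (hM0 : ∀ S, ∀ z ∈ W, 0 ≤ M S z)
    (hM : ∀ S, ∀ z ∈ W, ∀ v, ‖∑ j, D.db j g z * conj (v j)‖ ^ 2 ≤ M S z * D.levi (φ S) z v)
    (hg2 : ∀ S, ∫⁻ z in W, ENNReal.ofReal (‖g z‖ ^ 2 * Real.exp (-φ S z)) ∂D.ν ≠ ⊤)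
    {A : ℝ≥0∞} (hA : ∀ S, ∫⁻ z in W, ENNReal.ofReal (M S z * Real.exp (-φ S z)) ∂D.ν ≤ A)
    (hA' : A ≠ ⊤) :
    ∃ F : Ω → ℂ, (∀ z ∈ W, D.HolAt F z) ∧
      ∀ S, ∫⁻ z in W, ENNReal.ofReal (‖g z - F z‖ ^ 2 * Real.exp (-φ S z)) ∂D.ν ≤ 3 * A := by
  have ho := hW.1
  obtain ⟨F, h1, h2⟩ := hormander_univ (D := D.restr ho) (restr_stein ho hW)
    (g := fun w : W => g w.1) (fun z => (restr_smAt ho z g).2 (hg z.1 z.2))
    (φ := fun S (w : W) => φ S w.1) (M := fun S (w : W) => M S w.1)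
    (fun S z => (restr_psh ho z (φ S)).2 (hφ S z.1 z.2)) (fun z => anti z.1 z.2)
    (fun S z => hM0 S z.1 z.2)
    (fun S z v => by
      simp only [restr_db ho z _ g, restr_levi ho z (φ S)]
      exact hM S z.1 z.2 v)
    (fun S => (restr_lint ho fun z => ENNReal.ofReal (‖g z‖ ^ 2 * Real.exp (-φ S z))).trans_ne
      (hg2 S)) (A := A)
    (fun S => (restr_lint ho fun z => ENNReal.ofReal (M S z * Real.exp (-φ S z))).trans_le (hA S))
    hA'
  obtain ⟨G, rfl⟩ := restr_ext F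
  exact ⟨G, fun z hz => (restr_holAt ho ⟨z, hz⟩ G).1 (h1 _), fun S => (restr_lint ho fun z =>
    ENNReal.ofReal (‖g z - G z‖ ^ 2 * Real.exp (-φ S z))).symm.trans_le (h2 S)⟩

end EtDom

end Vale.Agent.P271
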