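import Vale.Agent.P271.H.Moll

/-! P271 H/WeylF: the Weyl lemma on the coordinate space.

Plan. `weier`: by `P278.osg2_cauchy` applied to `F m - F m'` the derivatives are uniformly Cauchy on
smaller balls; `hasFDerivAt_of_tendstoUniformlyOn` (or `..Filter`), `P278.osgood`.
`weyl_flat`: for `1 / (m + 1) ≤ r`, `moll m U` is analytic on `ball y (3 r)` (`holAt_of_db` on `triv n`,
`dzb_eq`, `moll_weak`, `moll_zero`). `mean_ball` with radius `r` for `moll m U - moll m' U` and
`moll_lim` (`eLpNorm` triangle inequality) give a uniform Cauchy sequence on `ball y r`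
(`UniformCauchySeqOn.tendstoUniformlyOn_of_tendsto`, `cauchySeq_tendsto_of_complete`); identify the
limit by `moll_ae`. Auxiliary names start with `weylf_`. -/

open MeasureTheory Set Filter Topology
open scoped ContDiff ENNReal ComplexConjugate Convolution

noncomputable section

namespace Vale.Agent.P271

variable {n : ℕ}

theorem weier {F : ℕ → E n → ℂ} {G : E n → ℂ} {y : E n} {r : ℝ}
    (hF : ∀ m, AnalyticOnNhd ℂ (F m) (Metric.ball y r))
    (h : TendstoUniformlyOn F G atTop (Metric.ball y r)) :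
    AnalyticOnNhd ℂ G (Metric.ball y r) := by
  refine P278.osgood Metric.isOpen_ball fun x hx => ?_
  obtain ⟨s, hs, hsx⟩ := Metric.nhds_basis_closedBall.mem_iff.1 (Metric.isOpen_ball.mem_nhds hx)
  have ht := half_pos hs
  have hb : ∀ z ∈ Metric.ball x (s / 2), Metric.closedBall z (s / 2) ⊆ Metric.ball y r :=
    fun z hz => (Metric.closedBall_subset_closedBall'
      (by linarith [Metric.mem_ball.1 hz])).trans hsx
  have hm : ∀ z ∈ Metric.ball x (s / 2), z ∈ Metric.ball y r := fun z hz =>
    hb z hz (Metric.mem_closedBall_self ht.le)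
  have hc : UniformCauchySeqOn (fun m z => fderiv ℂ (F m) z) atTop (Metric.ball x (s / 2)) := by
    refine Metric.uniformCauchySeqOn_iff.2 fun ε hε => ?_
    obtain ⟨N, hN⟩ := Metric.uniformCauchySeqOn_iff.1 h.uniformCauchySeqOn (ε / 2 * (s / 2))
      (by positivity)
    refine ⟨N, fun a ha b hb' z hz => ?_⟩
    have h1 := P278.osg2_cauchy (g := F a - F b) Metric.isOpen_ball
      ((hF a).sub (hF b)).differentiableOn ht (hb z hz)
      fun w hw => by simpa [dist_eq_norm] using (hN a ha b hb' w (hb z hz hw)).le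
    rw [fderiv_sub (hF a z (hm z hz)).differentiableAt (hF b z (hm z hz)).differentiableAt,
      mul_div_cancel_right₀ _ ht.ne'] at h1
    rw [dist_eq_norm]
    linarith
  exact (hasFDerivAt_of_tendstoUniformlyOn Metric.isOpen_ball
    (hc.tendstoUniformlyOn_of_tendsto (f := fun z => atTop.limUnder fun m => fderiv ℂ (F m) z)
      fun z hz => (hc.cauchySeq hz).tendsto_limUnder)
    (fun m z hz => (hF m z (hm z hz)).differentiableAt.hasFDerivAt)
    (fun z hz => h.tendsto_at (hm z hz))
    (Metric.mem_ball_self ht)).differentiableAt.differentiableWithinAt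

theorem weylf_sq (H : E n → ℂ) : ∫⁻ w, ENNReal.ofReal (‖H w‖ ^ 2) = eLpNorm H 2 volume ^ 2 := by
  rw [eLpNorm_eq_lintegral_rpow_enorm_toReal two_ne_zero ENNReal.ofNat_ne_top,
    ← ENNReal.rpow_natCast, ← ENNReal.rpow_mul]
  simp [ENNReal.ofReal_pow]

theorem weyl_flat {U : E n → ℂ} {w : Fin n → E n → ℂ} (hU : MemLp U 2 volume)
    (hw : ∀ j, MemLp (w j) 2 volume)
    (h : ∀ j, (EtDom.triv n).Weak (fun _ : Unit => opB j) (fun _ => U) (w j)) {y : E n} {r : ℝ}
    (hr : 0 < r) (h0 : ∀ j, ∀ x ∈ Metric.ball y (4 * r), w j x = 0) :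
    ∃ F : E n → ℂ, AnalyticOnNhd ℂ F (Metric.ball y r) ∧
      ∀ᵐ x, x ∈ Metric.ball y r → U x = F x := by
  obtain ⟨k, hk⟩ := exists_nat_one_div_lt hr
  have hA : ∀ m, AnalyticOnNhd ℂ (moll (m + k) U) (Metric.ball y (3 * r)) := fun m => by
    refine P278.osgood Metric.isOpen_ball fun x hx => (EtDom.calc_cr
      ((moll_smooth hU _).differentiable (by simp) x) fun j => ?_).differentiableWithinAt
    have h1 := moll_weak (fun _ => hU) (hw j) (h j) (m + k) x
    rw [Finset.univ_unique, Finset.sum_singleton] at h1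
    rw [dzb_eq, h1]
    refine moll_zero fun x' hx' => h0 j x' ?_
    have h2 : 1 / (((m + k : ℕ) : ℝ) + 1) ≤ 1 / ((k : ℝ) + 1) :=
      Nat.one_div_le_one_div (Nat.le_add_left k m)
    rw [Metric.mem_ball] at hx hx' ⊢
    linarith [dist_triangle x' x y]
  obtain ⟨l1, -, l2⟩ := (moll_lim hU).shift k
  have hV : 0 < volume.real (Metric.ball (0 : E n) r) :=
    ENNReal.toReal_pos (Metric.measure_ball_pos _ _ hr).ne' measure_ball_lt_top.ne
  set V := volume.real (Metric.ball (0 : E n) r) with hVd
  have hc : UniformCauchySeqOn (fun m => moll (m + k) U) atTop (Metric.ball y r) := by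
    refine Metric.uniformCauchySeqOn_iff.2 fun ε hε => ?_
    have hδ : 0 < ε * √V / 4 := by positivity
    obtain ⟨N, hN⟩ := eventually_atTop.1 (l2.eventually (ge_mem_nhds (ENNReal.ofReal_pos.2 hδ)))
    refine ⟨N, fun a ha b hb x hx => ?_⟩
    have hs : Metric.closedBall x r ⊆ Metric.ball y (3 * r) :=
      Metric.closedBall_subset_ball' (by linarith [Metric.mem_ball.1 hx])
    have h1 := (mean_ball hr (((hA a).sub (hA b)).mono hs)).trans (setLIntegral_le_lintegral _ _)
    have h2 : eLpNorm (moll (a + k) U - moll (b + k) U) 2 volume ≤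
        ENNReal.ofReal (ε * √V / 2) := by
      rw [← sub_sub_sub_cancel_right _ _ U]
      refine (eLpNorm_sub_le ((l1 a).sub hU).1 ((l1 b).sub hU).1 one_le_two).trans
        ((add_le_add (hN a ha) (hN b hb)).trans (le_of_eq ?_))
      rw [← ENNReal.ofReal_add hδ.le hδ.le]
      congr 1
      ring
    rw [weylf_sq, ← ofReal_measureReal measure_ball_lt_top.ne, ← hVd,
      ← ENNReal.ofReal_mul (by positivity)] at h1
    have h3 := h1.trans (pow_le_pow_left' h2 2)
    rw [← ENNReal.ofReal_pow (by positivity), ENNReal.ofReal_le_ofReal_iff (by positivity),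
      div_pow, mul_pow, Real.sq_sqrt hV.le, Pi.sub_apply, ← dist_eq_norm] at h3
    by_contra hcon
    have h4 := pow_le_pow_left₀ hε.le (not_lt.1 hcon) 2
    nlinarith [mul_le_mul_of_nonneg_right h4 hV.le, mul_pos (pow_pos hε 2) hV]
  have ht := hc.tendstoUniformlyOn_of_tendsto
    (f := fun z => atTop.limUnder fun m => moll (m + k) U z)
    fun z hz => (hc.cauchySeq hz).tendsto_limUnder
  refine ⟨_, weier (fun m => (hA m).mono (Metric.ball_subset_ball (by linarith))) ht, ?_⟩
  filter_upwards [moll_ae hU] with x hx hxr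
  exact tendsto_nhds_unique ((tendsto_add_atTop_iff_nat k).2 hx) (ht.tendsto_at hxr)

end Vale.Agent.P271
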