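import Vale.Agent.P271.H.IBP
import Vale.Agent.P271.H.WeylF

/-! P271 H/Weyl: the Weyl lemma.

Plan. `weyl_loc`: `ζ` from `exists_cutoff` inside the source at `z`, `K = tsupport ζ`; the hypothesis
says `Weak (fun _ : Unit => opB j) (fun _ => U) 0` (`db_eq`); `Weak.mul` with `ζ`, `Weak.push`,
`memLp_push` (`Test.op`), `weyl_flat` at `π z` with `r` so small that `ball (π z) (4 r)` lies in the
target and `ζ = 1` near each point of its image under `symm` (`tendsto_symm`); `N = source ∩ π ⁻¹' ball`,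
the function is `F ∘ π` (`HolAt`: `loc (F ∘ π) w =ᶠ F`), `ae_pull`, `push_π`. `weyl`: `F z = G z z`; on
the open set `N z ∩ N w` the continuous functions `G z`, `G w` agree a.e., hence everywhere
(`Measure.eqOn_open_of_ae_eq`, `openPos`), so `F = G z` on `N z`; `HolAt.congr`,
`measure_null_of_locally_null`. Auxiliary names start with `weyl_`. -/

open MeasureTheory Set Filter Topology
open scoped ContDiff ENNReal ComplexConjugate Convolution

noncomputable section

namespace Vale.Agent.P271

namespace EtDom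

variable {n : ℕ} {Ω : Type} [TopologicalSpace Ω] [T2Space Ω] [SecondCountableTopology Ω]
  [MeasurableSpace Ω] [BorelSpace Ω] {D : EtDom n Ω}

theorem weyl_loc {U : Ω → ℂ} (h2 : ∀ v, D.Test v → MemLp (fun z => v z * U z) 2 D.ν)
    (h : ∀ j v, D.Test v → ∫ z, U z * D.db j v z ∂D.ν = 0) (z : Ω) :
    ∃ N, IsOpen N ∧ z ∈ N ∧ ∃ G : Ω → ℂ, (∀ w ∈ N, D.HolAt G w) ∧
      ∀ᵐ w ∂D.ν, w ∈ N → U w = G w := by
  obtain ⟨ζ, hζ, hs, -, h1⟩ := exists_cutoff (D := D) ((D.ch z).open_source.mem_nhds (D.mem z))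
  have hW : ∀ j, D.Weak (fun _ : Unit => opB j) (fun _ x => ζ x * U x)
      (fun x => opB j (D.fd ζ x) * U x) := fun j => by
    have h0 : D.Weak (fun _ : Unit => opB j) (fun _ => U) (fun _ => 0) := fun v hv => by
      simpa [db_eq] using h j v hv
    simpa using h0.mul hζ.1
  obtain ⟨R, hR, hRt, hR1⟩ := mean_exists_ball (D := D) (eventually_eventually_nhds.2 h1)
  obtain ⟨F, hF, hae⟩ := weyl_flat (memLp_push z (h2 ζ hζ))
    (fun j => memLp_push z (h2 _ (hζ.op (opB j))))
    (fun j => (hW j).push z hζ.2.isCompact hs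
      (fun _ x hx => by rw [image_eq_zero_of_notMem_tsupport hx, zero_mul])
      (fun x hx => by rw [fd_zero hx, map_zero, zero_mul])) (y := D.π z) (r := R / 4)
    (by positivity) fun j x hx => by
      have hx' : x ∈ Metric.closedBall (D.π z) R :=
        Metric.ball_subset_closedBall (Metric.ball_subset_ball (by linarith) hx)
      rw [push, indicator_of_mem (hRt hx')]
      simp only [loc, Function.comp]
      rw [fd_congr (hR1 x hx'), fd_const, map_zero, zero_mul]
  refine ⟨(D.ch z).source ∩ D.π ⁻¹' Metric.ball (D.π z) (R / 4),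
    (D.ch z).open_source.inter (Metric.isOpen_ball.preimage continuous_π),
    ⟨D.mem z, Metric.mem_ball_self (by positivity)⟩, fun w => F (D.π w), fun w hw => ?_, ?_⟩
  · refine (hF _ hw.2).congr ?_
    filter_upwards [calc_near (D := D) D.π w] with y hy
    exact (congrArg F hy.1).symm
  · filter_upwards [ae_pull (D := D) z (hae.mono fun y hy _ => hy)] with w hw hN
    have h3 := hR1 _ (Metric.ball_subset_closedBall (Metric.ball_subset_ball (by linarith) hN.2))
    rw [mean_left hN.1] at h3
    rw [← hw hN.1 hN.2, push_π z _ hN.1, Eventually.self_of_nhds h3, one_mul]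

theorem weyl {U : Ω → ℂ} (h2 : ∀ v, D.Test v → MemLp (fun z => v z * U z) 2 D.ν)
    (h : ∀ j v, D.Test v → ∫ z, U z * D.db j v z ∂D.ν = 0) :
    ∃ F : Ω → ℂ, (∀ z, D.HolAt F z) ∧ U =ᵐ[D.ν] F := by
  have := D.openPos
  choose N hN hz G hG hU using weyl_loc h2 h
  have key : ∀ z, ∀ w ∈ N z, G z w = G w w := fun z w hw => by
    have ho := (hN z).inter (hN w)
    refine Measure.eqOn_open_of_ae_eq (μ := D.ν) ((ae_restrict_iff' ho.measurableSet).2 ?_) ho
      (fun x hx => (hG z x hx.1).smAt.continuousAt.continuousWithinAt)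
      (fun x hx => (hG w x hx.2).smAt.continuousAt.continuousWithinAt) ⟨hw, hz w⟩
    filter_upwards [hU z, hU w] with x h1 h2 hx
    rw [← h1 hx.1, h2 hx.2]
  refine ⟨fun z => G z z, fun z => (hG z z (hz z)).congr
    (mem_of_superset ((hN z).mem_nhds (hz z)) (key z)), ?_⟩
  refine measure_null_of_locally_null _ fun x _ => ⟨_, inter_mem_nhdsWithin _
    ((hN x).mem_nhds (hz x)), measure_mono_null ?_ (ae_iff.1 (hU x))⟩
  exact fun w hw hc => hw.1 ((hc hw.2).trans (key x w hw.2))

end EtDom

end Vale.Agent.P271
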