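import Vale.Agent.P271.H.Key
import Vale.Agent.P271.H.Weyl

/-! P271 H/HormU: the Hormander estimate on a Stein etale domain.

Plan. `s z = ⨅ S, exp (φ S z / 2)`, the limit of an antitone sequence (`tendsto_atTop_ciInf`),
measurable, `0 ≤ s ≤ exp (φ S / 2)`. `V = {dvb α | α test field}` is a submodule (`db_add`, `db_mul`,
`db_const`), `Λ h = ∫ g * h`. `key_est` with `A.toReal` for each `S` and dominated convergence give
`‖Λ h‖ ^ 2 ≤ 3 A ∫ ‖h * s‖ ^ 2`; `l2_riesz` gives `r`. `U = g - r * s`; `v * s` is bounded and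
measurable for a test function `v` (`memLp_bdd_mul`); `db j v = dvb (Pi.single j v)`; `weyl`.
Finally `g - F = r * s` a.e., `‖r s‖ ^ 2 exp (-φ S) ≤ ‖r‖ ^ 2`,
`ofReal_integral_eq_lintegral_ofReal`. Auxiliary names start with `hormu_`. -/

open MeasureTheory Set Filter Topology
open scoped ContDiff ENNReal ComplexConjugate Convolution

noncomputable section

namespace Vale.Agent.P271

namespace EtDom

variable {n : ℕ} {Ω : Type} [TopologicalSpace Ω] [T2Space Ω] [SecondCountableTopology Ω]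
  [MeasurableSpace Ω] [BorelSpace Ω] {D : EtDom n Ω}

omit [TopologicalSpace Ω] [T2Space Ω] [SecondCountableTopology Ω] [BorelSpace Ω] in
theorem hormu_inf {u : ℕ → Ω → ℝ} (hm : ∀ S, Measurable (u S)) (h0 : ∀ S z, 0 ≤ u S z)
    (ha : ∀ z, Antitone fun S => u S z) : ∃ s : Ω → ℝ, Measurable s ∧ (∀ z, 0 ≤ s z) ∧
      (∀ S z, s z ≤ u S z) ∧ ∀ z, Tendsto (fun S => u S z) atTop (𝓝 (s z)) := by
  have hb : ∀ z, BddBelow (range fun S => u S z) := fun z => ⟨0, by
    rintro _ ⟨S, rfl⟩; exact h0 S z⟩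
  exact ⟨fun z => ⨅ S, u S z, Measurable.iInf hm, fun z => le_ciInf fun S => h0 S z,
    fun S z => ciInf_le (hb z) S, fun z => tendsto_atTop_ciInf (ha z) (hb z)⟩

variable (D) in
/-- The divergences of test fields. -/
def hormuV : Submodule ℂ (Ω → ℂ) where
  carrier := {h | ∃ α : Fin n → Ω → ℂ, (∀ j, D.Test (α j)) ∧ h = D.dvb α}
  add_mem' := by
    rintro _ _ ⟨α, hα, rfl⟩ ⟨β, hβ, rfl⟩
    refine ⟨fun j z => α j z + β j z, fun j => (hα j).add (hβ j), funext fun z => ?_⟩
    simp only [Pi.add_apply, dvb, ← Finset.sum_add_distrib]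
    exact Finset.sum_congr rfl fun j _ => (db_add j ((hα j).1 z) ((hβ j).1 z)).symm
  zero_mem' := ⟨fun _ _ => 0, fun _ => test_zero, funext fun z => by simp [dvb, db_const]⟩
  smul_mem' := by
    rintro c _ ⟨α, hα, rfl⟩
    refine ⟨fun j z => c * α j z, fun j => (hα j).mul_left fun _ => smAt_const c,
      funext fun z => ?_⟩
    simp only [Pi.smul_apply, smul_eq_mul, dvb, Finset.mul_sum]
    refine Finset.sum_congr rfl fun j _ => ?_
    rw [db_mul j (smAt_const c) ((hα j).1 z), db_const, zero_mul, zero_add]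

theorem hormu_test {h : Ω → ℂ} (hh : h ∈ hormuV D) : D.Test h := by
  obtain ⟨α, hα, rfl⟩ := hh
  exact test_dvb hα

theorem hormu_db {v : Ω → ℂ} (hv : D.Test v) (j : Fin n) : D.db j v ∈ hormuV D := by
  refine ⟨fun k => if k = j then v else fun _ => 0, fun k => ?_, funext fun z => ?_⟩
  · by_cases h : k = j
    · simpa only [h, if_true] using hv
    · simpa only [h, if_false] using test_zero
  · rw [dvb, Finset.sum_eq_single j (fun k _ h => by rw [if_neg h, db_const]) (by simp), if_pos rfl]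

/-- Integration against `g`. -/
def hormuL {g : Ω → ℂ} (hg : ∀ z, D.SmAt g z) : hormuV D →ₗ[ℂ] ℂ where
  toFun h := ∫ z, g z * h.1 z ∂D.ν
  map_add' h h' := by
    rw [← integral_add ((hormu_test h.2).mul_left hg).integrable
      ((hormu_test h'.2).mul_left hg).integrable]
    simp only [Submodule.coe_add, Pi.add_apply, mul_add]
  map_smul' c h := by
    simp only [Submodule.coe_smul, Pi.smul_apply, smul_eq_mul, RingHom.id_apply,
      ← integral_const_mul, mul_left_comm]

theorem hormander_univ (hW : D.Stein univ) {g : Ω → ℂ} (hg : ∀ z, D.SmAt g z)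
    {φ M : ℕ → Ω → ℝ} (hφ : ∀ S z, D.Psh (φ S) z) (anti : ∀ z, Antitone fun S => φ S z)
    (hM0 : ∀ S z, 0 ≤ M S z)
    (hM : ∀ S z v, ‖∑ j, D.db j g z * conj (v j)‖ ^ 2 ≤ M S z * D.levi (φ S) z v)
    (hg2 : ∀ S, ∫⁻ z, ENNReal.ofReal (‖g z‖ ^ 2 * Real.exp (-φ S z)) ∂D.ν ≠ ⊤)
    {A : ℝ≥0∞} (hA : ∀ S, ∫⁻ z, ENNReal.ofReal (M S z * Real.exp (-φ S z)) ∂D.ν ≤ A)
    (hA' : A ≠ ⊤) :
    ∃ F : Ω → ℂ, (∀ z, D.HolAt F z) ∧
      ∀ S, ∫⁻ z, ENNReal.ofReal (‖g z - F z‖ ^ 2 * Real.exp (-φ S z)) ∂D.ν ≤ 3 * A :=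
by
  have cφ : ∀ S z, D.SmAt (fun w => Real.exp (φ S w / 2)) z := fun S z =>
    ((hφ S z).1.comp (χ := fun t => t / 2) (contDiffAt_id.div_const 2)).rexp
  obtain ⟨s, sm, s0, sle, slim⟩ := hormu_inf (u := fun S w => Real.exp (φ S w / 2))
    (fun S => (cont_of_sm (cφ S)).measurable) (fun _ _ => (Real.exp_pos _).le)
    fun z S S' h => Real.exp_le_exp.2 (by linarith [anti z h])
  have ms : ∀ v, D.Test v → AEStronglyMeasurable (fun z => v z * (s z : ℂ)) D.ν := fun v hv =>
    (hv.continuous.measurable.mul (Complex.measurable_ofReal.comp sm)).aestronglyMeasurable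
  have bs : ∀ (v : Ω → ℂ) z, ‖v z * (s z : ℂ)‖ ≤ ‖v z * (Real.exp (φ 0 z / 2) : ℂ)‖ := fun v z => by
    rw [norm_mul, norm_mul, Complex.norm_real, Complex.norm_real, Real.norm_of_nonneg (s0 z),
      Real.norm_of_nonneg (Real.exp_pos _).le]
    exact mul_le_mul_of_nonneg_left (sle 0 z) (norm_nonneg _)
  have ls : ∀ v, D.Test v → MemLp (fun z => v z * (s z : ℂ)) 2 D.ν := fun v hv =>
    (hv.mul_right fun z => (cφ 0 z).ofReal).memLp.of_le (ms v hv) (Eventually.of_forall (bs v))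
  have sq : ∀ S z, Real.exp (φ S z / 2) ^ 2 = Real.exp (φ S z) := fun S z => by
    rw [← Real.exp_nat_mul]; congr 1; push_cast; ring
  obtain ⟨r, r2, rA, hr⟩ := l2_riesz (hormuV D) (fun z => (s z : ℂ))
    (fun h hh => ls h (hormu_test hh)) (hormuL hg) (C := 3 * A.toReal) (by positivity) fun h => by
      obtain ⟨α, hα, e⟩ := h.2
      have t := hormu_test h.2
      have lim : Tendsto (fun S => ∫ z, ‖h.1 z‖ ^ 2 * Real.exp (φ S z) ∂D.ν) atTop
          (𝓝 (∫ z, ‖h.1 z * (s z : ℂ)‖ ^ 2 ∂D.ν)) := by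
        have i := fun S => int_sq_mul t.2 (cont_of_sm fun z => (hφ S z).1.rexp) t.memLp
          fun _ => image_eq_zero_of_notMem_tsupport
        refine tendsto_integral_of_dominated_convergence _ (fun S => (i S).aestronglyMeasurable)
          (i 0) (fun S => Eventually.of_forall fun z => ?_) (Eventually.of_forall fun z => ?_)
        · rw [Real.norm_of_nonneg (by positivity)]
          exact mul_le_mul_of_nonneg_left (Real.exp_le_exp.2 (anti z (Nat.zero_le S)))
            (sq_nonneg _)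
        · simp only [← sq, norm_mul, mul_pow, Complex.norm_real, Real.norm_eq_abs, sq_abs]
          exact ((slim z).pow 2).const_mul _
      refine ge_of_tendsto' (lim.const_mul _) fun S => ?_
      have k := key_est hW hg (hφ S) (hM0 S) (hM S) (hg2 S) ENNReal.toReal_nonneg
        ((hA S).trans_eq (ENNReal.ofReal_toReal hA').symm) hα
      rw [← e] at k
      exact k
  have ir : ∀ v, D.Test v → MemLp (fun z => v z * (s z : ℂ) * r z) 2 D.ν := fun v hv => by
    obtain ⟨C, -, hC⟩ := (hv.mul_right fun z => (cφ 0 z).ofReal).bdd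
    exact memLp_bdd_mul r2 (ms v hv) fun z => (bs v z).trans (hC z)
  obtain ⟨F, hF, e⟩ := weyl (D := D) (U := fun z => g z - r z * (s z : ℂ)) (fun v hv => by
    refine ((hv.mul_right hg).memLp.sub (ir v hv)).ae_eq (Eventually.of_forall fun z => ?_)
    simp only [Pi.sub_apply]; ring) fun j v hv => by
      have k : ∫ z, g z * D.db j v z ∂D.ν = ∫ z, r z * (D.db j v z * (s z : ℂ)) ∂D.ν :=
        hr ⟨_, hormu_db hv j⟩
      rw [← sub_eq_zero, ← integral_sub ((hv.db j).mul_left hg).integrable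
        (int_mul r2 (ls _ (hv.db j)))] at k
      refine Eq.trans (integral_congr_ae (Eventually.of_forall fun z => ?_)) k
      simp only; ring
  refine ⟨F, hF, fun S => ?_⟩
  calc _ ≤ ∫⁻ z, ENNReal.ofReal (‖r z‖ ^ 2) ∂D.ν := by
        refine lintegral_mono_ae (e.mono fun z hz => ENNReal.ofReal_le_ofReal ?_)
        simp only at hz
        rw [← hz, sub_sub_cancel, norm_mul, mul_pow, Complex.norm_real,
          Real.norm_of_nonneg (s0 z), mul_assoc]
        refine mul_le_of_le_one_right (sq_nonneg _) ?_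
        rw [Real.exp_neg, ← div_eq_mul_inv, div_le_one (Real.exp_pos _), ← sq]
        exact pow_le_pow_left₀ (s0 z) (sle S z) 2
    _ = ENNReal.ofReal (∫ z, ‖r z‖ ^ 2 ∂D.ν) := (ofReal_integral_eq_lintegral_ofReal (int_sq r2)
        (Eventually.of_forall fun z => sq_nonneg _)).symm
    _ ≤ 3 * A := by
      refine (ENNReal.ofReal_le_ofReal rA).trans_eq ?_
      rw [ENNReal.ofReal_mul (by norm_num), ENNReal.ofReal_toReal hA', ENNReal.ofReal_ofNat]

end EtDom

end Vale.Agent.P271
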