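import Vale.Agent.P271.H.Sheet

/-! P271 H/IBP: partitions of unity and integration by parts.

Plan. `exists_pou`: `exists_cutoff` at each point of `K` inside `N ∩ source`,
`IsCompact.elim_nhds_subcover'` for the open sets where the cutoff is `1` nearby
(`eventually_eventually_nhds`), index by `Fin k` (`Finset.equivFin`),
`χ i = b i * ∏ j with j < i, (1 - b j)`, `Finset.prod_one_sub_ordered`. `int_op_flat`: the integral of
`fderiv ℝ U y` vanishes (`integral_mul_fderiv_eq_neg_fderiv_mul_of_integrable` with the constant `1`,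
`ContinuousLinearMap.integral_apply`), `ℓ.integral_comp_comm`. `Test.int_op`: `v = ∑ χ i * v`, each
piece is `pull (push ..)` (`test_push`, `test_pull`, `int_pull`,
`setIntegral_eq_integral_of_forall_compl_eq_zero`). `Weak.push`: test with `χ * (v ∘ π)`, `χ` from
`exists_cut`; the integrand is the `pull` of the flat integrand. On `triv n`, `fd v y = fderiv ℝ v y`
and `SmAt v y ↔ ContDiffAt ℝ ∞ v y` by `rfl`. Auxiliary names start with `ibp_`. -/

open MeasureTheory Set Filter Topology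
open scoped ContDiff ENNReal ComplexConjugate Convolution

noncomputable section

namespace Vale.Agent.P271

theorem int_op_flat {n : ℕ} {U : E n → ℂ} (hU : ContDiff ℝ ∞ U) (hc : HasCompactSupport U)
    (ℓ : Op n) : ∫ y, ℓ (fderiv ℝ U y) = 0 := by
  have h1 : Continuous (fderiv ℝ U) := hU.continuous_fderiv (by simp)
  have hI : Integrable (fderiv ℝ U) := h1.integrable_of_hasCompactSupport (hc.fderiv ℝ)
  have h2 : ∫ y, fderiv ℝ U y = 0 := ContinuousLinearMap.ext fun v => by
    have h3 := integral_mul_fderiv_eq_neg_fderiv_mul_of_integrable (μ := volume)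
      (f := fun _ : E n => (1 : ℂ)) (g := U) (v := v) (by simp)
      (by simpa using (ContinuousLinearMap.apply ℝ ℂ v).integrable_comp hI)
      (by simpa using hU.continuous.integrable_of_hasCompactSupport hc)
      (fun _ _ => differentiableAt_const _) (fun x _ => hU.differentiable (by simp) x)
    rw [ContinuousLinearMap.integral_apply hI]
    simpa using h3
  rw [ℓ.integral_comp_comm hI, h2, map_zero]

namespace EtDom

variable {n : ℕ} {Ω : Type} [TopologicalSpace Ω] [T2Space Ω] [SecondCountableTopology Ω]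
  [MeasurableSpace Ω] [BorelSpace Ω] {D : EtDom n Ω}

theorem exists_pou {K N : Set Ω} (hK : IsCompact K) (hN : IsOpen N) (hKN : K ⊆ N) :
    ∃ (k : ℕ) (c : Fin k → Ω) (χ : Fin k → Ω → ℂ),
      (∀ i, D.Test (χ i) ∧ tsupport (χ i) ⊆ N ∩ (D.ch (c i)).source) ∧
      ∀ z ∈ K, ∀ᶠ w in 𝓝 z, ∑ i, χ i w = 1 := by
  choose! b hb using fun z (hz : z ∈ K) => exists_cutoff (D := D)
    (inter_mem (hN.mem_nhds (hKN hz)) ((D.ch z).open_source.mem_nhds (D.mem z)))
  obtain ⟨t, ht, hcov⟩ := hK.elim_nhds_subcover (fun x => {w | ∀ᶠ y in 𝓝 w, b x y = 1})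
    fun x hx => eventually_eventually_nhds.2 (hb x hx).2.2.2
  set c : Fin t.card → Ω := fun i => (t.equivFin.symm i : Ω) with hc
  have hcK : ∀ i, c i ∈ K := fun i => ht _ (t.equivFin.symm i).2
  refine ⟨t.card, c, fun i w => b (c i) w * ∏ j ∈ Finset.univ with j < i, (1 - b (c j) w),
    fun i => ⟨(hb _ (hcK i)).1.mul_right fun z => ?_,
      tsupport_mul_subset_left.trans (hb _ (hcK i)).2.1⟩, fun z hz => ?_⟩
  · exact contDiffAt_prod (t := Finset.univ.filter (· < i))
      (f := fun j => D.loc (fun w => 1 - b (c j) w) z)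
      fun j _ => (smAt_const 1).sub ((hb _ (hcK j)).1.1 z)
  · obtain ⟨x, hx, hzx⟩ := mem_iUnion₂.1 (hcov hz)
    filter_upwards [hzx] with w hw
    have h1 := Finset.prod_one_sub_ordered Finset.univ fun j => b (c j) w
    rw [Finset.prod_eq_zero (Finset.mem_univ (t.equivFin ⟨x, hx⟩)) (by simp [hc, hw])] at h1
    exact (sub_eq_zero.1 h1.symm).symm

theorem exists_cut {K N : Set Ω} (hK : IsCompact K) (hN : IsOpen N) (hKN : K ⊆ N) :
    ∃ χ : Ω → ℂ, D.Test χ ∧ tsupport χ ⊆ N ∧ ∀ z ∈ K, ∀ᶠ w in 𝓝 z, χ w = 1 := by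
  obtain ⟨k, c, χ, h1, h2⟩ := exists_pou (D := D) hK hN hKN
  refine ⟨fun w => ∑ i, χ i w, Test.sum fun i _ => (h1 i).1, ?_, h2⟩
  refine (closure_minimal (t := ⋃ i, tsupport (χ i)) (fun w hw => ?_)
    (isClosed_iUnion_of_finite fun i => isClosed_tsupport _)).trans
    (iUnion_subset fun i => (h1 i).2.trans inter_subset_left)
  by_contra h
  exact hw (Finset.sum_eq_zero fun i _ =>
    image_eq_zero_of_notMem_tsupport fun hi => h (mem_iUnion.2 ⟨i, hi⟩))

theorem ibp_sheet {v : Ω → ℂ} (hv : D.Test v) {z : Ω} (hs : tsupport v ⊆ (D.ch z).source)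
    (ℓ : Op n) : ∫ w, ℓ (D.fd v w) ∂D.ν = 0 := by
  obtain ⟨h1, h2⟩ := test_push z hv hs
  have hK : IsCompact (D.π '' tsupport v) := hv.2.isCompact.image continuous_π
  have hKt : D.π '' tsupport v ⊆ (D.ch z).target := by
    rintro _ ⟨w, hw, rfl⟩
    exact sheet_mem z (hs hw)
  have h3 := (test_pull z h1 hK hKt h2).2.2 ℓ
  rw [pull_push z fun w hw => image_eq_zero_of_notMem_tsupport fun h => hw (hs h)] at h3
  simp only [h3]
  rw [int_pull, setIntegral_eq_integral_of_forall_compl_eq_zero fun y hy => ?_,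
    int_op_flat h1 (HasCompactSupport.intro hK h2)]
  have : D.push z v =ᶠ[𝓝 y] fun _ => 0 :=
    mem_of_superset (hK.isClosed.isOpen_compl.mem_nhds fun h => hy (hKt h)) h2
  simp [this.fderiv_eq]

theorem Test.int_op {v : Ω → ℂ} (hv : D.Test v) (ℓ : Op n) : ∫ z, ℓ (D.fd v z) ∂D.ν = 0 := by
  obtain ⟨k, c, χ, h1, h2⟩ := exists_pou (D := D) hv.2.isCompact isOpen_univ (subset_univ _)
  have ht : ∀ i, D.Test fun w => χ i w * v w := fun i => (h1 i).1.mul_right hv.1
  have e : v = fun w => ∑ i, χ i w * v w := funext fun w => by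
    by_cases hw : w ∈ tsupport v
    · rw [← Finset.sum_mul, (h2 w hw).self_of_nhds, one_mul]
    · simp [image_eq_zero_of_notMem_tsupport hw]
  have e2 : ∀ z, ℓ (D.fd v z) = ∑ i, ℓ (D.fd (fun w => χ i w * v w) z) := fun z => by
    rw [← map_sum, ← fd_sum fun i _ => (ht i).1 z, ← e]
  simp only [e2]
  rw [integral_finsetSum _ fun i _ => ((ht i).op ℓ).integrable]
  exact Finset.sum_eq_zero fun i _ => ibp_sheet (ht i)
    (tsupport_mul_subset_left.trans ((h1 i).2.trans inter_subset_right)) ℓ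

theorem ibp (ℓ : Op n) {a v : Ω → ℂ} (ha : ∀ z, D.SmAt a z) (hv : D.Test v) :
    ∫ z, a z * ℓ (D.fd v z) ∂D.ν = -∫ z, ℓ (D.fd a z) * v z ∂D.ν := by
  have h := (hv.mul_left ha).int_op ℓ
  simp only [op_mul ℓ (ha _) (hv.1 _)] at h
  rw [integral_add (hv.mul_left fun z => (ha z).op ℓ).integrable
    ((hv.op ℓ).mul_left ha).integrable] at h
  exact eq_neg_of_add_eq_zero_right h

theorem ibp_d (j : Fin n) {a v : Ω → ℂ} (ha : ∀ z, D.SmAt a z) (hv : D.Test v) :
    ∫ z, a z * D.d j v z ∂D.ν = -∫ z, D.d j a z * v z ∂D.ν := by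
  simp only [d_eq]
  exact ibp _ ha hv

theorem ibp_db (j : Fin n) {a v : Ω → ℂ} (ha : ∀ z, D.SmAt a z) (hv : D.Test v) :
    ∫ z, a z * D.db j v z ∂D.ν = -∫ z, D.db j a z * v z ∂D.ν := by
  simp only [db_eq]
  exact ibp _ ha hv

theorem Weak.push {ι : Type} [Fintype ι] {ℓ : ι → Op n} {β : ι → Ω → ℂ} {w : Ω → ℂ}
    (h : D.Weak ℓ β w) (z : Ω) {K : Set Ω} (hK : IsCompact K) (hKs : K ⊆ (D.ch z).source)
    (hβ : ∀ i x, x ∉ K → β i x = 0) (hw : ∀ x, x ∉ K → w x = 0) :
    (triv n).Weak ℓ (fun i => D.push z (β i)) (D.push z w) := by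
  intro v hv
  obtain ⟨χ, h1, -, h3⟩ := exists_cut (D := D) hK (D.ch z).open_source hKs
  have h4 := h _ (h1.mul_right (f := fun x => v (D.π x)) fun x => smAt_π.comp (hv.1 (D.π x)))
  have e : ∀ x, ∑ i, β i x * ℓ i (D.fd (fun x => χ x * v (D.π x)) x) + w x * (χ x * v (D.π x)) =
      D.pull z (fun y => ∑ i, D.push z (β i) y * ℓ i (fderiv ℝ v y) + D.push z w y * v y) x :=
    fun x => by
    by_cases hx : x ∈ K
    · have h5 : (fun x => χ x * v (D.π x)) =ᶠ[𝓝 x] fun x => v (D.π x) :=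
        (h3 x hx).mono fun y hy => by simp only [hy, one_mul]
      rw [pull, indicator_of_mem (hKs hx), fd_congr h5, fd_comp_π, (h3 x hx).self_of_nhds, one_mul]
      simp only [push_π z _ (hKs hx)]
    · by_cases hs : x ∈ (D.ch z).source
      · rw [pull, indicator_of_mem hs]
        simp [push_π z _ hs, hβ _ x hx, hw x hx]
      · simp [pull, hs, hβ _ x hx, hw x hx]
  simp only [e] at h4
  rw [int_pull, setIntegral_eq_integral_of_forall_compl_eq_zero fun y hy => by
    simp [EtDom.push, hy]] at h4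
  exact h4

end EtDom

end Vale.Agent.P271
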