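import Vale.Agent.P271.H.IBP
import Vale.Agent.P271.H.Hilb

/-! P271 H/Proj: projection of a test field to the closure of the range of `dbar`.

Plan. `l2_proj` with `T = {fun j z => exp (-σ z) * db j v z | v test}` and
`β j = conj (α j) * exp σ`. First claim: `ibp_db`, `integral_finset_sum`. Second claim: apply the first
to `conj v` (`db_conj`) and conjugate (`integral_conj`), `integral_add` (`int_mul`, `Test.memLp`).
Third: `γ i = exp σ * opC j k i (fd v)`; `∫ db j u * db k v - db k u * db j v = 0` by `ibp_db` twice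
and `db j (db k u) = db k (db j u)` (`db_db_comm`; proof as for `d_db_comm` in `H/Calc`); `sum_opC`.
Auxiliary names start with `proj_`. -/

open MeasureTheory Set Filter Topology
open scoped ContDiff ENNReal ComplexConjugate Convolution

noncomputable section

namespace Vale.Agent.P271

namespace EtDom

variable {n : ℕ} {Ω : Type} [TopologicalSpace Ω] [T2Space Ω] [SecondCountableTopology Ω]
  [MeasurableSpace Ω] [BorelSpace Ω] {D : EtDom n Ω}

theorem db_db_comm {f : Ω → ℂ} {z : Ω} (j k : Fin n) (hf : D.SmAt f z) :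
    D.db j (D.db k f) z = D.db k (D.db j f) z :=
by
  have hs : ∀ a b : E n, fderiv ℝ (fun y => fderiv ℝ (D.loc f z) y a) (D.π z) b =
      fderiv ℝ (fderiv ℝ (D.loc f z)) (D.π z) b a := fun a b => by
    rw [fderiv_clm_apply (((ContDiffAt.fderiv_right hf (m := ∞) (by simp))).differentiableAt
      (by simp)) (differentiableAt_const _)]
    simp
  have hsym := ContDiffAt.isSymmSndFDerivAt hf (by simp; norm_cast)
  have hd : ∀ a : E n, HasFDerivAt (fun y => fderiv ℝ (D.loc f z) y a)
      (fderiv ℝ (fun y => fderiv ℝ (D.loc f z) y a) (D.π z)) (D.π z) := fun a =>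
    (((ContDiffAt.fderiv_right hf (m := ∞) (by simp)).clm_apply contDiffAt_const).differentiableAt
      (by simp)).hasFDerivAt
  have e1 : ∀ k, HasFDerivAt (dzb k (D.loc f z)) _ (D.π z) := fun k =>
    ((hd (Pi.single k 1)).add ((hd (Pi.single k Complex.I)).const_mul Complex.I)).mul_const
      (2 : ℂ)⁻¹
  rw [db, db, dzb, dzb, (loc_db k f z).fderiv_eq, (loc_db j f z).fderiv_eq, (e1 k).fderiv,
    (e1 j).fderiv]
  simp only [smul_apply, add_apply, smul_eq_mul, hs]
  rw [hsym.eq (Pi.single j 1) (Pi.single k 1), hsym.eq (Pi.single j 1) (Pi.single k Complex.I),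
    hsym.eq (Pi.single j Complex.I) (Pi.single k 1),
    hsym.eq (Pi.single j Complex.I) (Pi.single k Complex.I)]
  ring

theorem proj_field {σ : Ω → ℝ} (hσ : ∀ z, D.SmAt σ z) {α : Fin n → Ω → ℂ}
    (hα : ∀ j, D.Test (α j)) : ∃ b : Fin n → Ω → ℂ, (∀ j, MemLp (b j) 2 D.ν) ∧
      (∀ v, D.Test v → ∫ z, ∑ j, (Real.exp (-σ z) : ℂ) * D.db j v z * conj (b j z) ∂D.ν =
        -∫ z, v z * D.dvb α z ∂D.ν) ∧
      D.Weak opD (fun j z => (Real.exp (-σ z) : ℂ) * b j z) (fun z => conj (D.dvb α z)) ∧
      ∀ j k, D.Weak (opC j k) (fun i z => (Real.exp (σ z) : ℂ) * b i z) fun _ => 0 :=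
by
  have sp : ∀ z, D.SmAt (fun w => (Real.exp (σ w) : ℂ)) z := fun z => (hσ z).rexp.ofReal
  have sn : ∀ z, D.SmAt (fun w => (Real.exp (-σ w) : ℂ)) z := fun z => (hσ z).rneg.rexp.ofReal
  have ee : ∀ z, (Real.exp (-σ z) : ℂ) * (Real.exp (σ z) : ℂ) = 1 := fun z => by
    rw [← Complex.ofReal_mul, ← Real.exp_add, neg_add_cancel, Real.exp_zero, Complex.ofReal_one]
  obtain ⟨b, hb, h1, h2⟩ := l2_proj (μ := D.ν)
    {t | ∃ v, D.Test v ∧ t = fun j z => (Real.exp (-σ z) : ℂ) * D.db j v z}
    (by rintro _ ⟨v, hv, rfl⟩ j; exact ((hv.db j).mul_left sn).memLp)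
    (β := fun j z => (Real.exp (σ z) : ℂ) * conj (α j z))
    fun j => ((hα j).conj.mul_left sp).memLp
  have k1 : ∀ v, D.Test v → ∫ z, ∑ j, (Real.exp (-σ z) : ℂ) * D.db j v z * conj (b j z) ∂D.ν =
      -∫ z, v z * D.dvb α z ∂D.ν := fun v hv => by
    refine (h1 _ ⟨v, hv, rfl⟩).trans ?_
    have e : ∀ j z, (Real.exp (-σ z) : ℂ) * D.db j v z *
        conj ((Real.exp (σ z) : ℂ) * conj (α j z)) = D.db j v z * α j z := fun j z => by
      rw [map_mul, Complex.conj_conj, Complex.conj_ofReal]
      linear_combination D.db j v z * α j z * ee z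
    simp only [e, dvb, Finset.mul_sum]
    rw [integral_finsetSum _ fun j _ => ((hα j).mul_left fun z => (hv.1 z).db j).integrable,
      integral_finsetSum _ fun j _ => (((hα j).db j).mul_left hv.1).integrable,
      ← Finset.sum_neg_distrib]
    exact Finset.sum_congr rfl fun j _ => by rw [ibp_db j hv.1 (hα j), neg_neg]
  refine ⟨b, hb, k1, fun v hv => ?_, fun j k v hv => ?_⟩
  · have k := congrArg conj (k1 _ hv.conj)
    rw [map_neg, ← integral_conj, ← integral_conj] at k
    have e : ∀ z, conj (∑ j, (Real.exp (-σ z) : ℂ) * D.db j (fun w => conj (v w)) z *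
        conj (b j z)) = ∑ j, (Real.exp (-σ z) : ℂ) * b j z * opD j (D.fd v z) := fun z => by
      rw [map_sum]
      refine Finset.sum_congr rfl fun j _ => ?_
      rw [db_conj j (hv.1 z), map_mul, map_mul, Complex.conj_conj, Complex.conj_conj,
        Complex.conj_ofReal, d_eq, mul_right_comm]
    simp only [e, map_mul, Complex.conj_conj, mul_comm (v _)] at k
    rw [integral_add (integrable_finsetSum _ fun j _ => ?_)
      (hv.mul_left (test_dvb hα).conj.1).integrable, k, neg_add_cancel]
    simpa only [mul_right_comm] using int_mul ((hv.op (opD j)).mul_left sn).memLp (hb j)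
  · refine Eq.trans (integral_congr_ae (Eventually.of_forall fun z => ?_))
      (h2 (fun i z => (Real.exp (σ z) : ℂ) * opC j k i (D.fd v z))
        (fun i => ((hv.op _).mul_left sp).memLp) ?_)
    · simp only [zero_mul, add_zero]
      exact Finset.sum_congr rfl fun i _ => by ring
    · rintro _ ⟨u, hu, rfl⟩
      have e : ∀ z, ∑ i, (Real.exp (-σ z) : ℂ) * D.db i u z *
          ((Real.exp (σ z) : ℂ) * opC j k i (D.fd v z)) =
          D.db j u z * D.db k v z - D.db k u z * D.db j v z := fun z => by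
        rw [db_eq D k v, db_eq D j v, ← sum_opC j k (fun i => D.db i u z) fun _ => D.fd v z]
        exact Finset.sum_congr rfl fun i _ => by
          linear_combination D.db i u z * opC j k i (D.fd v z) * ee z
      simp only [e]
      rw [integral_sub ((hv.db k).mul_left (hu.db j).1).integrable
        ((hv.db j).mul_left (hu.db k).1).integrable, ibp_db k (hu.db j).1 hv,
        ibp_db j (hu.db k).1 hv]
      simp only [db_db_comm k j (hu.1 _), sub_self]

end EtDom

end Vale.Agent.P271
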