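import Vale.Agent.P271.H.Est
import Vale.Agent.P271.H.Grow
import Vale.Agent.P271.H.Proj

/-! P271 H/Key: the a priori inequality for one weight.

Plan. `h = dvb α`, `K = tsupport h`, `grow`, `proj_field` with `σ = sg φ ψ`. For each `m`:
`∫ g * h = ∫ (η m * g) * h` (`Cut.one`), the first claim of `proj_field` for the test function
`η m * g`, `norm_int_le` with `pair_le`, `int_eta`, `int_gr`, `hg2`
(`integrable` from `hasFiniteIntegral_iff_ofReal` and continuity), `est_main`: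
`‖∫ g h‖ ≤ τ A / 2 + (3 B + 5 T m) / (2 τ) + ε G / 2 + T m / (2 ε)`. `T m → 0` by dominated convergence
(bound `∑ ‖b j‖ ^ 2`, `Cut.grad`). Let `m → ∞`, `ε → 0`; then `x ≤ τ A / 2 + 3 B / (2 τ)` for all
`τ > 0` gives `x ^ 2 ≤ 3 A B` (a lemma on reals). Auxiliary names start with `key_`. -/

open MeasureTheory Set Filter Topology
open scoped ContDiff ENNReal ComplexConjugate Convolution

noncomputable section

namespace Vale.Agent.P271

namespace EtDom

variable {n : ℕ} {Ω : Type} [TopologicalSpace Ω] [T2Space Ω] [SecondCountableTopology Ω]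
  [MeasurableSpace Ω] [BorelSpace Ω] {D : EtDom n Ω}

theorem key_real {x A B G : ℝ} {T : ℕ → ℝ} (hx : 0 ≤ x) (hA : 0 ≤ A) (hB : 0 ≤ B) (hG : 0 ≤ G)
    (hT : Tendsto T atTop (𝓝 0)) (h : ∀ τ ε : ℝ, 0 < τ → 0 < ε → ∀ m, x ≤ τ / 2 * A +
      (1 / (2 * τ) * (3 * B + 5 * T m) + ε / 2 * G + 1 / (2 * ε) * T m)) : x ^ 2 ≤ 3 * A * B := by
  have h1 : ∀ τ ε : ℝ, 0 < τ → 0 < ε → x ≤ τ / 2 * A +
      (1 / (2 * τ) * (3 * B + 5 * 0) + ε / 2 * G + 1 / (2 * ε) * 0) := fun τ ε hτ hε =>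
    ge_of_tendsto' ((((((hT.const_mul 5).const_add _).const_mul _).add_const _).add
      (hT.const_mul _)).const_add _) (h τ ε hτ hε)
  have h2 : ∀ τ : ℝ, 0 < τ → x ≤ τ / 2 * A + 1 / (2 * τ) * (3 * B) := fun τ hτ =>
    le_of_forall_pos_le_add fun δ hδ => by
      have k := h1 τ (δ / (G + 1)) hτ (by positivity)
      have k2 : δ / (G + 1) * (G + 1) = δ := by field_simp
      have k3 : 0 < δ / (G + 1) := by positivity
      have k4 := mul_nonneg k3.le hG
      linarith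
  rcases hx.eq_or_lt with hx0 | hx0
  · rw [← hx0, zero_pow two_ne_zero]; positivity
  refine le_of_forall_pos_le_add fun δ hδ => ?_
  obtain ⟨e, he⟩ : ∃ e, e = δ / (3 * B + 1) := ⟨_, rfl⟩
  have e0 : 0 < e := by rw [he]; positivity
  have e1 : e * (3 * B + 1) = δ := by rw [he]; field_simp
  have k := h2 (x / (A + e)) (by positivity)
  have k1 : x / (A + e) / 2 * A ≤ x / 2 := by
    rw [div_right_comm, div_mul_eq_mul_div, div_le_iff₀ (by positivity)]
    nlinarith
  have k2 : 1 / (2 * (x / (A + e))) * (3 * B) * (2 * x) = 3 * B * (A + e) := by field_simp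
  have k3 := mul_le_mul_of_nonneg_right
    (show x / 2 ≤ 1 / (2 * (x / (A + e))) * (3 * B) by linarith) (by positivity : 0 ≤ 2 * x)
  nlinarith

theorem key_est (hW : D.Stein univ) {g : Ω → ℂ} (hg : ∀ z, D.SmAt g z) {φ M : Ω → ℝ}
    (hφ : ∀ z, D.Psh φ z) (hM0 : ∀ z, 0 ≤ M z)
    (hM : ∀ z v, ‖∑ j, D.db j g z * conj (v j)‖ ^ 2 ≤ M z * D.levi φ z v)
    (hg2 : ∫⁻ z, ENNReal.ofReal (‖g z‖ ^ 2 * Real.exp (-φ z)) ∂D.ν ≠ ⊤) {A : ℝ} (hA0 : 0 ≤ A)
    (hA : ∫⁻ z, ENNReal.ofReal (M z * Real.exp (-φ z)) ∂D.ν ≤ ENNReal.ofReal A)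
    {α : Fin n → Ω → ℂ} (hα : ∀ j, D.Test (α j)) :
    ‖∫ z, g z * D.dvb α z ∂D.ν‖ ^ 2 ≤
      3 * A * ∫ z, ‖D.dvb α z‖ ^ 2 * Real.exp (φ z) ∂D.ν :=
by
  have hh := test_dvb hα
  obtain ⟨ψ, η, hψ, ψ0, ψK, hη, hT⟩ := grow hW hh.2
  have sφ : ∀ z, D.SmAt φ z := fun z => (hφ z).1
  have sψ : ∀ z, D.SmAt ψ z := fun z => (hψ z).1
  obtain ⟨b, hb, p1, p2, p3⟩ := proj_field (fun z => smAt_sg (sφ z) (sψ z)) hα
  have h0 : ∀ z, z ∉ tsupport (D.dvb α) → D.dvb α z = 0 := fun _ =>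
    image_eq_zero_of_notMem_tsupport
  have iG : Integrable (fun z => ‖g z‖ ^ 2 * Real.exp (-φ z)) D.ν :=
    ⟨(((cont_of_sm hg).norm.pow 2).mul (cont_of_sm fun z => (sφ z).rneg.rexp)).aestronglyMeasurable,
      (hasFiniteIntegral_iff_ofReal (Eventually.of_forall fun z => by positivity)).2 hg2.lt_top⟩
  have g0 : ∀ m z, 0 ≤ D.gr (η m) z := fun _ _ => Finset.sum_nonneg fun _ _ => sq_nonneg _
  have v0 : ∀ z, 0 ≤ ∑ j, ‖b j z‖ ^ 2 := fun _ => Finset.sum_nonneg fun _ _ => sq_nonneg _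
  have lim : Tendsto (fun m => ∫ z, D.gr (η m) z * Real.exp (-ψ z) * ∑ j, ‖b j z‖ ^ 2 ∂D.ν) atTop
      (𝓝 0) := by
    have := tendsto_integral_of_dominated_convergence (μ := D.ν) (f := fun _ => (0 : ℝ))
      (fun z => ∑ j, ‖b j z‖ ^ 2) (fun m => (int_gr sψ (hη m) hb).aestronglyMeasurable)
      (integrable_finsetSum _ fun j _ => int_sq (hb j))
      (fun m => Eventually.of_forall fun z => by
        have := g0 m z
        have := v0 z
        rw [Real.norm_of_nonneg (by positivity)]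
        refine mul_le_of_le_one_left this ?_
        rw [Real.exp_neg, ← div_eq_mul_inv, div_le_one (Real.exp_pos _)]
        exact (hη m).grad z)
      (Eventually.of_forall fun z => tendsto_const_nhds.congr' ((hT z).mono fun m hm => by
        simp only [hm, zero_mul]))
    rwa [integral_zero] at this
  refine key_real (G := ∫ z, ‖g z‖ ^ 2 * Real.exp (-φ z) ∂D.ν) (norm_nonneg _) hA0
    (integral_nonneg fun z => by positivity) (integral_nonneg fun z => by positivity) lim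
    fun τ ε hτ hε m => ?_
  have e1 : ∫ z, g z * D.dvb α z ∂D.ν = ∫ z, (η m z : ℂ) * g z * D.dvb α z ∂D.ν :=
    integral_congr_ae (Eventually.of_forall fun z => by
      by_cases hz : z ∈ tsupport (D.dvb α)
      · simp only [(hη m).one z hz, Complex.ofReal_one, one_mul]
      · simp only [h0 z hz, mul_zero])
  have iL := int_eta sφ sψ (hη m) hb
  have iT := int_gr sψ (hη m) hb
  have k1 := norm_int_le (by positivity : 0 ≤ τ / 2) hA0
    (((iL.const_mul (1 / (2 * τ))).add (iG.const_mul (ε / 2))).add (iT.const_mul (1 / (2 * ε))))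
    (fun z => by
      have := g0 m z
      have := v0 z
      have := (hφ z).2 fun j => b j z
      simp only [Pi.add_apply]
      positivity)
    (fun z => pair_le (hφ z) (ψ0 z) ((hη m).sm z) ((hη m).nonneg z) (hg z) (hM0 z) (hM z)
      (fun j => b j z) hτ hε) hA
  rw [integral_add' ((iL.const_mul _).add (iG.const_mul _)) (iT.const_mul _),
    integral_add' (iL.const_mul _) (iG.const_mul _), integral_const_mul, integral_const_mul,
    integral_const_mul, p1 _ ((hη m).test.mul_right hg), norm_neg, ← e1] at k1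
  have k2 := mul_le_mul_of_nonneg_left (est_main sφ hψ ψ0 ψK (hη m) hh h0 hb p2 p3)
    (by positivity : 0 ≤ 1 / (2 * τ))
  linarith only [k1, k2]

end EtDom

end Vale.Agent.P271
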