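import Vale.Agent.P271.H.HDefs

/-! P271 H/L2: convergence in `L ^ 2`, general measure theory.

Plan. `eLpNorm_add_le`, `eLpNorm_mono` / `eLpNorm_le_mul_eLpNorm_of_ae_le_mul`-type bounds with
`ENNReal.Tendsto.const_mul`, squeeze `tendsto_of_tendsto_of_tendsto_of_le_of_le`. `cont_mul`: replace
`a` by `K.indicator a`, which is bounded and measurable. `pair`: pass to `MemLp.toLp`
(`Lp.tendsto_Lp_iff_tendsto_eLpNorm''`), continuity of the inner product (`L2.inner_def`) with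
`conj`. `norm_int_le`: `norm_integral_le_lintegral_norm`, `lintegral_add_right'`,
`lintegral_const_mul'` (no measurability of `p`), `ofReal_integral_eq_lintegral_ofReal`.
Auxiliary names start with `l2_`. -/

open MeasureTheory Set Filter Topology
open scoped ContDiff ENNReal ComplexConjugate Convolution

noncomputable section

namespace Vale.Agent.P271

variable {X : Type} [MeasurableSpace X] {μ : Measure X} {f f' : ℕ → X → ℂ} {g g' : X → ℂ}

theorem l2_of_le (h : L2lim μ f g) (hf : ∀ m, MemLp (f' m) 2 μ) (hg : MemLp g' 2 μ) (C : ℝ)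
    (hC : ∀ m x, ‖f' m x - g' x‖ ≤ C * ‖f m x - g x‖) : L2lim μ f' g' := by
  refine ⟨hf, hg, ?_⟩
  have h1 := ENNReal.Tendsto.const_mul (a := ENNReal.ofReal C) h.2.2 (Or.inr ENNReal.ofReal_ne_top)
  rw [mul_zero] at h1
  exact tendsto_of_tendsto_of_tendsto_of_le_of_le tendsto_const_nhds h1 (fun _ => zero_le)
    fun m => eLpNorm_le_mul_eLpNorm_of_ae_le_mul (Eventually.of_forall (hC m)) 2

theorem l2lim_zero : L2lim μ (fun _ _ => 0) (fun _ => 0) := by
  refine ⟨fun _ => MemLp.zero, MemLp.zero, ?_⟩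
  simp

theorem L2lim.shift (h : L2lim μ f g) (k : ℕ) : L2lim μ (fun m => f (m + k)) g :=
  ⟨fun m => h.1 _, h.2.1, (tendsto_add_atTop_iff_nat k).2 h.2.2⟩

theorem L2lim.add (h : L2lim μ f g) (h' : L2lim μ f' g') :
    L2lim μ (fun m x => f m x + f' m x) (fun x => g x + g' x) := by
  refine ⟨fun m => (h.1 m).add (h'.1 m), h.2.1.add h'.2.1, ?_⟩
  have h1 := h.2.2.add h'.2.2
  rw [add_zero] at h1
  refine tendsto_of_tendsto_of_tendsto_of_le_of_le tendsto_const_nhds h1 (fun _ => zero_le)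
    fun m => le_trans (le_of_eq ?_)
      (eLpNorm_add_le ((h.1 m).sub h.2.1).1 ((h'.1 m).sub h'.2.1).1 one_le_two)
  congr 1
  funext x
  simp only [Pi.sub_apply, Pi.add_apply]
  ring

theorem L2lim.sub (h : L2lim μ f g) (h' : L2lim μ f' g') :
    L2lim μ (fun m x => f m x - f' m x) (fun x => g x - g' x) := by
  have h1 : L2lim μ (fun m x => -f' m x) (fun x => -g' x) :=
    l2_of_le h' (fun m => (h'.1 m).neg) h'.2.1.neg 1 fun m x => by
      rw [one_mul, ← neg_sub', norm_neg]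
  simpa only [sub_eq_add_neg] using h.add h1

theorem L2lim.sum {ι : Type} (s : Finset ι) {f : ι → ℕ → X → ℂ} {g : ι → X → ℂ}
    (h : ∀ i ∈ s, L2lim μ (f i) (g i)) :
    L2lim μ (fun m x => ∑ i ∈ s, f i m x) (fun x => ∑ i ∈ s, g i x) := by
  classical
  induction s using Finset.induction_on with
  | empty => simpa using l2lim_zero
  | insert a s ha ih =>
    simp only [Finset.sum_insert ha]
    exact (h a (Finset.mem_insert_self a s)).add (ih fun i hi => h i (Finset.mem_insert_of_mem hi))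

theorem memLp_conj (h : MemLp g 2 μ) : MemLp (fun x => conj (g x)) 2 μ :=
  h.star

theorem L2lim.conj (h : L2lim μ f g) :
    L2lim μ (fun m x => conj (f m x)) (fun x => conj (g x)) :=
  l2_of_le h (fun m => memLp_conj (h.1 m)) (memLp_conj h.2.1) 1 fun m x => by
    rw [one_mul, ← map_sub, Complex.norm_conj]

theorem memLp_bdd_mul (h : MemLp g 2 μ) {a : X → ℂ} (ha : AEStronglyMeasurable a μ) {C : ℝ}
    (hC : ∀ x, ‖a x‖ ≤ C) : MemLp (fun x => a x * g x) 2 μ :=
  h.of_le_mul (c := C) (ha.mul h.1) (Eventually.of_forall fun x => by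
    rw [norm_mul]
    exact mul_le_mul_of_nonneg_right (hC x) (norm_nonneg _))

theorem L2lim.bdd_mul (h : L2lim μ f g) {a : X → ℂ} (ha : AEStronglyMeasurable a μ) {C : ℝ}
    (hC : ∀ x, ‖a x‖ ≤ C) : L2lim μ (fun m x => a x * f m x) (fun x => a x * g x) :=
  l2_of_le h (fun m => memLp_bdd_mul (h.1 m) ha hC) (memLp_bdd_mul h.2.1 ha hC) C fun m x => by
    rw [← mul_sub, norm_mul]
    exact mul_le_mul_of_nonneg_right (hC x) (norm_nonneg _)

theorem memLp_cont_mul [TopologicalSpace X] [T2Space X] [OpensMeasurableSpace X] {K : Set X}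
    (hK : IsCompact K) (h : MemLp g 2 μ) (hg : ∀ x, x ∉ K → g x = 0) {a : X → ℂ}
    (ha : Continuous a) : MemLp (fun x => a x * g x) 2 μ := by
  obtain ⟨C, hC⟩ := hK.exists_bound_of_continuousOn ha.continuousOn
  refine h.of_le_mul (c := C) (ha.aestronglyMeasurable.mul h.1) (Eventually.of_forall fun x => ?_)
  by_cases hx : x ∈ K
  · rw [norm_mul]
    exact mul_le_mul_of_nonneg_right (hC x hx) (norm_nonneg _)
  · simp [hg x hx]

theorem L2lim.cont_mul [TopologicalSpace X] [T2Space X] [OpensMeasurableSpace X] {K : Set X}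
    (hK : IsCompact K) (h : L2lim μ f g) (hf : ∀ m x, x ∉ K → f m x = 0)
    (hg : ∀ x, x ∉ K → g x = 0) {a : X → ℂ} (ha : Continuous a) :
    L2lim μ (fun m x => a x * f m x) (fun x => a x * g x) := by
  obtain ⟨C, hC⟩ := hK.exists_bound_of_continuousOn ha.continuousOn
  refine l2_of_le h (fun m => memLp_cont_mul hK (h.1 m) (hf m) ha) (memLp_cont_mul hK h.2.1 hg ha)
    C fun m x => ?_
  by_cases hx : x ∈ K
  · rw [← mul_sub, norm_mul]
    exact mul_le_mul_of_nonneg_right (hC x hx) (norm_nonneg _)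
  · simp [hg x hx, hf m x hx]

theorem int_mul (h : MemLp g 2 μ) (h' : MemLp g' 2 μ) : Integrable (fun x => g x * g' x) μ :=
  h.integrable_mul h'

theorem int_sq (h : MemLp g 2 μ) : Integrable (fun x => ‖g x‖ ^ 2) μ :=
  h.norm.integrable_sq

theorem l2_inner (h : MemLp g 2 μ) (h' : MemLp g' 2 μ) :
    inner ℂ ((memLp_conj h).toLp _) (h'.toLp _) = ∫ x, g x * g' x ∂μ := by
  rw [L2.inner_def]
  refine integral_congr_ae ?_
  filter_upwards [(memLp_conj h).coeFn_toLp, h'.coeFn_toLp] with x h1 h2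
  simp [h1, h2, mul_comm]

theorem L2lim.pair (h : L2lim μ f g) (h' : L2lim μ f' g') :
    Tendsto (fun m => ∫ x, f m x * f' m x ∂μ) atTop (𝓝 (∫ x, g x * g' x ∂μ)) := by
  have h1 := (Lp.tendsto_Lp_iff_tendsto_eLpNorm'' _ h.conj.1 _ h.conj.2.1).2 h.conj.2.2
  have h2 := (Lp.tendsto_Lp_iff_tendsto_eLpNorm'' _ h'.1 _ h'.2.1).2 h'.2.2
  have h3 := Filter.Tendsto.inner (𝕜 := ℂ) h1 h2
  rw [l2_inner h.2.1 h'.2.1] at h3
  exact h3.congr fun m => l2_inner (h.1 m) (h'.1 m)

theorem L2lim.sq (h : L2lim μ f g) :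
    Tendsto (fun m => ∫ x, ‖f m x‖ ^ 2 ∂μ) atTop (𝓝 (∫ x, ‖g x‖ ^ 2 ∂μ)) := by
  have h1 := h.pair h.conj
  simp only [Complex.mul_conj', ← Complex.ofReal_pow, integral_complex_ofReal] at h1
  exact Filter.tendsto_ofReal_iff.1 h1

theorem norm_int_le {u : X → ℂ} {p q : X → ℝ} {τ A : ℝ} (hτ : 0 ≤ τ) (hA : 0 ≤ A)
    (hq : Integrable q μ) (q0 : ∀ x, 0 ≤ q x) (h : ∀ x, ‖u x‖ ≤ τ * p x + q x)
    (hp : ∫⁻ x, ENNReal.ofReal (p x) ∂μ ≤ ENNReal.ofReal A) :
    ‖∫ x, u x ∂μ‖ ≤ τ * A + ∫ x, q x ∂μ := by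
  have q1 : 0 ≤ ∫ x, q x ∂μ := integral_nonneg q0
  refine (norm_integral_le_lintegral_norm u).trans
    (ENNReal.toReal_le_of_le_ofReal (by positivity) ?_)
  calc ∫⁻ x, ENNReal.ofReal ‖u x‖ ∂μ
      ≤ ∫⁻ x, (ENNReal.ofReal τ * ENNReal.ofReal (p x) + ENNReal.ofReal (q x)) ∂μ := by
        refine lintegral_mono fun x => (ENNReal.ofReal_le_ofReal (h x)).trans ?_
        rw [← ENNReal.ofReal_mul hτ]
        exact ENNReal.ofReal_add_le
    _ = ENNReal.ofReal τ * ∫⁻ x, ENNReal.ofReal (p x) ∂μ + ENNReal.ofReal (∫ x, q x ∂μ) := by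
        rw [lintegral_add_right' _ hq.1.aemeasurable.ennreal_ofReal,
          lintegral_const_mul' _ _ ENNReal.ofReal_ne_top,
          ofReal_integral_eq_lintegral_ofReal hq (Eventually.of_forall q0)]
    _ ≤ _ := by
        rw [ENNReal.ofReal_add (by positivity) q1, ENNReal.ofReal_mul hτ]
        gcongr

end Vale.Agent.P271
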