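import Vale.Agent.P271.H.Calc

/-! P271 H/Meas: the pulled back measure.

Plan. `exists_meas`: take countably many sheets covering `Ω` (`TopologicalSpace.countable_cover_nhds`),
disjointify the sources into Borel pieces `B i`, put
`ν = Measure.sum fun i => Measure.map (ch i).symm (volume.restrict (π '' B i))` (or define it through
`Measure.comap` of the measurable embedding `π` restricted to `B i`). For `S` in a source, `π` is
injective on `S`, the images `π '' (S ∩ B i)` are disjoint Borel sets (images under an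
`OpenPartialHomeomorph`, `MeasurableSet.image_of_continuousOn_injOn`) with union `π '' S`.
`lint_sheet`: `ν.restrict S = map (ch z).symm (volume.restrict (π '' S))`.
`lint_fibre`: sum `lint_sheet` over the pieces `B i`; each fibre meets `B i` in at most one point.
Auxiliary names start with `meas_`. -/

open MeasureTheory Set Filter Topology
open scoped ContDiff ENNReal ComplexConjugate

noncomputable section

namespace Vale.Agent.P271

namespace EtDom

variable {n : ℕ} {Ω : Type} [TopologicalSpace Ω] [T2Space Ω] [SecondCountableTopology Ω]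
  [MeasurableSpace Ω] [BorelSpace Ω] {D : EtDom n Ω}

omit [T2Space Ω] [SecondCountableTopology Ω] in
theorem meas_img (e : OpenPartialHomeomorph Ω (E n)) {B : Set Ω} (hB : MeasurableSet B)
    (h : B ⊆ e.source) : MeasurableSet (e '' B) := by
  have h1 := e.isOpenEmbedding_restrict.measurableEmbedding.measurableSet_image.2
    (measurable_subtype_coe hB)
  have e1 : e.source.domRestrict e '' (Subtype.val ⁻¹' B) = e '' B := by
    ext y
    constructor
    · rintro ⟨w, hw, rfl⟩
      exact ⟨w, hw, rfl⟩
    · rintro ⟨w, hw, rfl⟩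
      exact ⟨⟨w, h hw⟩, hw, rfl⟩
  rwa [e1] at h1

omit [T2Space Ω] [SecondCountableTopology Ω] in
theorem meas_map (e : OpenPartialHomeomorph Ω (E n)) {B : Set Ω} (hB : MeasurableSet B)
    (h : B ⊆ e.source) : AEMeasurable e.symm (volume.restrict (e '' B)) ∧
      ∀ S, MeasurableSet S →
        Measure.map e.symm (volume.restrict (e '' B)) S = volume (e '' (S ∩ B)) := by
  have hm := meas_img e hB h
  have h1 : AEMeasurable e.symm (volume.restrict (e '' B)) :=
    (e.continuousOn_symm.mono (by rintro _ ⟨w, hw, rfl⟩; exact e.map_source (h hw))).aemeasurable hm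
  refine ⟨h1, fun S hS => ?_⟩
  rw [Measure.map_apply_of_aemeasurable h1 hS, Measure.restrict_apply' hm]
  congr 1
  ext y
  constructor
  · rintro ⟨hy, w, hw, rfl⟩
    rw [mem_preimage, e.left_inv (h hw)] at hy
    exact ⟨w, ⟨hy, hw⟩, rfl⟩
  · rintro ⟨w, hw, rfl⟩
    exact ⟨by rw [mem_preimage, e.left_inv (h hw.2)]; exact hw.1, w, hw.2, rfl⟩

omit [T2Space Ω] in
theorem meas_pieces (ch : Ω → OpenPartialHomeomorph Ω (E n)) (mem : ∀ z, z ∈ (ch z).source)
    [Nonempty Ω] : ∃ (u : ℕ → Ω) (B : ℕ → Set Ω), (∀ k, MeasurableSet (B k)) ∧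
      (∀ k, B k ⊆ (ch (u k)).source) ∧ Pairwise (Function.onFun Disjoint B) ∧ ⋃ k, B k = univ := by
  obtain ⟨t, htc, hcov⟩ := TopologicalSpace.countable_cover_nhds (f := fun z => (ch z).source)
    fun z => (ch z).open_source.mem_nhds (mem z)
  rcases t.eq_empty_or_nonempty with rfl | hne
  · simp at hcov
    exact absurd hcov.symm univ_nonempty.ne_empty
  obtain ⟨u, rfl⟩ := htc.exists_eq_range hne
  refine ⟨u, disjointed fun k => (ch (u k)).source,
    MeasurableSet.disjointed fun k => (ch _).open_source.measurableSet, disjointed_subset _,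
    disjoint_disjointed _, ?_⟩
  rw [iUnion_disjointed]
  simpa using hcov

omit [T2Space Ω] in
theorem exists_meas (π : Ω → E n) (ch : Ω → OpenPartialHomeomorph Ω (E n))
    (mem : ∀ z, z ∈ (ch z).source) (coe : ∀ z, ⇑(ch z) = π) :
    ∃ ν : Measure Ω, ∀ z S, MeasurableSet S → S ⊆ (ch z).source → ν S = volume (π '' S) := by
  rcases isEmpty_or_nonempty Ω with h | h
  · exact ⟨0, fun z => h.elim z⟩
  obtain ⟨u, B, hB, hBs, hd, hU⟩ := meas_pieces ch mem
  refine ⟨Measure.sum fun k => Measure.map (ch (u k)).symm (volume.restrict (ch (u k) '' B k)),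
    fun z S hS hz => ?_⟩
  rw [Measure.sum_apply _ hS, tsum_congr fun k => (meas_map _ (hB k) (hBs k)).2 S hS]
  have hinj : InjOn π S := by
    have := (ch z).injOn.mono hz
    rwa [coe] at this
  simp only [coe]
  rw [← measure_iUnion]
  · rw [← image_iUnion, ← inter_iUnion, hU, inter_univ]
  · intro k l hkl
    exact ((hd hkl).mono inter_subset_right inter_subset_right).image hinj inter_subset_left
      inter_subset_left
  · intro k
    have := meas_img (ch z) (hS.inter (hB k)) (inter_subset_left.trans hz)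
    rwa [coe] at this

theorem lint_sheet (z : Ω) {S : Set Ω} (hS : MeasurableSet S) (hz : S ⊆ (D.ch z).source)
    {G : Ω → ℝ≥0∞} (hG : AEMeasurable G (D.ν.restrict S)) :
    ∫⁻ w in S, G w ∂D.ν = ∫⁻ y in D.π '' S, D.loc G z y := by
  obtain ⟨h1, h2⟩ := meas_map (D.ch z) hS hz
  have e : D.ν.restrict S = Measure.map (D.ch z).symm (volume.restrict (D.ch z '' S)) := by
    ext T hT
    rw [h2 T hT, Measure.restrict_apply hT, D.ν_ch z _ (hT.inter hS) (inter_subset_right.trans hz),
      D.coe]
  rw [e] at hG
  rw [e, lintegral_map' hG h1, D.coe]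
  rfl

theorem lint_fibre {G : Ω → ℝ≥0∞} (hG : Measurable G) :
    ∫⁻ w, G w ∂D.ν = ∫⁻ y, ∑' w : D.π ⁻¹' {y}, G w := by
  rcases isEmpty_or_nonempty Ω with h | h
  · simp [Subsingleton.elim D.ν 0]
  obtain ⟨u, B, hB, hBs, hd, hU⟩ := meas_pieces D.ch D.mem
  have hm : ∀ k, MeasurableSet (D.π '' B k) := fun k => by
    have := meas_img (D.ch (u k)) (hB k) (hBs k)
    rwa [D.coe] at this
  have hl : ∀ k, ∀ w ∈ B k, (D.ch (u k)).symm (D.π w) = w := fun k w hw => by
    have := (D.ch (u k)).left_inv (hBs k hw)
    rwa [D.coe] at this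
  rw [← setLIntegral_univ, ← hU, lintegral_iUnion hB hd,
    tsum_congr fun k => lint_sheet (u k) (hB k) (hBs k) hG.aemeasurable,
    tsum_congr fun k => (lintegral_indicator (hm k) _).symm, ← lintegral_tsum]
  · refine lintegral_congr fun y => ?_
    have e : ∀ w : D.π ⁻¹' {y}, G w = ∑' k, (B k).indicator G w := fun w => by
      obtain ⟨k, hk⟩ := mem_iUnion.1 (hU ▸ mem_univ w.1)
      rw [tsum_eq_single k fun l hl => indicator_of_notMem
        (fun h => (hd hl).notMem_of_mem_left h hk) _, indicator_of_mem hk]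
    rw [tsum_congr e, ENNReal.tsum_comm]
    refine tsum_congr fun k => ?_
    by_cases hy : y ∈ D.π '' B k
    · obtain ⟨w, hw, rfl⟩ := hy
      rw [indicator_of_mem (mem_image_of_mem _ hw), tsum_eq_single ⟨w, rfl⟩, indicator_of_mem hw]
      · simp only [loc, Function.comp, hl k w hw]
      · rintro ⟨w', hw'⟩ hne
        refine indicator_of_notMem (fun h => hne (Subtype.ext ?_)) _
        change w' = w
        rw [← hl k w' h, show D.π w' = D.π w from hw', hl k w hw]
    · rw [indicator_of_notMem hy]
      exact (ENNReal.tsum_eq_zero.2 fun w : D.π ⁻¹' {y} =>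
        indicator_of_notMem (fun h => hy ⟨w, h, w.2⟩) _).symm
  · intro k
    rw [aemeasurable_indicator_iff (hm k)]
    have := (meas_map (D.ch (u k)) (hB k) (hBs k)).1
    rw [D.coe] at this
    exact hG.comp_aemeasurable this

theorem locallyCompact (D : EtDom n Ω) : LocallyCompactSpace Ω := by
  let _ : ChartedSpace (E n) Ω := ⟨range D.ch, D.ch, D.mem, fun z => mem_range_self z⟩
  exact ChartedSpace.locallyCompactSpace (E n) Ω

theorem finiteOnCompacts (D : EtDom n Ω) : IsFiniteMeasureOnCompacts D.ν := by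
  have : IsLocallyFiniteMeasure D.ν := ⟨fun z => by
    refine ⟨(D.ch z).source ∩ D.π ⁻¹' Metric.ball (D.π z) 1, inter_mem
      ((D.ch z).open_source.mem_nhds (D.mem z))
      (continuous_π.continuousAt.preimage_mem_nhds (Metric.ball_mem_nhds _ one_pos)), ?_⟩
    rw [D.ν_ch z _ ((D.ch z).open_source.inter
      (Metric.isOpen_ball.preimage continuous_π)).measurableSet inter_subset_left]
    refine (measure_mono ?_).trans_lt (measure_ball_lt_top (x := D.π z) (r := 1))
    rintro _ ⟨w, hw, rfl⟩
    exact hw.2⟩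
  infer_instance

theorem openPos (D : EtDom n Ω) : D.ν.IsOpenPosMeasure := ⟨fun U hU ⟨z, hz⟩ => by
  have ho := hU.inter (D.ch z).open_source
  have h1 := (D.ch z).isOpen_image_of_subset_source ho inter_subset_right
  rw [D.coe] at h1
  refine ((h1.measure_pos volume ⟨_, z, ⟨hz, D.mem z⟩, rfl⟩).trans_le ?_).ne'
  rw [← D.ν_ch z _ ho.measurableSet inter_subset_right]
  exact measure_mono inter_subset_left⟩

theorem sigmaFinite (D : EtDom n Ω) : SigmaFinite D.ν := by
  have := D.locallyCompact
  have := D.finiteOnCompacts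
  infer_instance

end EtDom

/-- The coordinate space as an etale domain over itself. -/
def EtDom.triv (n : ℕ) : EtDom n (E n) where
  π := id
  ch := fun _ => OpenPartialHomeomorph.refl _
  mem := fun _ => mem_univ _
  coe := fun _ => rfl
  ν := volume
  ν_ch := fun _ S _ _ => by rw [image_id]

end Vale.Agent.P271
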