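import Vale.Agent.P271.H.Psh
import Vale.Agent.P271.H.Meas

/-! P271 H/Nbhd: small Stein neighbourhoods and cutoff functions.

Plan. `stein_nhds`: `W = source ∩ {q < r ^ 2}` with `q w = ∑ |π w j - π z j| ^ 2` and `r` so small that
`closedBall (π z) r` lies in the target and its preimage in `N`; `u = log (1 + q)` is psh
(`psh_log_sq`), the exhaustion is `ρ = (log (1 + r ^ 2) - u)⁻¹` (`Psh.comp`).
`exists_cutoff`: a `ContDiffBump (π z)` composed with `π` on the source, zero elsewhere.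
`cutoff_bound`: `levi_log_sq` with `s = π`, `d_π`, and continuity of `db j ζ`, `π` on the compact
support; outside the support `ζ` vanishes near the point. Auxiliary names start with `nbhd_`. -/

open MeasureTheory Set Filter Topology
open scoped ContDiff ENNReal ComplexConjugate

noncomputable section

namespace Vale.Agent.P271

namespace EtDom

variable {n : ℕ} {Ω : Type} [TopologicalSpace Ω] [T2Space Ω] [SecondCountableTopology Ω]
  [MeasurableSpace Ω] [BorelSpace Ω] {D : EtDom n Ω}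

theorem nbhd_ball (D : EtDom n Ω) {z : Ω} {N : Set Ω} (hN : N ∈ 𝓝 z) :
    ∃ r : ℝ, 0 < r ∧ IsCompact ((D.ch z).source ∩ D.π ⁻¹' Metric.closedBall (D.π z) r) ∧
      (D.ch z).source ∩ D.π ⁻¹' Metric.closedBall (D.π z) r ⊆ N := by
  have h1 : (D.ch z).target ∈ 𝓝 (D.π z) := by
    rw [← D.coe z]
    exact (D.ch z).open_target.mem_nhds ((D.ch z).map_source (D.mem z))
  obtain ⟨r, hr, hs⟩ := Metric.nhds_basis_closedBall.mem_iff.1
    (inter_mem h1 (tendsto_symm (D := D) z hN))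
  have ht : Metric.closedBall (D.π z) r ⊆ (D.ch z).target := hs.trans inter_subset_left
  have e := (D.ch z).symm_image_eq_source_inter_preimage ht
  rw [D.coe z] at e
  refine ⟨r, hr, ?_, ?_⟩
  · rw [← e]
    exact (isCompact_closedBall _ _).image_of_continuousOn ((D.ch z).continuousOn_symm.mono ht)
  · rw [← e]
    rintro _ ⟨y, hy, rfl⟩
    exact (hs hy).2

theorem nbhd_chi {c x : ℝ} (h : x < c) : ContDiffAt ℝ ∞ (fun x => (c - x)⁻¹) x ∧
    0 ≤ deriv (fun x => (c - x)⁻¹) x ∧ 0 ≤ deriv (deriv fun x => (c - x)⁻¹) x := by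
  have h0 : 0 < c - x := sub_pos.2 h
  have e : deriv (fun x => (c - x)⁻¹) = fun x => ((c - x) ^ 2)⁻¹ := by
    funext y
    rw [deriv_comp_const_sub (f := fun x : ℝ => x⁻¹), deriv_inv, neg_neg]
  refine ⟨(contDiffAt_const.sub contDiffAt_id).inv h0.ne', ?_, ?_⟩
  · rw [e]
    positivity
  · have h1 : HasDerivAt (fun x => ((c - x) ^ 2)⁻¹) _ x :=
      (((hasDerivAt_id' x).const_sub c).fun_pow 2).fun_inv (pow_pos h0 2).ne'
    rw [e, h1.deriv]
    refine div_nonneg ?_ (by positivity)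
    norm_num
    exact h.le

theorem stein_nhds {z : Ω} {N : Set Ω} (hN : N ∈ 𝓝 z) :
    ∃ W, D.Stein W ∧ z ∈ W ∧ closure W ⊆ N ∧ IsCompact (closure W) := by
  obtain ⟨r, hr, hK, hKN⟩ := nbhd_ball D hN
  obtain ⟨q, hq⟩ : ∃ q : Ω → ℝ, q = fun w => ∑ j, ‖D.π w j - D.π z j‖ ^ 2 := ⟨_, rfl⟩
  have hq0 : ∀ w, 0 ≤ q w := fun w => by
    rw [hq]
    positivity
  have hc : Continuous q := by
    have := continuous_π (D := D)
    rw [hq]
    fun_prop
  have hb : ∀ w, q w ≤ r ^ 2 → D.π w ∈ Metric.closedBall (D.π z) r := by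
    intro w hw
    rw [Metric.mem_closedBall, dist_pi_le_iff hr.le]
    intro j
    rw [dist_eq_norm]
    refine (pow_le_pow_iff_left₀ (norm_nonneg _) hr.le two_ne_zero).1 ?_
    refine le_trans ?_ hw
    rw [hq]
    exact Finset.single_le_sum (f := fun j => ‖D.π w j - D.π z j‖ ^ 2) (fun _ _ => sq_nonneg _)
      (Finset.mem_univ j)
  have hlt : ∀ w, q w < r ^ 2 → Real.log (1 + q w) < Real.log (1 + r ^ 2) := fun w hw =>
    Real.log_lt_log (by linarith [hq0 w]) (by linarith)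
  have hcl : closure ((D.ch z).source ∩ {w | q w < r ^ 2}) ⊆
      (D.ch z).source ∩ D.π ⁻¹' Metric.closedBall (D.π z) r :=
    closure_minimal (fun w hw => ⟨hw.1, hb w (le_of_lt hw.2)⟩) hK.isClosed
  refine ⟨(D.ch z).source ∩ {w | q w < r ^ 2},
    ⟨(D.ch z).open_source.inter (isOpen_lt hc continuous_const),
      fun w => (Real.log (1 + r ^ 2) - Real.log (1 + q w))⁻¹, fun w hw => ?_, fun τ => ?_⟩,
    ⟨D.mem z, ?_⟩, hcl.trans hKN, hK.of_isClosed_subset isClosed_closure hcl⟩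
  · have hu : D.Psh (fun w => Real.log (1 + q w)) w := by
      rw [hq]
      exact psh_log_sq (s := fun j w => D.π w j - D.π z j)
        (fun j => (holAt_π j).sub (holAt_const _)) one_pos
    obtain ⟨h1, h2, h3⟩ := nbhd_chi (hlt w hw.2)
    exact hu.comp h1 h2 h3
  · have hl : Continuous fun w => Real.log (1 + q w) :=
      (continuous_const.add hc).log fun w => (add_pos_of_pos_of_nonneg one_pos (hq0 w)).ne'
    have hC : IsClosed {w | q w ≤ r ^ 2 ∧
        1 ≤ τ * (Real.log (1 + r ^ 2) - Real.log (1 + q w))} :=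
      (isClosed_le hc continuous_const).inter
        (isClosed_le continuous_const (continuous_const.mul (continuous_const.sub hl)))
    have e : {w | w ∈ (D.ch z).source ∩ {w | q w < r ^ 2} ∧
        (Real.log (1 + r ^ 2) - Real.log (1 + q w))⁻¹ ≤ τ} =
        ((D.ch z).source ∩ D.π ⁻¹' Metric.closedBall (D.π z) r) ∩ {w | q w ≤ r ^ 2 ∧
          1 ≤ τ * (Real.log (1 + r ^ 2) - Real.log (1 + q w))} := by
      ext w
      constructor
      · rintro ⟨⟨h1, h2⟩, h3⟩
        exact ⟨⟨h1, hb w (le_of_lt h2)⟩, le_of_lt h2,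
          (inv_le_iff_one_le_mul₀ (sub_pos.2 (hlt w h2))).1 h3⟩
      · rintro ⟨⟨h1, -⟩, h2, h3⟩
        have h4 : q w < r ^ 2 := by
          refine lt_of_le_of_ne h2 fun h => ?_
          rw [h, sub_self, mul_zero] at h3
          linarith
        exact ⟨⟨h1, h4⟩, (inv_le_iff_one_le_mul₀ (sub_pos.2 (hlt w h4))).2 h3⟩
    rw [e]
    exact hK.inter_right hC
  · show q z < r ^ 2
    rw [hq]
    simp only [sub_self, norm_zero, ne_eq, OfNat.ofNat_ne_zero, not_false_eq_true, zero_pow,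
      Finset.sum_const_zero]
    positivity

theorem exists_cutoff {z : Ω} {N : Set Ω} (hN : N ∈ 𝓝 z) :
    ∃ ζ : Ω → ℂ, D.Test ζ ∧ tsupport ζ ⊆ N ∧ (∀ w, ‖ζ w‖ ≤ 1) ∧ ∀ᶠ w in 𝓝 z, ζ w = 1 := by
  classical
  obtain ⟨r, hr, hK, hKN⟩ := nbhd_ball D hN
  let f : ContDiffBump (D.π z) := ⟨r / 2, r, by linarith, by linarith⟩
  have h1 : ∀ w ∈ (D.ch z).source, (fun w => if w ∈ (D.ch z).source then (f (D.π w) : ℂ) else 0)
      =ᶠ[𝓝 w] fun w => (f (D.π w) : ℂ) := fun w hw => by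
    filter_upwards [(D.ch z).open_source.mem_nhds hw] with x hx
    exact if_pos hx
  have h0 : ∀ w, w ∉ (D.ch z).source ∩ D.π ⁻¹' Metric.closedBall (D.π z) r →
      (if w ∈ (D.ch z).source then (f (D.π w) : ℂ) else 0) = 0 := by
    intro w hw
    split_ifs with h
    · have : r < dist (D.π w) (D.π z) := not_le.1 fun h' => hw ⟨h, h'⟩
      rw [f.zero_of_le_dist this.le, Complex.ofReal_zero]
    · rfl
  refine ⟨fun w => if w ∈ (D.ch z).source then (f (D.π w) : ℂ) else 0,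
    ⟨fun w => ?_, HasCompactSupport.intro hK h0⟩, ?_, fun w => ?_, ?_⟩
  · by_cases hw : w ∈ (D.ch z).source
    · exact ((smAt_π.comp f.contDiff.contDiffAt).ofReal).congr (h1 w hw).symm
    · refine (smAt_const (0 : ℂ)).congr ?_
      filter_upwards [hK.isClosed.isOpen_compl.mem_nhds fun h => hw h.1] with x hx
      exact (h0 x hx).symm
  · refine (closure_minimal (fun w hw => ?_) hK.isClosed).trans hKN
    by_contra h
    exact hw (h0 w h)
  · beta_reduce
    split_ifs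
    · rw [Complex.norm_real, Real.norm_of_nonneg f.nonneg]
      exact f.le_one
    · rw [norm_zero]
      exact zero_le_one
  · filter_upwards [h1 z (D.mem z), (continuous_π (D := D)).continuousAt.eventually
      f.eventuallyEq_one] with w h2 h3
    rw [h2, h3, Pi.one_apply, Complex.ofReal_one]

theorem cutoff_bound {ζ : Ω → ℂ} (hζ : D.Test ζ) :
    ∃ C : ℝ, 0 ≤ C ∧ ∀ w v, ‖∑ j, D.db j ζ w * conj (v j)‖ ^ 2 ≤
      C * D.levi (fun w => Real.log (1 + ∑ j, ‖D.π w j‖ ^ 2)) w v := by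
  have hπ := continuous_π (D := D)
  have hd : ∀ j, Continuous (D.db j ζ) := fun j =>
    continuous_iff_continuousAt.2 fun w => ((hζ.1 w).db j).continuousAt
  have hc : Continuous fun w => (∑ j, ‖D.db j ζ w‖ ^ 2) * (1 + ∑ j, ‖D.π w j‖ ^ 2) ^ 2 := by
    fun_prop
  obtain ⟨C, hC⟩ := hζ.2.isCompact.exists_bound_of_continuousOn hc.continuousOn
  have hb : ∀ w, (∑ j, ‖D.db j ζ w‖ ^ 2) * (1 + ∑ j, ‖D.π w j‖ ^ 2) ^ 2 ≤ max C 0 := by
    intro w
    by_cases hw : w ∈ tsupport ζ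
    · exact (le_abs_self _).trans ((hC w hw).trans (le_max_left _ _))
    · have h0 : ∀ j, D.db j ζ w = 0 := fun j =>
        (db_congr j (notMem_tsupport_iff_eventuallyEq.1 hw)).trans (db_const j 0)
      simp [h0]
  refine ⟨max C 0, le_max_right _ _, fun w v => ?_⟩
  have h1 := levi_log_sq v (s := fun j w => D.π w j) (z := w) (fun j => holAt_π j) one_pos
  simp only [d_π, ite_mul, one_mul, zero_mul, Finset.sum_ite_eq', Finset.mem_univ, if_true] at h1
  have h2 : ‖∑ j, D.db j ζ w * conj (v j)‖ ^ 2 ≤ (∑ j, ‖D.db j ζ w‖ ^ 2) * ∑ j, ‖v j‖ ^ 2 := by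
    refine le_trans (pow_le_pow_left₀ (norm_nonneg _) (norm_sum_le _ _) 2) ?_
    simp only [norm_mul, Complex.norm_conj]
    exact Finset.sum_mul_sq_le_sq_mul_sq _ _ _
  have hP : 0 < (1 + ∑ j, ‖D.π w j‖ ^ 2) ^ 2 := by positivity
  calc _ ≤ _ := h2
    _ = (∑ j, ‖D.db j ζ w‖ ^ 2) * (1 + ∑ j, ‖D.π w j‖ ^ 2) ^ 2 *
        ((∑ j, ‖v j‖ ^ 2) / (1 + ∑ j, ‖D.π w j‖ ^ 2) ^ 2) := by field_simp
    _ ≤ _ := mul_le_mul (hb w) h1 (by positivity) (le_max_right _ _)

end EtDom

end Vale.Agent.P271
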