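import Vale.Agent.P271.H.HDefs

/-! P271 H/One: two functions of one real variable.

Plan. `κ = Real.smoothTransition`; its derivative is continuous and vanishes outside `Icc 0 1`
(locally constant there), hence bounded. `θ s = ∫ t in 0..s, κ t`
(`intervalIntegral.integral_hasDerivAt_right` / `Continuous.deriv_integral`,
`contDiff_infty_iff_deriv`), `deriv θ = κ`, `deriv κ ≥ 0` by `Real.smoothTransition.monotone`
(`Monotone.deriv_nonneg`). Auxiliary names start with `one_`. -/

open MeasureTheory Set Filter Topology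
open scoped ContDiff ENNReal ComplexConjugate Convolution

noncomputable section

namespace Vale.Agent.P271

theorem exists_kappa : ∃ (κ : ℝ → ℝ) (C : ℝ), ContDiff ℝ ∞ κ ∧ (∀ s, 0 ≤ κ s ∧ κ s ≤ 1) ∧
    (∀ s ≤ 0, κ s = 0) ∧ (∀ s, 1 ≤ s → κ s = 1) ∧ (∀ s, |deriv κ s| ≤ C) ∧
    ∀ s, s < 0 ∨ 1 < s → deriv κ s = 0 := by
  have h0 : ∀ s, s < 0 ∨ 1 < s → deriv Real.smoothTransition s = 0 := by
    rintro s (hs | hs)
    · have : Real.smoothTransition =ᶠ[𝓝 s] fun _ => 0 :=
        (gt_mem_nhds hs).mono fun t ht => Real.smoothTransition.zero_of_nonpos ht.le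
      simp [this.deriv_eq]
    · have : Real.smoothTransition =ᶠ[𝓝 s] fun _ => 1 :=
        (lt_mem_nhds hs).mono fun t ht => Real.smoothTransition.one_of_one_le ht.le
      simp [this.deriv_eq]
  have hc : ContDiff ℝ ∞ Real.smoothTransition := Real.smoothTransition.contDiff
  obtain ⟨C, hC⟩ := (hc.continuous_deriv (by simp)).bounded_above_of_compact_support
    (HasCompactSupport.intro (isCompact_Icc (a := (0 : ℝ)) (b := 1)) fun s hs => h0 s (by
      rw [mem_Icc, not_and_or, not_le, not_le] at hs
      exact hs))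
  exact ⟨_, C, hc, fun s => ⟨Real.smoothTransition.nonneg s, Real.smoothTransition.le_one s⟩,
    fun s => Real.smoothTransition.zero_of_nonpos, fun s => Real.smoothTransition.one_of_one_le,
    hC, h0⟩

theorem exists_theta : ∃ θ : ℝ → ℝ, ContDiff ℝ ∞ θ ∧ (∀ s ≤ 0, θ s = 0) ∧ (∀ s, 0 ≤ θ s) ∧
    (∀ s, 0 ≤ deriv θ s) ∧ (∀ s, 0 ≤ deriv (deriv θ) s) ∧ ∀ s, 2 ≤ s → 1 ≤ θ s := by
  have hc : ContDiff ℝ ∞ Real.smoothTransition := Real.smoothTransition.contDiff
  have hd : ∀ s, HasDerivAt (fun s => ∫ t in (0 : ℝ)..s, Real.smoothTransition t)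
      (Real.smoothTransition s) s := fun s =>
    (hc.continuous.integral_hasStrictDerivAt 0 s).hasDerivAt
  have e : deriv (fun s => ∫ t in (0 : ℝ)..s, Real.smoothTransition t) = Real.smoothTransition :=
    funext fun s => (hd s).deriv
  have h0 : ∀ s ≤ 0, ∫ t in (0 : ℝ)..s, Real.smoothTransition t = 0 := fun s hs => by
    rw [intervalIntegral.integral_congr (g := fun _ => 0) fun t ht => ?_]
    · simp
    · rw [uIcc_of_ge hs] at ht
      exact Real.smoothTransition.zero_of_nonpos ht.2
  have h1 : ∀ s, 0 ≤ ∫ t in (0 : ℝ)..s, Real.smoothTransition t := fun s => by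
    rcases le_total s 0 with hs | hs
    · exact (h0 s hs).ge
    · exact intervalIntegral.integral_nonneg hs fun t _ => Real.smoothTransition.nonneg t
  refine ⟨fun s => ∫ t in (0 : ℝ)..s, Real.smoothTransition t,
    contDiff_infty_iff_deriv.2 ⟨fun s => (hd s).differentiableAt, by rw [e]; exact hc⟩, h0, h1,
    fun s => ?_, fun s => ?_, fun s hs => ?_⟩
  · rw [e]
    exact Real.smoothTransition.nonneg s
  · rw [e]
    exact Real.smoothTransition.monotone.deriv_nonneg
  · have h2 : ∫ t in (1 : ℝ)..s, Real.smoothTransition t = s - 1 := by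
      rw [intervalIntegral.integral_congr (g := fun _ => 1) fun t ht => ?_]
      · simp
      · rw [uIcc_of_le (by linarith)] at ht
        exact Real.smoothTransition.one_of_one_le ht.1
    have h3 := intervalIntegral.integral_add_adjacent_intervals (μ := volume)
      (hc.continuous.intervalIntegrable 0 1) (hc.continuous.intervalIntegrable 1 s)
    linarith [h1 1]

end Vale.Agent.P271
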