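import Vale.Agent.P271.H.L2

/-! P271 H/Op: rules for `fd`, test functions, the weak product rule.

Plan. As in `H/Calc`: `loc (f * g) z = loc f z * loc g z` by `rfl`, `fderiv_fun_mul`, `map_add`,
`map_smul`. `SmAt.op`: as `loc_d` / `SmAt.d` (`loc_ev`, `ContDiffAt.fderiv_right`, the map `ℓ` is
real continuous linear: `ℓ.restrictScalars ℝ`). Supports: `HasCompactSupport.intro`,
`HasCompactSupport.mul_left`, `notMem_tsupport_iff_eventuallyEq`. `Test.memLp`:
`Continuous.memLp_of_hasCompactSupport` with `finiteOnCompacts`. `Weak.mul`: test with `a * v`, the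
integrands agree pointwise (`op_mul`, `Finset.sum_add_distrib`). Auxiliary names start with `op_`. -/

open MeasureTheory Set Filter Topology
open scoped ContDiff ENNReal ComplexConjugate Convolution

noncomputable section

namespace Vale.Agent.P271

namespace EtDom

variable {n : ℕ} {Ω : Type} [TopologicalSpace Ω] [T2Space Ω] [SecondCountableTopology Ω]
  [MeasurableSpace Ω] [BorelSpace Ω] {D : EtDom n Ω}

variable {z : Ω} {f g v v' : Ω → ℂ}

theorem fd_congr (h : f =ᶠ[𝓝 z] g) : D.fd f z = D.fd g z :=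
  (loc_congr h).fderiv_eq

theorem fd_const (c : ℂ) : D.fd (fun _ => c) z = 0 :=
  (hasFDerivAt_const c _).fderiv

theorem fd_zero (h : z ∉ tsupport f) : D.fd f z = 0 :=
  (fd_congr (notMem_tsupport_iff_eventuallyEq.1 h)).trans (fd_const 0)

theorem fd_zero' {K : Set Ω} (hK : IsCompact K) (h : ∀ w, w ∉ K → f w = 0) (hz : z ∉ K) :
    D.fd f z = 0 :=
  (fd_congr (mem_of_superset (hK.isClosed.isOpen_compl.mem_nhds hz) h)).trans (fd_const 0)

theorem fd_sum {ι : Type} {s : Finset ι} {f : ι → Ω → ℂ} (hf : ∀ i ∈ s, D.SmAt (f i) z) :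
    D.fd (fun w => ∑ i ∈ s, f i w) z = ∑ i ∈ s, D.fd (f i) z :=
  fderiv_fun_sum (A := fun i => D.loc (f i) z) fun i hi => (hf i hi).calc_diff

theorem fd_comp_π (U : E n → ℂ) (z : Ω) : D.fd (fun w => U (D.π w)) z = fderiv ℝ U (D.π z) := by
  refine EventuallyEq.fderiv_eq ?_
  filter_upwards [calc_near (D := D) D.π z] with y hy
  exact congrArg U hy.1

theorem op_mul (ℓ : Op n) (hf : D.SmAt f z) (hg : D.SmAt g z) :
    ℓ (D.fd (fun w => f w * g w) z) = ℓ (D.fd f z) * g z + f z * ℓ (D.fd g z) := by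
  have h : D.fd (fun w => f w * g w) z = _ :=
    (hf.calc_diff.hasFDerivAt.mul hg.calc_diff.hasFDerivAt).fderiv
  rw [h, map_add, map_smul, map_smul, loc_self, loc_self, smul_eq_mul, smul_eq_mul]
  simp only [fd]
  ring

theorem SmAt.op (hf : D.SmAt f z) (ℓ : Op n) : D.SmAt (fun w => ℓ (D.fd f w)) z := by
  refine ContDiffAt.congr_of_eventuallyEq ((ℓ.restrictScalars ℝ).contDiff.contDiffAt.comp _
    (ContDiffAt.fderiv_right (m := ∞) hf (by simp))) ?_
  filter_upwards [calc_near (D := D) f z] with y hy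
  simp only [loc, Function.comp, fd, hy.1]
  rw [show fderiv ℝ (f ∘ (D.ch ((D.ch z).symm y)).symm) y = _ from hy.2.fderiv_eq]
  rfl

theorem SmAt.rexp {u : Ω → ℝ} (hu : D.SmAt u z) : D.SmAt (fun w => Real.exp (u w)) z :=
  hu.comp Real.contDiff_exp.contDiffAt

theorem SmAt.rneg {u : Ω → ℝ} (hu : D.SmAt u z) : D.SmAt (fun w => -u w) z :=
  ContDiffAt.neg hu

theorem cont_of_sm {F : Type} [NormedAddCommGroup F] [NormedSpace ℝ F] {u : Ω → F}
    (hu : ∀ z, D.SmAt u z) : Continuous u :=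
  continuous_iff_continuousAt.2 fun z => (hu z).continuousAt

theorem test_of_zero {K : Set Ω} (hK : IsCompact K) (hs : ∀ z, D.SmAt v z)
    (h0 : ∀ z, z ∉ K → v z = 0) : D.Test v :=
  ⟨hs, HasCompactSupport.intro hK h0⟩

theorem test_zero : D.Test fun _ => 0 :=
  ⟨fun _ => smAt_const 0, HasCompactSupport.zero⟩

theorem Test.continuous (hv : D.Test v) : Continuous v :=
  cont_of_sm hv.1

theorem Test.mul_left (hv : D.Test v) (hf : ∀ z, D.SmAt f z) : D.Test fun w => f w * v w :=
  ⟨fun z => (hf z).mul (hv.1 z), hv.2.mul_left⟩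

theorem Test.mul_right (hv : D.Test v) (hf : ∀ z, D.SmAt f z) : D.Test fun w => v w * f w :=
  ⟨fun z => (hv.1 z).mul (hf z), hv.2.mul_right⟩

theorem Test.add (hv : D.Test v) (hv' : D.Test v') : D.Test fun w => v w + v' w :=
  ⟨fun z => (hv.1 z).add (hv'.1 z), hv.2.add hv'.2⟩

theorem Test.sub (hv : D.Test v) (hv' : D.Test v') : D.Test fun w => v w - v' w :=
  ⟨fun z => (hv.1 z).sub (hv'.1 z), hv.2.sub hv'.2⟩

theorem Test.sum {ι : Type} {s : Finset ι} {v : ι → Ω → ℂ} (hv : ∀ i ∈ s, D.Test (v i)) :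
    D.Test fun w => ∑ i ∈ s, v i w := by
  classical
  induction s using Finset.induction_on with
  | empty => simpa using test_zero
  | insert a s ha ih =>
    simp only [Finset.sum_insert ha]
    exact (hv a (Finset.mem_insert_self a s)).add
      (ih fun i hi => hv i (Finset.mem_insert_of_mem hi))

theorem Test.conj (hv : D.Test v) : D.Test fun w => conj (v w) :=
  ⟨fun z => (hv.1 z).conj, hv.2.comp_left (g := conj) (map_zero _)⟩

theorem Test.op (hv : D.Test v) (ℓ : Op n) : D.Test fun w => ℓ (D.fd v w) :=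
  test_of_zero hv.2 (fun z => (hv.1 z).op ℓ) fun z hz => by rw [fd_zero hz, map_zero]

theorem Test.d (hv : D.Test v) (j : Fin n) : D.Test (D.d j v) := by
  rw [show D.d j v = _ from funext (D.d_eq j v)]
  exact hv.op _

theorem Test.db (hv : D.Test v) (j : Fin n) : D.Test (D.db j v) := by
  rw [show D.db j v = _ from funext (D.db_eq j v)]
  exact hv.op _

theorem test_dvb {α : Fin n → Ω → ℂ} (hα : ∀ j, D.Test (α j)) : D.Test (D.dvb α) :=
  Test.sum fun j _ => (hα j).db j

theorem Test.memLp (hv : D.Test v) : MemLp v 2 D.ν := by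
  have := D.finiteOnCompacts
  exact hv.continuous.memLp_of_hasCompactSupport hv.2

theorem Test.integrable (hv : D.Test v) : Integrable v D.ν := by
  have := D.finiteOnCompacts
  exact hv.continuous.integrable_of_hasCompactSupport hv.2

theorem Test.bdd (hv : D.Test v) : ∃ C, 0 ≤ C ∧ ∀ z, ‖v z‖ ≤ C := by
  obtain ⟨C, hC⟩ := hv.continuous.bounded_above_of_compact_support hv.2
  exact ⟨max C 0, le_max_right _ _, fun z => (hC z).trans (le_max_left _ _)⟩

theorem Test.mul_memLp (hv : D.Test v) (hf : MemLp f 2 D.ν) : MemLp (fun z => v z * f z) 2 D.ν := by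
  obtain ⟨C, -, hC⟩ := hv.bdd
  exact memLp_bdd_mul hf hv.continuous.aestronglyMeasurable hC

theorem Weak.mul {ι : Type} [Fintype ι] {ℓ : ι → Op n} {β : ι → Ω → ℂ} {w a : Ω → ℂ}
    (h : D.Weak ℓ β w) (ha : ∀ z, D.SmAt a z) :
    D.Weak ℓ (fun i z => a z * β i z) (fun z => a z * w z + ∑ i, ℓ i (D.fd a z) * β i z) := by
  intro v hv
  rw [← h _ (hv.mul_left ha)]
  refine integral_congr_ae (Eventually.of_forall fun z => ?_)
  simp only [op_mul _ (ha z) (hv.1 z), mul_add, add_mul, Finset.sum_add_distrib, Finset.sum_mul]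
  rw [add_comm (∑ i, β i z * (ℓ i (D.fd a z) * v z)), add_assoc, add_comm (a z * w z * v z)]
  congr 1
  · exact Finset.sum_congr rfl fun i _ => by ring
  · congr 1
    · exact Finset.sum_congr rfl fun i _ => by ring
    · ring

end EtDom

end Vale.Agent.P271
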