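import Vale.Agent.P271.H.Calc

/-! P271 H/Psh: the Levi form.

Plan. `SmAt u z` gives `ContDiffAt ℝ 2` in the sheet, which holds near the point, so first order
rules for `db` hold eventually near `z` (prove `C ^ 1` versions in the sheet, or redo the one line
`fderiv` computations); then apply `d_congr` and the rules for `d`. `levi_comp`:
`db (χ ∘ u) = χ' (u) db u` near `z`. `psh_lse`: with `P = ∑ exp (u i)`, `p i = exp (u i) / P`, the Levi
form is `∑ p i levi (u i) + ∑ p i |dv (u i)| ^ 2 - |∑ p i dv (u i)| ^ 2 ≥ 0` (Cauchy-Schwarz).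
`levi_log_sq`: with `P = ε + ∑ |s i| ^ 2`, `a i = ∑ j, d j (s i) v j`: `levi P = ∑ |a i| ^ 2`,
`dv P = ∑ a i conj (s i)`, `levi (log P) = (P ∑ |a i| ^ 2 - |dv P| ^ 2) / P ^ 2 ≥ ε ∑ |a i| ^ 2 / P ^ 2`.
`levi_log_unit`: `db k (log |u| ^ 2) = conj (d k u / u)` near `z`, which is killed by `d j`.
Auxiliary names start with `psh_`. -/

open MeasureTheory Set Filter Topology
open scoped ContDiff ENNReal ComplexConjugate

noncomputable section

namespace Vale.Agent.P271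

namespace EtDom

variable {n : ℕ} {Ω : Type} [TopologicalSpace Ω] [MeasurableSpace Ω] {D : EtDom n Ω}

variable {z : Ω} {u u' : Ω → ℝ} (v : E n)

theorem psh_near {F : Type} [NormedAddCommGroup F] [NormedSpace ℝ F] {f : Ω → F}
    (hf : D.SmAt f z) : ∀ᶠ w in 𝓝 z, DifferentiableAt ℝ (D.loc f w) (D.π w) := by
  have h0 : ContDiffAt ℝ 1 (D.loc f z) (D.π z) := ContDiffAt.of_le hf (by simp)
  filter_upwards [continuous_π.continuousAt.eventually (h0.eventually (by simp)),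
    (D.ch z).open_source.mem_nhds (D.mem z)] with w hw hs
  exact (hw.differentiableAt one_ne_zero).congr_of_eventuallyEq (loc_ev f hs).symm

theorem psh_add {f g : Ω → ℂ} (hf : D.SmAt f z) (hg : D.SmAt g z) (j k : Fin n) :
    D.d j (D.db k fun w => f w + g w) z = D.d j (D.db k f) z + D.d j (D.db k g) z := by
  rw [← d_add j (hf.db k) (hg.db k)]
  refine d_congr j ?_
  filter_upwards [psh_near hf, psh_near hg] with w h1 h2
  have h : fderiv ℝ (D.loc (fun w => f w + g w) w) (D.π w) = _ :=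
    (h1.hasFDerivAt.add h2.hasFDerivAt).fderiv
  simp only [db, dzb, h, add_apply]
  ring

theorem psh_mul {f g : Ω → ℂ} (hf : D.SmAt f z) (hg : D.SmAt g z) (j k : Fin n) :
    D.d j (D.db k fun w => f w * g w) z = D.d j (D.db k f) z * g z + D.db k f z * D.d j g z +
      (D.d j f z * D.db k g z + f z * D.d j (D.db k g) z) := by
  rw [← d_mul j (hf.db k) hg, ← d_mul j hf (hg.db k), ← d_add j ((hf.db k).mul hg) (hf.mul (hg.db k))]
  refine d_congr j ?_
  filter_upwards [psh_near hf, psh_near hg] with w h1 h2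
  have h : fderiv ℝ (D.loc (fun w => f w * g w) w) (D.π w) = _ :=
    (h1.hasFDerivAt.mul h2.hasFDerivAt).fderiv
  simp only [db, dzb, h, add_apply, smul_apply, loc_self, smul_eq_mul]
  ring

theorem psh_deriv {χ : ℝ → ℝ} {x : ℝ} (hχ : ContDiffAt ℝ ∞ χ x) : ContDiffAt ℝ ∞ (deriv χ) x :=
  (hχ.fderiv_right (m := ∞) (by simp)).clm_apply contDiffAt_const

theorem psh_has {χ : ℝ → ℝ} {x : ℝ} (hχ : ContDiffAt ℝ ∞ χ x) : HasDerivAt χ (deriv χ x) x :=
  (hχ.differentiableAt (by simp)).hasDerivAt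

theorem psh_comp (hu : D.SmAt u z) {χ : ℝ → ℝ} (hχ : ContDiffAt ℝ ∞ χ (u z)) (j k : Fin n) :
    D.d j (D.db k fun w => (χ (u w) : ℂ)) z =
      deriv (deriv χ) (u z) * D.d j (fun w => (u w : ℂ)) z * conj (D.d k (fun w => (u w : ℂ)) z) +
        deriv χ (u z) * D.d j (D.db k fun w => (u w : ℂ)) z := by
  rw [← db_ofReal k hu, ← d_comp j hu (psh_has (psh_deriv hχ)),
    ← d_mul j (hu.comp (psh_deriv hχ)).ofReal (hu.ofReal.db k)]
  refine d_congr j ?_
  have h0 : ContDiffAt ℝ 1 χ (u z) := hχ.of_le (by simp)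
  filter_upwards [psh_near hu, hu.continuousAt.eventually (h0.eventually (by simp))] with w h1 h2
  have e1 : HasFDerivAt (D.loc (fun w => (u w : ℂ)) w) _ (D.π w) :=
    Complex.ofRealCLM.hasFDerivAt.comp _ h1.hasFDerivAt
  have e2 : HasFDerivAt (D.loc (fun w => (χ (u w) : ℂ)) w) _ (D.π w) :=
    Complex.ofRealCLM.hasFDerivAt.comp _ (HasDerivAt.comp_hasFDerivAt_of_eq _
      (h2.differentiableAt one_ne_zero).hasDerivAt h1.hasFDerivAt (loc_self u w).symm)
  simp only [db, dzb, e1.fderiv, e2.fderiv, ContinuousLinearMap.comp_apply, smul_apply,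
    smul_eq_mul, Complex.ofRealCLM_apply, Complex.ofReal_mul]
  ring

theorem psh_zero {f : Ω → ℂ} (h : ∀ᶠ w in 𝓝 z, f w = 0) (j : Fin n) : D.d j f z = 0 :=
  (d_congr (g := fun _ => 0) j h).trans (d_const j 0)

omit [TopologicalSpace Ω] [MeasurableSpace Ω] in
theorem psh_nsq (f : Ω → ℂ) : (fun w => ((‖f w‖ ^ 2 : ℝ) : ℂ)) = fun w => f w * conj (f w) :=
  funext fun w => by rw [Complex.mul_conj', Complex.ofReal_pow]

theorem psh_dv_sq {f : Ω → ℂ} (hf : D.HolAt f z) :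
    D.dv (fun w => ‖f w‖ ^ 2) z v = (∑ j, D.d j f z * v j) * conj (f z) := by
  simp only [dv, psh_nsq, d_mul _ hf.smAt hf.smAt.conj, d_conj _ hf.smAt, hf.db_eq, map_zero,
    mul_zero, add_zero, Finset.sum_mul, mul_right_comm]

theorem psh_dv_sum {ι : Type} {s : Finset ι} {u : ι → Ω → ℝ} (hu : ∀ i ∈ s, D.SmAt (u i) z) :
    D.dv (fun w => ∑ i ∈ s, u i w) z v = ∑ i ∈ s, D.dv (u i) z v := by
  simp only [dv, Complex.ofReal_sum, d_sum _ fun i hi => (hu i hi).ofReal, Finset.sum_mul]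
  exact Finset.sum_comm

theorem psh_dv_comp (hu : D.SmAt u z) {χ : ℝ → ℝ} (hχ : ContDiffAt ℝ ∞ χ (u z)) :
    D.dv (fun w => χ (u w)) z v = deriv χ (u z) * D.dv u z v := by
  simp only [dv, d_comp _ hu (psh_has hχ), Finset.mul_sum, mul_assoc]

theorem psh_dv_cadd (hu : D.SmAt u z) (c : ℝ) : D.dv (fun w => c + u w) z v = D.dv u z v := by
  simp only [dv, Complex.ofReal_add, d_add _ (smAt_const (c : ℂ)) hu.ofReal, d_const, zero_add]

theorem psh_sq (a : Fin n → ℂ) :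
    ∑ j, ∑ k, a j * conj (a k) * v j * conj (v k) = ((‖∑ j, a j * v j‖ ^ 2 : ℝ) : ℂ) := by
  rw [Complex.ofReal_pow, ← Complex.mul_conj', map_sum, Finset.sum_mul_sum]
  refine Finset.sum_congr rfl fun j _ => Finset.sum_congr rfl fun k _ => ?_
  rw [map_mul]
  ring

theorem psh_levi_sq {f : Ω → ℂ} (hf : D.HolAt f z) :
    D.levi (fun w => ‖f w‖ ^ 2) z v = ‖∑ j, D.d j f z * v j‖ ^ 2 := by
  have h1 : ∀ j k, D.d j (D.db k f) z = 0 := fun j k =>
    psh_zero (hf.eventually.mono fun w hw => hw.db_eq k) j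
  have h2 : ∀ j k, D.d j (D.db k fun w => conj (f w)) z = 0 := fun j k => by
    rw [d_congr (g := fun w => conj (D.d k f w)) j
      (hf.eventually.mono fun w hw => db_conj k hw.smAt), d_conj j (hf.d k).smAt, (hf.d k).db_eq,
      map_zero]
  simp only [levi, psh_nsq, psh_mul hf.smAt hf.smAt.conj, h1, h2, hf.db_eq, db_conj _ hf.smAt,
    zero_mul, mul_zero, zero_add, add_zero]
  rw [psh_sq v fun j => D.d j f z, Complex.ofReal_re]

theorem levi_congr (h : u =ᶠ[𝓝 z] u') : D.levi u z v = D.levi u' z v := by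
  have h1 : ∀ j k, D.d j (D.db k fun w => (u w : ℂ)) z = D.d j (D.db k fun w => (u' w : ℂ)) z :=
    fun j k => d_congr j (h.eventuallyEq_nhds.mono fun w hw =>
      db_congr k (hw.fun_comp Complex.ofReal))
  simp only [levi, h1]

theorem levi_const (c : ℝ) : D.levi (fun _ => c) z v = 0 := by
  have h1 : ∀ j k, D.d j (D.db k fun _ => (c : ℂ)) z = 0 := fun j k =>
    psh_zero (Eventually.of_forall fun w => db_const k _) j
  simp only [levi, h1, zero_mul, Finset.sum_const_zero, Complex.zero_re]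

theorem levi_add (hu : D.SmAt u z) (hu' : D.SmAt u' z) :
    D.levi (fun w => u w + u' w) z v = D.levi u z v + D.levi u' z v := by
  simp only [levi, Complex.ofReal_add, psh_add hu.ofReal hu'.ofReal, add_mul,
    Finset.sum_add_distrib, Complex.add_re]

theorem levi_smul (hu : D.SmAt u z) (c : ℝ) :
    D.levi (fun w => c * u w) z v = c * D.levi u z v := by
  have h1 : ∀ j k, D.d j (D.db k fun _ => (c : ℂ)) z = 0 := fun j k =>
    psh_zero (Eventually.of_forall fun w => db_const k _) j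
  simp only [levi, Complex.ofReal_mul, psh_mul (smAt_const (c : ℂ)) hu.ofReal, h1, db_const,
    d_const, zero_mul, zero_add, mul_assoc, ← Finset.mul_sum, Complex.re_ofReal_mul]

theorem levi_comp (hu : D.SmAt u z) {χ : ℝ → ℝ} (hχ : ContDiffAt ℝ ∞ χ (u z)) :
    D.levi (fun w => χ (u w)) z v =
      deriv χ (u z) * D.levi u z v + deriv (deriv χ) (u z) * ‖D.dv u z v‖ ^ 2 := by
  have e := psh_sq v fun j => D.d j (fun w => (u w : ℂ)) z
  simp only [mul_assoc] at e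
  simp only [levi, dv, psh_comp hu hχ, add_mul, Finset.sum_add_distrib, mul_assoc,
    ← Finset.mul_sum (a := ((deriv χ (u z) : ℝ) : ℂ)),
    ← Finset.mul_sum (a := ((deriv (deriv χ) (u z) : ℝ) : ℂ)), e, Complex.add_re, Complex.re_ofReal_mul, Complex.ofReal_re, add_comm]

theorem psh_levi_sum {ι : Type} {s : Finset ι} {u : ι → Ω → ℝ} (hu : ∀ i ∈ s, D.SmAt (u i) z) :
    D.levi (fun w => ∑ i ∈ s, u i w) z v = ∑ i ∈ s, D.levi (u i) z v := by
  classical
  induction s using Finset.induction_on with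
  | empty => exact levi_const v 0
  | insert a s ha ih =>
    have h1 : ∀ i ∈ s, D.SmAt (u i) z := fun i hi => hu i (Finset.mem_insert_of_mem hi)
    simp only [Finset.sum_insert ha]
    rw [levi_add v (hu a (Finset.mem_insert_self a s)) (SmAt.sum h1), ih h1]

theorem psh_log (hu : D.SmAt u z) (h0 : u z ≠ 0) : D.levi (fun w => Real.log (u w)) z v =
    (u z * D.levi u z v - ‖D.dv u z v‖ ^ 2) / u z ^ 2 := by
  rw [levi_comp v hu (Real.contDiffAt_log.2 h0), Real.deriv_log', deriv_inv]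
  field_simp
  ring

theorem psh_cs {ι : Type} (s : Finset ι) {c : ι → ℂ} {f g : ι → ℝ} (hf : ∀ i ∈ s, 0 ≤ f i)
    (hg : ∀ i ∈ s, 0 ≤ g i) (h : ∀ i ∈ s, ‖c i‖ ^ 2 = f i * g i) :
    ‖∑ i ∈ s, c i‖ ^ 2 ≤ (∑ i ∈ s, f i) * ∑ i ∈ s, g i :=
  (pow_le_pow_left₀ (norm_nonneg _) (norm_sum_le _ _) 2).trans
    (Finset.sum_sq_le_sum_mul_sum_of_sq_le_mul s hf hg fun i hi => (h i hi).le)

theorem levi_log_sq {ι : Type} [Fintype ι] {s : ι → Ω → ℂ} (hs : ∀ i, D.HolAt (s i) z) {ε : ℝ}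
    (hε : 0 < ε) :
    ε * (∑ i, ‖∑ j, D.d j (s i) z * v j‖ ^ 2) / (ε + ∑ i, ‖s i z‖ ^ 2) ^ 2 ≤
      D.levi (fun w => Real.log (ε + ∑ i, ‖s i w‖ ^ 2)) z v := by
  have h1 : ∀ i ∈ Finset.univ, D.SmAt (fun w => ‖s i w‖ ^ 2) z := fun i _ => (hs i).smAt.normSq
  have h2 : 0 < ε + ∑ i, ‖s i z‖ ^ 2 := by positivity
  rw [psh_log v ((smAt_const ε).add (SmAt.sum h1)) h2.ne', levi_add v (smAt_const ε) (SmAt.sum h1),
    levi_const, zero_add, psh_levi_sum v h1, psh_dv_cadd v (SmAt.sum h1), psh_dv_sum v h1]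
  simp only [psh_levi_sq v (hs _), psh_dv_sq v (hs _)]
  refine div_le_div_of_nonneg_right ?_ (by positivity)
  have := psh_cs Finset.univ (c := fun i => (∑ j, D.d j (s i) z * v j) * conj (s i z))
    (f := fun i => ‖s i z‖ ^ 2) (g := fun i => ‖∑ j, D.d j (s i) z * v j‖ ^ 2)
    (fun _ _ => sq_nonneg _) (fun _ _ => sq_nonneg _) fun i _ => by
      rw [norm_mul, Complex.norm_conj]
      ring
  linarith

theorem levi_log_unit {f : Ω → ℂ} (hf : D.HolAt f z) (h0 : f z ≠ 0) :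
    D.levi (fun w => Real.log (‖f w‖ ^ 2)) z v = 0 := by
  rw [psh_log v hf.smAt.normSq (pow_ne_zero 2 (norm_ne_zero_iff.2 h0)), psh_levi_sq v hf,
    psh_dv_sq v hf, norm_mul, Complex.norm_conj, mul_pow, mul_comm, sub_self, zero_div]

/-- `dbar (b (u) g)` paired with `v`. -/
theorem dbar_cut (hu : D.SmAt u z) {b : ℝ → ℝ} (hb : ContDiffAt ℝ ∞ b (u z)) {g : Ω → ℂ}
    (hg : D.SmAt g z) :
    ∑ j, D.db j (fun w => (b (u w) : ℂ) * g w) z * conj (v j) =
      deriv b (u z) * g z * conj (D.dv u z v) + b (u z) * ∑ j, D.db j g z * conj (v j) := by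
  simp only [db_mul _ (hu.comp hb).ofReal hg, db_comp _ hu (psh_has hb), db_ofReal _ hu, dv,
    map_sum, map_mul, Finset.mul_sum, ← Finset.sum_add_distrib]
  exact Finset.sum_congr rfl fun j _ => by ring

theorem Psh.congr (hu : D.Psh u z) (h : u =ᶠ[𝓝 z] u') : D.Psh u' z :=
  ⟨hu.1.congr h, fun v => levi_congr (D := D) v h ▸ hu.2 v⟩

theorem psh_const (c : ℝ) : D.Psh (fun _ => c) z :=
  ⟨smAt_const c, fun v => (levi_const v c).ge⟩

theorem Psh.add (hu : D.Psh u z) (hu' : D.Psh u' z) : D.Psh (fun w => u w + u' w) z :=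
  ⟨hu.1.add hu'.1, fun v => (add_nonneg (hu.2 v) (hu'.2 v)).trans_eq (levi_add v hu.1 hu'.1).symm⟩

theorem Psh.smul (hu : D.Psh u z) {c : ℝ} (hc : 0 ≤ c) : D.Psh (fun w => c * u w) z :=
  ⟨(smAt_const c).rmul hu.1, fun v => (mul_nonneg hc (hu.2 v)).trans_eq (levi_smul v hu.1 c).symm⟩

theorem Psh.comp (hu : D.Psh u z) {χ : ℝ → ℝ} (hχ : ContDiffAt ℝ ∞ χ (u z))
    (h1 : 0 ≤ deriv χ (u z)) (h2 : 0 ≤ deriv (deriv χ) (u z)) : D.Psh (fun w => χ (u w)) z :=
  ⟨hu.1.comp hχ, fun v => (add_nonneg (mul_nonneg h1 (hu.2 v))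
    (mul_nonneg h2 (sq_nonneg _))).trans_eq (levi_comp v hu.1 hχ).symm⟩

theorem psh_lse {ι : Type} {s : Finset ι} (hs : s.Nonempty) {u : ι → Ω → ℝ}
    (hu : ∀ i ∈ s, D.Psh (u i) z) : D.Psh (fun w => Real.log (∑ i ∈ s, Real.exp (u i w))) z := by
  have he : ∀ x, ContDiffAt ℝ ∞ Real.exp x := fun x => Real.contDiff_exp.contDiffAt
  have h1 : ∀ i ∈ s, D.SmAt (fun w => Real.exp (u i w)) z := fun i hi => (hu i hi).1.comp (he _)
  have h2 : 0 < ∑ i ∈ s, Real.exp (u i z) := Finset.sum_pos (fun _ _ => Real.exp_pos _) hs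
  refine ⟨(SmAt.sum h1).comp (Real.contDiffAt_log.2 h2.ne'), fun v => ?_⟩
  rw [psh_log v (SmAt.sum h1) h2.ne', psh_levi_sum v h1, psh_dv_sum v h1]
  refine div_nonneg (sub_nonneg.2 (psh_cs s (fun _ _ => (Real.exp_pos _).le)
    (g := fun i => Real.exp (u i z) * ‖D.dv (u i) z v‖ ^ 2) (fun _ _ => by positivity)
    (fun i hi => ?_) |>.trans (mul_le_mul_of_nonneg_left (Finset.sum_le_sum fun i hi => ?_) h2.le)))
    (sq_nonneg _)
  · rw [psh_dv_comp v (hu i hi).1 (he _), Real.deriv_exp, norm_mul, Complex.norm_real,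
      Real.norm_of_nonneg (Real.exp_pos _).le]
    ring
  · rw [levi_comp v (hu i hi).1 (he _), Real.deriv_exp, Real.deriv_exp]
    exact le_add_of_nonneg_left (mul_nonneg (Real.exp_pos _).le ((hu i hi).2 v))

theorem psh_log_sq {ι : Type} [Fintype ι] {s : ι → Ω → ℂ} (hs : ∀ i, D.HolAt (s i) z) {ε : ℝ}
    (hε : 0 < ε) : D.Psh (fun w => Real.log (ε + ∑ i, ‖s i w‖ ^ 2)) z :=
  ⟨((smAt_const ε).add (SmAt.sum fun i _ => (hs i).smAt.normSq)).comp
    (Real.contDiffAt_log.2 (by positivity)), fun v =>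
      le_trans (by positivity) (levi_log_sq v hs hε)⟩

theorem psh_log_unit {f : Ω → ℂ} (hf : D.HolAt f z) (h0 : f z ≠ 0) (c : ℝ) :
    D.Psh (fun w => c * Real.log (‖f w‖ ^ 2)) z := by
  have h1 : D.SmAt (fun w => Real.log (‖f w‖ ^ 2)) z :=
    hf.smAt.normSq.comp (Real.contDiffAt_log.2 (pow_ne_zero 2 (norm_ne_zero_iff.2 h0)))
  refine ⟨(smAt_const c).rmul h1, fun v => ?_⟩
  rw [levi_smul v h1, levi_log_unit v hf h0, mul_zero]

end EtDom

end Vale.Agent.P271
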