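import Vale.Agent.P271.H.Op

/-! P271 H/Sheet: moving functions between a sheet and the coordinate space.

Plan. `e = (D.ch z).toHomeomorphSourceTarget.toMeasurableEquiv` preserves the measures
`ν.comap val` and `volume.comap val` (`ν_ch`), so integrals, `eLpNorm`, `MemLp` and null sets
are transported without measurability hypotheses (`MeasurePreserving.integral_comp'`,
`integral_subtype_comap`, `MeasurableEmbedding.memLp_map_measure_iff`); alternatively prove
`Measure.map D.π (ν.restrict source) = volume.restrict target` and the same for `symm`.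
`eLpNorm_indicator_eq_eLpNorm_restrict`, `memLp_indicator_iff_restrict`; `pull` of a difference is
the difference. `test_pull`: on the source `pull z U =ᶠ U ∘ π` (`SmAt.comp`, `smAt_π`, `fd_comp_π`),
off the compact set `symm '' K ⊆ source` it vanishes (`fd_zero'`). `test_push`: on the target
`push z v =ᶠ loc v z` (`loc_ev`), off the compact set `π '' tsupport v` it vanishes.
Auxiliary names start with `sheet_`. -/

open MeasureTheory Set Filter Topology
open scoped ContDiff ENNReal ComplexConjugate Convolution

noncomputable section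

namespace Vale.Agent.P271

namespace EtDom

variable {n : ℕ} {Ω : Type} [TopologicalSpace Ω] [T2Space Ω] [SecondCountableTopology Ω]
  [MeasurableSpace Ω] [BorelSpace Ω] {D : EtDom n Ω}

variable (z : Ω)

theorem sheet_img : D.π '' (D.ch z).source = (D.ch z).target := by
  have := (D.ch z).image_source_eq_target
  rwa [D.coe] at this

theorem sheet_mem {w : Ω} (hw : w ∈ (D.ch z).source) : D.π w ∈ (D.ch z).target :=
  sheet_img z ▸ mem_image_of_mem _ hw

theorem sheet_mp : MeasurePreserving D.π (D.ν.restrict (D.ch z).source)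
    (volume.restrict (D.ch z).target) := by
  have hm : Measurable D.π := continuous_π.measurable
  refine ⟨hm, Measure.ext fun T hT => ?_⟩
  rw [Measure.map_apply hm hT, Measure.restrict_apply (hm hT), Measure.restrict_apply hT,
    D.ν_ch z _ ((hm hT).inter (D.ch z).open_source.measurableSet) inter_subset_right,
    image_preimage_inter, sheet_img]

theorem sheet_map : AEMeasurable (D.ch z).symm (volume.restrict (D.ch z).target) ∧
    D.ν.restrict (D.ch z).source =
      Measure.map (D.ch z).symm (volume.restrict (D.ch z).target) := by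
  have hS := (D.ch z).open_source.measurableSet
  obtain ⟨h1, h2⟩ := meas_map (D.ch z) hS subset_rfl
  rw [(D.ch z).image_source_eq_target] at h1 h2
  refine ⟨h1, Measure.ext fun T hT => ?_⟩
  rw [h2 T hT, Measure.restrict_apply hT, D.ν_ch z _ (hT.inter hS) inter_subset_right, D.coe]

theorem sheet_memLp {U : E n → ℂ} (hU : MemLp U 2 volume) : MemLp (D.pull z U) 2 D.ν :=
  (memLp_indicator_iff_restrict (D.ch z).open_source.measurableSet).2
    ((hU.restrict _).comp_measurePreserving (sheet_mp z))

theorem int_pull (U : E n → ℂ) : ∫ w, D.pull z U w ∂D.ν = ∫ y in (D.ch z).target, U y := by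
  rw [pull, integral_indicator (D.ch z).open_source.measurableSet]
  by_cases hU : AEStronglyMeasurable U (volume.restrict (D.ch z).target)
  · rw [← (sheet_mp z).map_eq] at hU ⊢
    exact (integral_map (sheet_mp z).aemeasurable hU).symm
  · rw [integral_non_aestronglyMeasurable hU, integral_non_aestronglyMeasurable fun h => hU ?_]
    rw [(sheet_map z).2] at h
    refine (h.comp_aemeasurable (sheet_map z).1).congr ?_
    filter_upwards [ae_restrict_mem (D.ch z).open_target.measurableSet] with y hy
    exact congrArg U (mean_right hy)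

theorem ae_pull {p : E n → Prop} (h : ∀ᵐ y, y ∈ (D.ch z).target → p y) :
    ∀ᵐ w ∂D.ν, w ∈ (D.ch z).source → p (D.π w) :=
  (ae_restrict_iff' (D.ch z).open_source.measurableSet).1 ((sheet_mp z).quasiMeasurePreserving.ae
    ((ae_restrict_iff' (D.ch z).open_target.measurableSet).2 h))

theorem push_π (u : Ω → ℂ) {w : Ω} (hw : w ∈ (D.ch z).source) : D.push z u (D.π w) = u w := by
  rw [push, indicator_of_mem (sheet_mem z hw)]
  exact congrArg u (mean_left hw)

theorem pull_push {u : Ω → ℂ} (h : ∀ w, w ∉ (D.ch z).source → u w = 0) :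
    D.pull z (D.push z u) = u := by
  funext w
  by_cases hw : w ∈ (D.ch z).source
  · rw [pull, indicator_of_mem hw, push_π z u hw]
  · rw [pull, indicator_of_notMem hw, h w hw]

theorem push_zero {u : Ω → ℂ} {K : Set Ω} (h : ∀ w, w ∉ K → u w = 0) {y : E n}
    (hy : y ∉ D.π '' K) : D.push z u y = 0 := by
  by_cases ht : y ∈ (D.ch z).target
  · rw [push, indicator_of_mem ht]
    exact h _ fun hK => hy ⟨_, hK, mean_right ht⟩
  · rw [push, indicator_of_notMem ht]

theorem memLp_push {u : Ω → ℂ} (hu : MemLp u 2 D.ν) : MemLp (D.push z u) 2 volume := by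
  have h := hu.restrict (D.ch z).source
  rw [(sheet_map z).2] at h
  exact (memLp_indicator_iff_restrict (D.ch z).open_target.measurableSet).2
    (h.comp_of_map (sheet_map z).1)

theorem l2lim_pull {F : ℕ → E n → ℂ} {G : E n → ℂ} (h : L2lim volume F G) :
    L2lim D.ν (fun m => D.pull z (F m)) (D.pull z G) := by
  refine ⟨fun m => sheet_memLp z (h.1 m), sheet_memLp z h.2.1, ?_⟩
  refine tendsto_of_tendsto_of_tendsto_of_le_of_le tendsto_const_nhds h.2.2 (fun _ => zero_le)
    fun m => ?_
  have e : D.pull z (F m) - D.pull z G = (D.ch z).source.indicator ((F m - G) ∘ D.π) :=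
    (indicator_sub' _ _ _).symm
  simp only [e]
  rw [eLpNorm_indicator_eq_eLpNorm_restrict (D.ch z).open_source.measurableSet,
    eLpNorm_comp_measurePreserving ((h.1 m).sub h.2.1).1.restrict (sheet_mp z)]
  exact eLpNorm_restrict_le _ _ _ _

theorem test_pull {U : E n → ℂ} (hU : ContDiff ℝ ∞ U) {K : Set (E n)} (hK : IsCompact K)
    (hKt : K ⊆ (D.ch z).target) (h0 : ∀ y, y ∉ K → U y = 0) :
    D.Test (D.pull z U) ∧ (∀ w, w ∉ (D.ch z).symm '' K → D.pull z U w = 0) ∧
      ∀ (ℓ : Op n) w, ℓ (D.fd (D.pull z U) w) = D.pull z (fun y => ℓ (fderiv ℝ U y)) w := by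
  have hK' : IsCompact ((D.ch z).symm '' K) :=
    hK.image_of_continuousOn ((D.ch z).continuousOn_symm.mono hKt)
  have hs : ∀ w, w ∉ (D.ch z).source → w ∉ (D.ch z).symm '' K := by
    rintro _ hw ⟨y, hy, rfl⟩
    exact hw ((D.ch z).map_target (hKt hy))
  have hz : ∀ w, w ∉ (D.ch z).symm '' K → D.pull z U w = 0 := fun w hw => by
    by_cases h : w ∈ (D.ch z).source
    · rw [pull, indicator_of_mem h]
      exact h0 _ fun hK => hw ⟨_, hK, mean_left h⟩
    · rw [pull, indicator_of_notMem h]
  have he : ∀ w ∈ (D.ch z).source, D.pull z U =ᶠ[𝓝 w] fun w => U (D.π w) := fun w hw =>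
    mem_of_superset ((D.ch z).open_source.mem_nhds hw) fun x hx => indicator_of_mem hx _
  refine ⟨test_of_zero hK' (fun w => ?_) hz, hz, fun ℓ w => ?_⟩
  · by_cases h : w ∈ (D.ch z).source
    · exact (smAt_π.comp hU.contDiffAt).congr (he w h).symm
    · exact (smAt_const 0).congr (EventuallyEq.symm
        (mem_of_superset (hK'.isClosed.isOpen_compl.mem_nhds (hs w h)) hz))
  · by_cases h : w ∈ (D.ch z).source
    · rw [fd_congr (he w h), fd_comp_π, pull, indicator_of_mem h]
    · rw [fd_zero' hK' hz (hs w h), map_zero, pull, indicator_of_notMem h]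

theorem test_push {v : Ω → ℂ} (hv : D.Test v) (hs : tsupport v ⊆ (D.ch z).source) :
    ContDiff ℝ ∞ (D.push z v) ∧ ∀ y, y ∉ D.π '' tsupport v → D.push z v y = 0 := by
  have hz : ∀ y, y ∉ D.π '' tsupport v → D.push z v y = 0 := fun y hy =>
    push_zero z (fun w hw => image_eq_zero_of_notMem_tsupport hw) hy
  refine ⟨contDiff_iff_contDiffAt.2 fun y => ?_, hz⟩
  by_cases h : y ∈ (D.ch z).target
  · have h1 := ContDiffAt.congr_of_eventuallyEq (hv.1 ((D.ch z).symm y))
      (loc_ev v ((D.ch z).map_target h))
    rw [mean_right h] at h1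
    exact h1.congr_of_eventuallyEq
      (mem_of_superset ((D.ch z).open_target.mem_nhds h) fun x hx => indicator_of_mem hx _)
  · have hc : IsCompact (D.π '' tsupport v) := hv.2.isCompact.image continuous_π
    have h1 : y ∉ D.π '' tsupport v := by
      rintro ⟨w, hw, rfl⟩
      exact h (sheet_mem z (hs hw))
    exact contDiffAt_const.congr_of_eventuallyEq
      (mem_of_superset (hc.isClosed.isOpen_compl.mem_nhds h1) hz)

end EtDom

end Vale.Agent.P271
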